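import Claimed.Agent.Lib.Dgnm.Reg

/-!
# Lib/Dgnm/Basic : calculus of test functions `dg_Test`; integrability; use of the weak form (leaf DG-BASIC)

Pure infrastructure, no idea needed.  Everything downstream quotes these lemmas instead of redoing
`ContDiffOn`/`tsupport` arguments.  KEY FACT used everywhere: if `ζ` is continuous (resp. `C^1`) with
`tsupport ζ ⊆ S`, `S` open, and `H` is continuous (resp. `C^1`) ON `S`, then `ζ * H` is continuous
(resp. `C^1`) on the whole space (near a point of `S` both factors are good, near a point outside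
`tsupport ζ` the product vanishes identically: `notMem_tsupport_iff_eventuallyEq`;
`S ∪ (tsupport ζ)ᶜ = univ`), and all formulas for its derivative hold at EVERY point
(outside `tsupport ζ`: `ζ x = 0`, `fderiv ℝ ζ x = 0`).
You may add further lemmas of the same kind (tell helper10), do not change the statements below.
-/

set_option autoImplicit false
set_option linter.unusedSectionVars false

open Set Filter MeasureTheory Metric
open scoped Topology ContDiff

namespace Claimed.Agent.Lib.Dgnm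

variable {W : Type*} [NormedAddCommGroup W] [InnerProductSpace ℝ W] [FiniteDimensional ℝ W]
  [MeasurableSpace W] [BorelSpace W]

variable {I I' : Set ℝ} {S S' : Set W} {u ut v vt G Gt H Ht : ℝ → W → ℝ}

/-! ## cutoff times locally regular -/

theorem dg_continuous_mul {E : Type*} [NormedAddCommGroup E] [NormedSpace ℝ E] (hS : IsOpen S)
    {ζ : W → ℝ} (hζ : Continuous ζ) (hs : tsupport ζ ⊆ S) {h : W → E} (hh : ContinuousOn h S) :
    Continuous (fun x => ζ x • h x) := by
  rw [continuous_iff_continuousAt]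
  intro x
  by_cases hx : x ∈ S
  · exact hζ.continuousAt.smul (hh.continuousAt (hS.mem_nhds hx))
  · have h0 : ζ =ᶠ[𝓝 x] 0 := notMem_tsupport_iff_eventuallyEq.1 (fun h => hx (hs h))
    have : (fun x => ζ x • h x) =ᶠ[𝓝 x] fun _ => (0 : E) := by
      filter_upwards [h0] with y hy
      rw [hy]; simp
    exact continuousAt_const.congr this.symm

/-- space-time version. -/
theorem dg_continuousOn_mul {E : Type*} [NormedAddCommGroup E] [NormedSpace ℝ E] (hS : IsOpen S)
    {ζ : W → ℝ} (hζ : Continuous ζ) (hs : tsupport ζ ⊆ S) {h : ℝ → W → E}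
    (hh : ContinuousOn (fun q : ℝ × W => h q.1 q.2) (I ×ˢ S)) :
    ContinuousOn (fun q : ℝ × W => ζ q.2 • h q.1 q.2) (I ×ˢ univ) := by
  intro q hq
  by_cases hx : q.2 ∈ S
  · have h1 : ContinuousWithinAt (fun q : ℝ × W => h q.1 q.2) (I ×ˢ univ) q := by
      apply (hh q ⟨hq.1, hx⟩).mono_of_mem_nhdsWithin
      exact mem_nhdsWithin.2 ⟨univ ×ˢ S, isOpen_univ.prod hS, ⟨trivial, hx⟩,
        fun p hp => ⟨hp.2.1, hp.1.2⟩⟩
    exact (hζ.comp continuous_snd).continuousWithinAt.smul h1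
  · have h0 : ζ =ᶠ[𝓝 q.2] 0 := notMem_tsupport_iff_eventuallyEq.1 (fun h => hx (hs h))
    have h1 : ∀ᶠ p : ℝ × W in 𝓝 q, ζ p.2 = 0 := continuous_snd.continuousAt.eventually h0
    have : (fun q : ℝ × W => ζ q.2 • h q.1 q.2) =ᶠ[𝓝 q] fun _ => (0 : E) := by
      filter_upwards [h1] with y hy
      rw [hy]; simp
    exact (continuousAt_const.congr this.symm).continuousWithinAt

theorem dg_integrable_mul {E : Type*} [NormedAddCommGroup E] [NormedSpace ℝ E] (hS : IsOpen S)
    {ζ : W → ℝ} (hζ : Continuous ζ) (hk : HasCompactSupport ζ) (hs : tsupport ζ ⊆ S) {h : W → E}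
    (hh : ContinuousOn h S) : Integrable (fun x => ζ x • h x) :=
  (dg_continuous_mul hS hζ hs hh).integrable_of_hasCompactSupport hk.smul_right

/-- measurable on `S`, zero off a compact subset `k` of `S`, bounded on `k`. -/
theorem dg_integrable_of_bdd_compact {E : Type*} [NormedAddCommGroup E] {k : Set W}
    (hk : IsCompact k) (hkS : k ⊆ S) {f : W → E}
    (hf : AEStronglyMeasurable f (volume.restrict S)) (h0 : ∀ x, x ∉ k → f x = 0) {B : ℝ}
    (hB : ∀ x ∈ k, ‖f x‖ ≤ B) : Integrable f := by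
  have h1 : IntegrableOn f k :=
    ⟨hf.mono_set hkS, HasFiniteIntegral.restrict_of_bounded (C := B) hk.measure_lt_top
      ((ae_restrict_iff' hk.measurableSet).2 (ae_of_all _ hB))⟩
  refine (integrableOn_iff_integrable_of_support_subset ?_).1 h1
  intro x hx
  by_contra hxk
  exact hx (h0 x hxk)

theorem dg_aesm_clm_apply {α E F : Type*} [MeasurableSpace α] {μ : Measure α}
    [NormedAddCommGroup E] [NormedSpace ℝ E] [NormedAddCommGroup F] [NormedSpace ℝ F]
    {φ : α → E →L[ℝ] F} {v : α → E} (hφ : AEStronglyMeasurable φ μ)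
    (hv : AEStronglyMeasurable v μ) : AEStronglyMeasurable (fun x => φ x (v x)) μ := by
  have := ContinuousLinearMap.aestronglyMeasurable_comp₂
    (ContinuousLinearMap.id ℝ (E →L[ℝ] F)) hφ hv
  simpa using this

/-- bounded measurable times continuous with compact support. -/
theorem dg_integrable_mul_meas {E : Type*} [NormedAddCommGroup E] [NormedSpace ℝ E] (hS : IsOpen S)
    {ζ : W → ℝ} (hζ : Continuous ζ) (hk : HasCompactSupport ζ) (hs : tsupport ζ ⊆ S) {h : W → E}
    (hh : AEStronglyMeasurable h (volume.restrict S)) {B : ℝ} (hB : ∀ x ∈ S, ‖h x‖ ≤ B) :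
    Integrable (fun x => ζ x • h x) := by
  obtain ⟨Z, hZ⟩ := hk.exists_bound_of_continuousOn hζ.continuousOn
  have hm : AEStronglyMeasurable (fun x => ζ x • h x) (volume.restrict S) :=
    hζ.aestronglyMeasurable.smul hh
  apply dg_integrable_of_bdd_compact hk hs hm (B := Z * B)
  · intro x hx
    rw [image_eq_zero_of_notMem_tsupport hx, zero_smul]
  · intro x hx
    rw [norm_smul]
    exact mul_le_mul (hZ x hx) (hB x (hs hx)) (norm_nonneg _) ((norm_nonneg _).trans (hZ x hx))

theorem dg_Test.mono {φ : W → ℝ} (h : dg_Test S φ) (hS : S ⊆ S') : dg_Test S' φ :=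
  ⟨h.smooth, h.cpt, h.supp.trans hS⟩

theorem dg_Test.mul {ζ η : W → ℝ} (h : dg_Test S ζ) (h' : ContDiff ℝ 1 η) :
    dg_Test S (fun x => ζ x * η x) :=
  ⟨h.smooth.mul h', h.cpt.mul_right, (tsupport_mul_subset_left (f := ζ) (g := η)).trans h.supp⟩

theorem dg_Test.sq {ζ : W → ℝ} (h : dg_Test S ζ) : dg_Test S (fun x => ζ x ^ 2) := by
  have : (fun x => ζ x ^ 2) = fun x => ζ x * ζ x := by funext x; ring
  rw [this]
  exact h.mul h.smooth

theorem dg_Test.eq_zero {ζ : W → ℝ} (h : dg_Test S ζ) {x : W} (hx : x ∉ S) : ζ x = 0 :=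
  image_eq_zero_of_notMem_tsupport (fun hx' => hx (h.supp hx'))

theorem dg_Test.fderiv_eq_zero {ζ : W → ℝ} (h : dg_Test S ζ) {x : W} (hx : x ∉ S) :
    fderiv ℝ ζ x = 0 :=
  fderiv_of_notMem_tsupport ℝ (fun hx' => hx (h.supp hx'))

theorem dg_Test.mul_on (hS : IsOpen S) {ζ w : W → ℝ} (h : dg_Test S ζ) (hw : ContDiffOn ℝ 1 w S) :
    dg_Test S (fun x => ζ x * w x) := by
  refine ⟨?_, h.cpt.mul_right, (tsupport_mul_subset_left (f := ζ) (g := w)).trans h.supp⟩
  rw [contDiff_iff_contDiffAt]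
  intro x
  by_cases hx : x ∈ S
  · exact h.smooth.contDiffAt.mul (hw.contDiffAt (hS.mem_nhds hx))
  · have h0 : ζ =ᶠ[𝓝 x] 0 := notMem_tsupport_iff_eventuallyEq.1 (fun hx' => hx (h.supp hx'))
    have : (fun x => ζ x * w x) =ᶠ[𝓝 x] fun _ => (0 : ℝ) := by
      filter_upwards [h0] with y hy
      rw [hy]; simp
    exact contDiffAt_const.congr_of_eventuallyEq this

/-- the product rule holds at EVERY point. -/
theorem dg_Test.fderiv_mul_on (hS : IsOpen S) {ζ w : W → ℝ} (h : dg_Test S ζ)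
    (hw : ContDiffOn ℝ 1 w S) (x : W) :
    fderiv ℝ (fun y => ζ y * w y) x = ζ x • fderiv ℝ w x + w x • fderiv ℝ ζ x := by
  by_cases hx : x ∈ S
  · have h1 : HasFDerivAt ζ (fderiv ℝ ζ x) x :=
      ((h.smooth.differentiable one_ne_zero) x).hasFDerivAt
    have h2 : HasFDerivAt w (fderiv ℝ w x) x :=
      ((hw.contDiffAt (hS.mem_nhds hx)).differentiableAt one_ne_zero).hasFDerivAt
    exact (h1.mul h2).fderiv
  · rw [(h.mul_on hS hw).fderiv_eq_zero hx, h.eq_zero hx, h.fderiv_eq_zero hx]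
    simp

/-! ## the coefficients and the weak form -/

variable {K : dg_Coef W} {lam Lam Lam' kF kg kF' kg' : ℝ}

theorem dg_Coef.Ok.mono (h : K.Ok I S lam Lam kF kg) (hI : I' ⊆ I) (hS : S' ⊆ S) (hL : Lam ≤ Lam')
    (hF : kF ≤ kF') (hg : kg ≤ kg') : K.Ok I' S' lam Lam' kF' kg' where
  mu_dt t ht x hx := (h.mu_dt t (hI ht) x (hS hx)).mono hI
  mu_cont := h.mu_cont.mono (prod_mono hI hS)
  mudt_cont := h.mudt_cont.mono (prod_mono hI hS)
  a_meas t ht := (h.a_meas t (hI ht)).mono_set hS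
  f_meas t ht := (h.f_meas t (hI ht)).mono_set hS
  b_meas t ht := (h.b_meas t (hI ht)).mono_set hS
  c_meas t ht := (h.c_meas t (hI ht)).mono_set hS
  F_meas t ht := (h.F_meas t (hI ht)).mono_set hS
  g_meas t ht := (h.g_meas t (hI ht)).mono_set hS
  mu_lo t ht x hx := h.mu_lo t (hI ht) x (hS hx)
  mu_hi t ht x hx := (h.mu_hi t (hI ht) x (hS hx)).trans hL
  mudt_le t ht x hx := (h.mudt_le t (hI ht) x (hS hx)).trans hL
  a_lo t ht x hx := h.a_lo t (hI ht) x (hS hx)
  a_hi t ht x hx ξ := (h.a_hi t (hI ht) x (hS hx) ξ).trans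
    (mul_le_mul_of_nonneg_right hL (norm_nonneg _))
  f_le t ht x hx := (h.f_le t (hI ht) x (hS hx)).trans hL
  b_le t ht x hx := (h.b_le t (hI ht) x (hS hx)).trans hL
  c_le t ht x hx := (h.c_le t (hI ht) x (hS hx)).trans hL
  F_le t ht x hx := (h.F_le t (hI ht) x (hS hx)).trans hF
  g_le t ht x hx := (h.g_le t (hI ht) x (hS hx)).trans hg

theorem dg_Coef.Ok.mu_regT (h : K.Ok I S lam Lam kF kg) : dg_RegT I S K.mu K.mudt :=
  ⟨h.mu_dt, h.mu_cont, h.mudt_cont⟩

/-- the weak form integrand vanishes outside `S`. -/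
theorem dg_form_eq_zero {φ : W → ℝ} (hφ : dg_Test S φ) (t : ℝ) {x : W} (hx : x ∉ S) :
    dg_form K u ut φ t x = 0 := by
  simp [dg_form, hφ.eq_zero hx, hφ.fderiv_eq_zero hx]

/-- the weak form integrand is integrable. -/
theorem dg_form_integrable (hS : IsOpen S) (hK : K.Ok I S lam Lam kF kg) (hu : dg_Reg I S u ut)
    {t : ℝ} (ht : t ∈ I) {φ : W → ℝ} (hφ : dg_Test S φ) : Integrable (dg_form K u ut φ t) := by
  have hSm : MeasurableSet S := hS.measurableSet
  set k := tsupport φ with hk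
  have hkc : IsCompact k := hφ.cpt
  have hkS : k ⊆ S := hφ.supp
  have huc : ContinuousOn (u t) S := (hu.c1 t ht).continuousOn
  have hdc : ContinuousOn (fderiv ℝ (u t)) S := (hu.c1 t ht).continuousOn_fderiv_of_isOpen hS le_rfl
  have hslice : ∀ {f : ℝ → W → ℝ}, ContinuousOn (fun q : ℝ × W => f q.1 q.2) (I ×ˢ S) →
      ContinuousOn (f t) S := by
    intro f hf
    exact hf.comp (Continuous.prodMk_right t).continuousOn (fun x hx => ⟨ht, hx⟩)
  have hutc : ContinuousOn (ut t) S := hslice hu.contt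
  have hmuc : ContinuousOn (K.mu t) S := hslice hK.mu_cont
  have hφc : Continuous φ := hφ.smooth.continuous
  have hdφc : Continuous (fderiv ℝ φ) := hφ.smooth.continuous_fderiv one_ne_zero
  obtain ⟨U0, hU0⟩ := hkc.exists_bound_of_continuousOn (huc.mono hkS)
  obtain ⟨U1, hU1⟩ := hkc.exists_bound_of_continuousOn (hdc.mono hkS)
  obtain ⟨P0, hP0⟩ := hkc.exists_bound_of_continuousOn hφc.continuousOn
  obtain ⟨P1, hP1⟩ := hkc.exists_bound_of_continuousOn hdφc.continuousOn
  have hum := huc.aestronglyMeasurable (μ := volume) hSm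
  have hdm := hdc.aestronglyMeasurable (μ := volume) hSm
  -- term A
  have hA : Integrable (fun x => K.mu t x * ut t x * φ x) := by
    have := dg_integrable_mul hS hφc hφ.cpt hφ.supp (hmuc.mul hutc)
    refine this.congr (ae_of_all _ (fun x => ?_))
    simp only [smul_eq_mul, Pi.mul_apply]; ring
  -- term B
  have hVm : AEStronglyMeasurable (fun x => K.a t x (fderiv ℝ (u t) x) + u t x • K.f t x + K.F t x)
      (volume.restrict S) := by
    have m1 : AEStronglyMeasurable (fun x => K.a t x (fderiv ℝ (u t) x)) (volume.restrict S) :=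
      dg_aesm_clm_apply (hK.a_meas t ht) hdm
    have m2 : AEStronglyMeasurable (fun x => u t x • K.f t x) (volume.restrict S) :=
      hum.smul (hK.f_meas t ht)
    exact (m1.add m2).add (hK.F_meas t ht)
  have hB : Integrable (fun x => fderiv ℝ φ x
      (K.a t x (fderiv ℝ (u t) x) + u t x • K.f t x + K.F t x)) := by
    have m3 : AEStronglyMeasurable (fun x => fderiv ℝ φ x
        (K.a t x (fderiv ℝ (u t) x) + u t x • K.f t x + K.F t x)) (volume.restrict S) :=
      dg_aesm_clm_apply hdφc.aestronglyMeasurable hVm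
    apply dg_integrable_of_bdd_compact hkc hkS m3 (B := P1 * (Lam * U1 + U0 * Lam + kF))
    · intro x hx
      rw [fderiv_of_notMem_tsupport ℝ hx]; simp
    · intro x hx
      have hxS := hkS hx
      have h1 : ‖K.a t x (fderiv ℝ (u t) x)‖ ≤ Lam * U1 := by
        have hL0 : 0 ≤ Lam := (norm_nonneg _).trans (hK.f_le t ht x hxS)
        exact (hK.a_hi t ht x hxS _).trans (mul_le_mul_of_nonneg_left (hU1 x hx) hL0)
      have h2 : ‖u t x • K.f t x‖ ≤ U0 * Lam := by
        rw [norm_smul]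
        exact mul_le_mul (hU0 x hx) (hK.f_le t ht x hxS) (norm_nonneg _)
          ((norm_nonneg _).trans (hU0 x hx))
      have h3 := hK.F_le t ht x hxS
      have h4 : ‖K.a t x (fderiv ℝ (u t) x) + u t x • K.f t x + K.F t x‖ ≤
          Lam * U1 + U0 * Lam + kF :=
        (norm_add_le _ _).trans (add_le_add ((norm_add_le _ _).trans (add_le_add h1 h2)) h3)
      exact ((fderiv ℝ φ x).le_opNorm _).trans
        (mul_le_mul (hP1 x hx) h4 (norm_nonneg _) ((norm_nonneg _).trans (hP1 x hx)))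
  -- term C
  have hCm : AEStronglyMeasurable (fun x => fderiv ℝ (u t) x (K.b t x) + K.c t x * u t x + K.g t x)
      (volume.restrict S) := by
    have m1 : AEStronglyMeasurable (fun x => fderiv ℝ (u t) x (K.b t x)) (volume.restrict S) :=
      dg_aesm_clm_apply hdm (hK.b_meas t ht)
    have m2 : AEStronglyMeasurable (fun x => K.c t x * u t x) (volume.restrict S) :=
      (hK.c_meas t ht).mul hum
    exact (m1.add m2).add (hK.g_meas t ht)
  have hC : Integrable (fun x =>
      (fderiv ℝ (u t) x (K.b t x) + K.c t x * u t x + K.g t x) * φ x) := by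
    have m3 : AEStronglyMeasurable (fun x =>
        (fderiv ℝ (u t) x (K.b t x) + K.c t x * u t x + K.g t x) * φ x) (volume.restrict S) :=
      hCm.mul hφc.aestronglyMeasurable
    apply dg_integrable_of_bdd_compact hkc hkS m3 (B := (U1 * Lam + Lam * U0 + kg) * P0)
    · intro x hx
      rw [image_eq_zero_of_notMem_tsupport hx, mul_zero]
    · intro x hx
      have hxS := hkS hx
      have h1 : ‖fderiv ℝ (u t) x (K.b t x)‖ ≤ U1 * Lam :=
        ((fderiv ℝ (u t) x).le_opNorm _).trans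
          (mul_le_mul (hU1 x hx) (hK.b_le t ht x hxS) (norm_nonneg _)
            ((norm_nonneg _).trans (hU1 x hx)))
      have h2 : ‖K.c t x * u t x‖ ≤ Lam * U0 := by
        rw [norm_mul]
        exact mul_le_mul (hK.c_le t ht x hxS) (hU0 x hx) (norm_nonneg _)
          ((abs_nonneg _).trans (hK.c_le t ht x hxS))
      have h3 : ‖K.g t x‖ ≤ kg := hK.g_le t ht x hxS
      have h4 : ‖fderiv ℝ (u t) x (K.b t x) + K.c t x * u t x + K.g t x‖ ≤
          U1 * Lam + Lam * U0 + kg :=
        (norm_add_le _ _).trans (add_le_add ((norm_add_le _ _).trans (add_le_add h1 h2)) h3)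
      rw [norm_mul]
      exact mul_le_mul h4 (hP0 x hx) (norm_nonneg _) ((norm_nonneg _).trans h4)
  exact (hA.add hB).sub hC

theorem dg_Sub.mono (h : dg_Sub K I S u ut) (hI : I' ⊆ I) (hS : S' ⊆ S) : dg_Sub K I' S' u ut :=
  fun t ht φ hφ h0 => h t (hI ht) φ (hφ.mono hS) h0

theorem dg_Super.mono (h : dg_Super K I S u ut) (hI : I' ⊆ I) (hS : S' ⊆ S) :
    dg_Super K I' S' u ut :=
  fun t ht φ hφ h0 => h t (hI ht) φ (hφ.mono hS) h0

theorem dg_Sol.mono (h : dg_Sol K I S u ut) (hI : I' ⊆ I) (hS : S' ⊆ S) : dg_Sol K I' S' u ut :=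
  fun t ht φ hφ => h t (hI ht) φ (hφ.mono hS)

theorem dg_Sol.sub (h : dg_Sol K I S u ut) : dg_Sub K I S u ut :=
  fun t ht φ hφ _ => (h t ht φ hφ).le

theorem dg_Sol.super (h : dg_Sol K I S u ut) : dg_Super K I S u ut :=
  fun t ht φ hφ _ => (h t ht φ hφ).ge

/-- THE WAY THE WEAK FORM IS USED: a pointwise lower bound of the integrand on `S` by an integrable
function gives an integral inequality. -/
theorem dg_Sub.integral_le (hS : IsOpen S) (hK : K.Ok I S lam Lam kF kg) (hu : dg_Reg I S u ut)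
    (h : dg_Sub K I S u ut) {t : ℝ} (ht : t ∈ I) {φ : W → ℝ} (hφ : dg_Test S φ) (h0 : ∀ x, 0 ≤ φ x)
    {J : W → ℝ} (hJ : Integrable J) (hJ0 : ∀ x, x ∉ S → J x = 0)
    (hle : ∀ x ∈ S, J x ≤ dg_form K u ut φ t x) : ∫ x, J x ≤ 0 := by
  refine le_trans (integral_mono hJ (dg_form_integrable hS hK hu ht hφ) (fun x => ?_))
    (h t ht φ hφ h0)
  by_cases hx : x ∈ S
  · exact hle x hx
  · rw [hJ0 x hx, dg_form_eq_zero hφ t hx]

theorem dg_Super.le_integral (hS : IsOpen S) (hK : K.Ok I S lam Lam kF kg) (hu : dg_Reg I S u ut)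
    (h : dg_Super K I S u ut) {t : ℝ} (ht : t ∈ I) {φ : W → ℝ} (hφ : dg_Test S φ)
    (h0 : ∀ x, 0 ≤ φ x) {J : W → ℝ} (hJ : Integrable J) (hJ0 : ∀ x, x ∉ S → J x = 0)
    (hle : ∀ x ∈ S, dg_form K u ut φ t x ≤ J x) : 0 ≤ ∫ x, J x := by
  refine le_trans (h t ht φ hφ h0)
    (integral_mono (dg_form_integrable hS hK hu ht hφ) hJ (fun x => ?_))
  by_cases hx : x ∈ S
  · exact hle x hx
  · rw [hJ0 x hx, dg_form_eq_zero hφ t hx]

theorem dg_PosSub.mono (h : dg_PosSub I S lam Lam K u ut) (hI : I' ⊆ I) (hS : S' ⊆ S)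
    (hS' : IsOpen S') : dg_PosSub I' S' lam Lam K u ut :=
  ⟨hS', h.ok.mono hI hS le_rfl le_rfl le_rfl, h.reg.mono hI hS,
    fun t ht x hx => h.pos t (hI ht) x (hS hx), h.sub.mono hI hS⟩

theorem dg_PosSuper.mono (h : dg_PosSuper I S lam Lam K u ut) (hI : I' ⊆ I) (hS : S' ⊆ S)
    (hS' : IsOpen S') : dg_PosSuper I' S' lam Lam K u ut :=
  ⟨hS', h.ok.mono hI hS le_rfl le_rfl le_rfl, h.reg.mono hI hS,
    fun t ht x hx => h.pos t (hI ht) x (hS hx), h.super.mono hI hS⟩

end Claimed.Agent.Lib.Dgnm
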