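import Claimed.Agent.Lib.Dgnm.Basic

/-!
# Lib/Dgnm/Hom : algebraic reductions between equations (leaf DG-HOM)

All statements are POINTWISE IDENTITIES of the weak form integrand `dg_form` plus bookkeeping of the
bounds and of measurability (`AEStronglyMeasurable.smul/mul/add`, continuous functions on the open set
`S` are `AEStronglyMeasurable` for `volume.restrict S`: `ContinuousOn.aestronglyMeasurable`).

* `K.hom u k` : if `u ≥ 0` solves the INHOMOGENEOUS equation `K` and `k > 0`, `kF, kg ≤ k`, then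
  `ū = u + k > 0` solves the HOMOGENEOUS equation with `f' = (u f + F)/ū`, `c' = (c u + g)/ū`
  (`‖f'‖ ≤ (u Lam + k)/(u + k) ≤ max Lam 1`).
* `K.scaleRhs A` : `A (q - m0)` solves the equation with `A F`, `A g` (when `f = 0`, `c = 0`).
* `K.absorb q` : `q f` is moved into `F`, `c q` into `g`.
-/

set_option autoImplicit false
set_option linter.unusedSectionVars false

open Set Filter MeasureTheory Metric
open scoped Topology ContDiff

namespace Claimed.Agent.Lib.Dgnm

variable {W : Type*} [NormedAddCommGroup W] [InnerProductSpace ℝ W] [FiniteDimensional ℝ W]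
  [MeasurableSpace W] [BorelSpace W]

variable {I : Set ℝ} {S : Set W} {u ut q qt : ℝ → W → ℝ} {K : dg_Coef W} {lam Lam kF kg : ℝ}

/-- homogenisation. -/
noncomputable def dg_Coef.hom (K : dg_Coef W) (u : ℝ → W → ℝ) (k : ℝ) : dg_Coef W :=
  { K with
    f := fun t x => (u t x + k)⁻¹ • (u t x • K.f t x + K.F t x)
    c := fun t x => (u t x + k)⁻¹ * (K.c t x * u t x + K.g t x)
    F := fun _ _ => 0
    g := fun _ _ => 0 }

theorem dg_form_hom (K : dg_Coef W) (u ut : ℝ → W → ℝ) {k : ℝ} (φ : W → ℝ) {t : ℝ} {x : W}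
    (h : u t x + k ≠ 0) :
    dg_form (K.hom u k) (fun t x => u t x + k) ut φ t x = dg_form K u ut φ t x := by
  have e1 : fderiv ℝ (fun x => u t x + k) x = fderiv ℝ (u t) x := fderiv_add_const k
  have e2 : (u t x + k)⁻¹ * (K.c t x * u t x + K.g t x) * (u t x + k)
      = K.c t x * u t x + K.g t x := by
    field_simp
  simp only [dg_form, dg_Coef.hom, e1, smul_smul, mul_inv_cancel₀ h, one_smul, add_zero, e2]
  rw [add_assoc (K.a t x (fderiv ℝ (u t) x)), add_assoc (fderiv ℝ (u t) x (K.b t x))]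

/-- slices of functions continuous on `I × S`. -/
theorem dg_hom_slice {E : Type*} [TopologicalSpace E] {H : ℝ → W → E}
    (hH : ContinuousOn (fun q : ℝ × W => H q.1 q.2) (I ×ˢ S)) {t : ℝ} (ht : t ∈ I) :
    ContinuousOn (H t) S :=
  hH.comp (f := fun x : W => ((t, x) : ℝ × W))
    (continuous_const.prodMk continuous_id).continuousOn (fun _ hx => ⟨ht, hx⟩)

theorem dg_hom_aesm {E : Type*} [NormedAddCommGroup E] (hS : IsOpen S) {h : W → E}
    (hh : ContinuousOn h S) : AEStronglyMeasurable h (volume.restrict S) :=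
  hh.aestronglyMeasurable hS.measurableSet

theorem dg_Coef.Ok.hom (hS : IsOpen S) (hK : K.Ok I S lam Lam kF kg) (hu : dg_Reg I S u ut)
    (h0 : ∀ t ∈ I, ∀ x ∈ S, 0 ≤ u t x) {k : ℝ} (hk : 0 < k) (hF : kF ≤ k) (hg : kg ≤ k) :
    (K.hom u k).Ok I S lam (max Lam 1) 0 0 := by
  have h2 := hK.mono (I' := I) (S' := S) (Lam' := max Lam 1) subset_rfl subset_rfl
    (le_max_left _ _) le_rfl le_rfl
  have hum : ∀ t ∈ I, AEStronglyMeasurable (u t) (volume.restrict S) := fun t ht =>
    dg_hom_aesm hS (dg_hom_slice hu.cont0 ht)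
  have hinv : ∀ t ∈ I, AEStronglyMeasurable (fun x => (u t x + k)⁻¹) (volume.restrict S) :=
    fun t ht => dg_hom_aesm hS (((dg_hom_slice hu.cont0 ht).add continuousOn_const).inv₀
      (fun x hx => by have := h0 t ht x hx; exact (by positivity : 0 < u t x + k).ne'))
  have hbd : ∀ {y v : ℝ}, 0 ≤ v → y ≤ Lam * v + k → (v + k)⁻¹ * y ≤ max Lam 1 := by
    intro y v hv hy
    have hp : 0 < v + k := by positivity
    rw [inv_mul_le_iff₀ hp]
    have h3 : Lam * v ≤ max Lam 1 * v := mul_le_mul_of_nonneg_right (le_max_left _ _) hv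
    have h4 : k ≤ max Lam 1 * k := by
      have := mul_le_mul_of_nonneg_right (le_max_right Lam 1) hk.le
      linarith
    nlinarith
  exact
  { mu_dt := h2.mu_dt
    mu_cont := h2.mu_cont
    mudt_cont := h2.mudt_cont
    a_meas := h2.a_meas
    f_meas := fun t ht => (hinv t ht).smul (((hum t ht).smul (hK.f_meas t ht)).add (hK.F_meas t ht))
    b_meas := h2.b_meas
    c_meas := fun t ht => (hinv t ht).mul (((hK.c_meas t ht).mul (hum t ht)).add (hK.g_meas t ht))
    F_meas := fun _ _ => aestronglyMeasurable_const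
    g_meas := fun _ _ => aestronglyMeasurable_const
    mu_lo := h2.mu_lo
    mu_hi := h2.mu_hi
    mudt_le := h2.mudt_le
    a_lo := h2.a_lo
    a_hi := h2.a_hi
    f_le := fun t ht x hx => by
      have hv := h0 t ht x hx
      have hp : 0 < u t x + k := by positivity
      show ‖(u t x + k)⁻¹ • (u t x • K.f t x + K.F t x)‖ ≤ max Lam 1
      rw [norm_smul, norm_inv, Real.norm_eq_abs, abs_of_pos hp]
      refine hbd hv ?_
      calc ‖u t x • K.f t x + K.F t x‖ ≤ ‖u t x • K.f t x‖ + ‖K.F t x‖ := norm_add_le _ _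
        _ = u t x * ‖K.f t x‖ + ‖K.F t x‖ := by
            rw [norm_smul, Real.norm_eq_abs, abs_of_nonneg hv]
        _ ≤ Lam * u t x + k := by
            have h5 := mul_le_mul_of_nonneg_left (hK.f_le t ht x hx) hv
            have h6 := hK.F_le t ht x hx
            linarith
    b_le := h2.b_le
    c_le := fun t ht x hx => by
      have hv := h0 t ht x hx
      have hp : 0 < u t x + k := by positivity
      show |(u t x + k)⁻¹ * (K.c t x * u t x + K.g t x)| ≤ max Lam 1
      rw [abs_mul, abs_inv, abs_of_pos hp]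
      refine hbd hv ?_
      calc |K.c t x * u t x + K.g t x| ≤ |K.c t x * u t x| + |K.g t x| := abs_add_le _ _
        _ = |K.c t x| * u t x + |K.g t x| := by rw [abs_mul, abs_of_nonneg hv]
        _ ≤ Lam * u t x + k := by
            have h5 := mul_le_mul_of_nonneg_right (hK.c_le t ht x hx) hv
            have h6 := hK.g_le t ht x hx
            linarith
    F_le := fun _ _ _ _ => by simp [dg_Coef.hom]
    g_le := fun _ _ _ _ => by simp [dg_Coef.hom] }

theorem dg_hom_integral (h0 : ∀ t ∈ I, ∀ x ∈ S, 0 ≤ u t x) {k : ℝ} (hk : 0 < k) {t : ℝ}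
    (ht : t ∈ I) {φ : W → ℝ} (hφ : dg_Test S φ) :
    ∫ x, dg_form (K.hom u k) (fun t x => u t x + k) ut φ t x = ∫ x, dg_form K u ut φ t x := by
  congr 1
  funext x
  by_cases hx : x ∈ S
  · exact dg_form_hom K u ut φ (by have := h0 t ht x hx; positivity)
  · rw [dg_form_eq_zero hφ t hx, dg_form_eq_zero hφ t hx]

theorem dg_PosSub.of_sub (hS : IsOpen S) (hK : K.Ok I S lam Lam kF kg) (hu : dg_Reg I S u ut)
    (h0 : ∀ t ∈ I, ∀ x ∈ S, 0 ≤ u t x) {k : ℝ} (hk : 0 < k) (hF : kF ≤ k) (hg : kg ≤ k)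
    (h : dg_Sub K I S u ut) :
    dg_PosSub I S lam (max Lam 1) (K.hom u k) (fun t x => u t x + k) ut where
  isOpen := hS
  ok := hK.hom hS hu h0 hk hF hg
  reg := hu.add_const k
  pos := fun t ht x hx => by have := h0 t ht x hx; positivity
  sub := fun t ht φ hφ hφ0 => by
    rw [dg_hom_integral h0 hk ht hφ]
    exact h t ht φ hφ hφ0

theorem dg_PosSuper.of_super (hS : IsOpen S) (hK : K.Ok I S lam Lam kF kg) (hu : dg_Reg I S u ut)
    (h0 : ∀ t ∈ I, ∀ x ∈ S, 0 ≤ u t x) {k : ℝ} (hk : 0 < k) (hF : kF ≤ k) (hg : kg ≤ k)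
    (h : dg_Super K I S u ut) :
    dg_PosSuper I S lam (max Lam 1) (K.hom u k) (fun t x => u t x + k) ut where
  isOpen := hS
  ok := hK.hom hS hu h0 hk hF hg
  reg := hu.add_const k
  pos := fun t ht x hx => by have := h0 t ht x hx; positivity
  super := fun t ht φ hφ hφ0 => by
    rw [dg_hom_integral h0 hk ht hφ]
    exact h t ht φ hφ hφ0

/-- multiply the right hand side by `A`. -/
noncomputable def dg_Coef.scaleRhs (K : dg_Coef W) (A : ℝ) : dg_Coef W :=
  { K with
    F := fun t x => A • K.F t x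
    g := fun t x => A * K.g t x }

theorem dg_Coef.Ok.scaleRhs (hK : K.Ok I S lam Lam kF kg) (A : ℝ) :
    (K.scaleRhs A).Ok I S lam Lam (|A| * kF) (|A| * kg) :=
  { mu_dt := hK.mu_dt
    mu_cont := hK.mu_cont
    mudt_cont := hK.mudt_cont
    a_meas := hK.a_meas
    f_meas := hK.f_meas
    b_meas := hK.b_meas
    c_meas := hK.c_meas
    F_meas := fun t ht => (hK.F_meas t ht).const_smul A
    g_meas := fun t ht => (hK.g_meas t ht).const_mul A
    mu_lo := hK.mu_lo
    mu_hi := hK.mu_hi
    mudt_le := hK.mudt_le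
    a_lo := hK.a_lo
    a_hi := hK.a_hi
    f_le := hK.f_le
    b_le := hK.b_le
    c_le := hK.c_le
    F_le := fun t ht x hx => by
      show ‖A • K.F t x‖ ≤ |A| * kF
      rw [norm_smul, Real.norm_eq_abs]
      exact mul_le_mul_of_nonneg_left (hK.F_le t ht x hx) (abs_nonneg A)
    g_le := fun t ht x hx => by
      show |A * K.g t x| ≤ |A| * kg
      rw [abs_mul]
      exact mul_le_mul_of_nonneg_left (hK.g_le t ht x hx) (abs_nonneg A) }

theorem dg_Sol.affine (hS : IsOpen S) (hq : dg_Reg I S q qt) (hf : ∀ t x, K.f t x = 0)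
    (hc : ∀ t x, K.c t x = 0) (h : dg_Sol K I S q qt) (A m0 : ℝ) :
    dg_Sol (K.scaleRhs A) I S (fun t x => A * (q t x - m0)) (fun t x => A * qt t x) := by
  intro t ht φ hφ
  have e : ∀ x, dg_form (K.scaleRhs A) (fun t x => A * (q t x - m0)) (fun t x => A * qt t x) φ t x
      = A * dg_form K q qt φ t x := by
    intro x
    by_cases hx : x ∈ S
    · have hd := (hq.hasFDerivAt hS ht hx)
      have e1 : fderiv ℝ (fun x => A * (q t x - m0)) x = A • fderiv ℝ (q t) x :=
        ((hd.sub_const m0).const_mul A).fderiv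
      simp only [dg_form, dg_Coef.scaleRhs, e1, hf, hc, smul_zero, add_zero, zero_mul, map_smul,
        map_add, _root_.smul_apply, smul_eq_mul]
      ring
    · rw [dg_form_eq_zero hφ t hx, dg_form_eq_zero hφ t hx, mul_zero]
  simp only [e]
  rw [integral_const_mul, h t ht φ hφ, mul_zero]

theorem dg_Reg.affine (hS : IsOpen S) (hq : dg_Reg I S q qt) (A m0 : ℝ) :
    dg_Reg I S (fun t x => A * (q t x - m0)) (fun t x => A * qt t x) := by
  simpa [sub_eq_add_neg] using ((hq.add_const (-m0)).const_mul hS A)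

/-- move `q f` into `F` and `c q` into `g`. -/
noncomputable def dg_Coef.absorb (K : dg_Coef W) (q : ℝ → W → ℝ) : dg_Coef W :=
  { K with
    f := fun _ _ => 0
    c := fun _ _ => 0
    F := fun t x => K.F t x + q t x • K.f t x
    g := fun t x => K.g t x + K.c t x * q t x }

theorem dg_form_absorb (K : dg_Coef W) (q qt : ℝ → W → ℝ) (φ : W → ℝ) (t : ℝ) (x : W) :
    dg_form (K.absorb q) q qt φ t x = dg_form K q qt φ t x := by
  simp only [dg_form, dg_Coef.absorb, smul_zero, add_zero, zero_mul, map_add]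
  ring

theorem dg_Coef.Ok.absorb (hS : IsOpen S) (hK : K.Ok I S lam Lam kF kg) (hq : dg_Reg I S q qt)
    (hL : 0 ≤ Lam) {M0 : ℝ} (hM : ∀ t ∈ I, ∀ x ∈ S, |q t x| ≤ M0) :
    (K.absorb q).Ok I S lam Lam (kF + Lam * M0) (kg + Lam * M0) := by
  have hqm : ∀ t ∈ I, AEStronglyMeasurable (q t) (volume.restrict S) := fun t ht =>
    dg_hom_aesm hS (dg_hom_slice hq.cont0 ht)
  exact
  { mu_dt := hK.mu_dt
    mu_cont := hK.mu_cont
    mudt_cont := hK.mudt_cont
    a_meas := hK.a_meas
    f_meas := fun _ _ => aestronglyMeasurable_const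
    b_meas := hK.b_meas
    c_meas := fun _ _ => aestronglyMeasurable_const
    F_meas := fun t ht => (hK.F_meas t ht).add ((hqm t ht).smul (hK.f_meas t ht))
    g_meas := fun t ht => (hK.g_meas t ht).add ((hK.c_meas t ht).mul (hqm t ht))
    mu_lo := hK.mu_lo
    mu_hi := hK.mu_hi
    mudt_le := hK.mudt_le
    a_lo := hK.a_lo
    a_hi := hK.a_hi
    f_le := fun _ _ _ _ => by simpa [dg_Coef.absorb] using hL
    b_le := hK.b_le
    c_le := fun _ _ _ _ => by simpa [dg_Coef.absorb] using hL
    F_le := fun t ht x hx => by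
      show ‖K.F t x + q t x • K.f t x‖ ≤ kF + Lam * M0
      have h1 := hM t ht x hx
      calc ‖K.F t x + q t x • K.f t x‖ ≤ ‖K.F t x‖ + ‖q t x • K.f t x‖ := norm_add_le _ _
        _ = ‖K.F t x‖ + |q t x| * ‖K.f t x‖ := by rw [norm_smul, Real.norm_eq_abs]
        _ ≤ kF + Lam * M0 := by
            have h2 := hK.F_le t ht x hx
            have h3 : |q t x| * ‖K.f t x‖ ≤ M0 * Lam :=
              mul_le_mul h1 (hK.f_le t ht x hx) (norm_nonneg _) ((abs_nonneg _).trans h1)
            linarith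
    g_le := fun t ht x hx => by
      show |K.g t x + K.c t x * q t x| ≤ kg + Lam * M0
      have h1 := hM t ht x hx
      calc |K.g t x + K.c t x * q t x| ≤ |K.g t x| + |K.c t x * q t x| := abs_add_le _ _
        _ = |K.g t x| + |K.c t x| * |q t x| := by rw [abs_mul]
        _ ≤ kg + Lam * M0 := by
            have h2 := hK.g_le t ht x hx
            have h3 : |K.c t x| * |q t x| ≤ Lam * M0 :=
              mul_le_mul (hK.c_le t ht x hx) h1 (abs_nonneg _) hL
            linarith }

theorem dg_Sol.absorb (h : dg_Sol K I S q qt) : dg_Sol (K.absorb q) I S q qt := by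
  intro t ht φ hφ
  simp only [dg_form_absorb]
  exact h t ht φ hφ

theorem dg_Sub.absorb (h : dg_Sub K I S q qt) : dg_Sub (K.absorb q) I S q qt := by
  intro t ht φ hφ h0
  simp only [dg_form_absorb]
  exact h t ht φ hφ h0

theorem dg_Super.absorb (h : dg_Super K I S q qt) : dg_Super (K.absorb q) I S q qt := by
  intro t ht φ hφ h0
  simp only [dg_form_absorb]
  exact h t ht φ hφ h0

end Claimed.Agent.Lib.Dgnm
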