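import Claimed.Agent.Lib.Dgnm.Time

/-!
# Lib/Dgnm/Scale : parabolic scaling and translation (leaf DG-SCALE)

`(t, x) ↦ (t0 + r^2 t, x0 + r x)`, `r > 0`.  `u_r = dg_sc t0 x0 r u`, `∂_t u_r = r^2 (u_t)_r`,
`d u_r = r (du)_r` (`fderiv_comp_add_left`/`fderiv_comp_smul`-type chain rule; valid at every point:
`x ↦ x0 + r • x` is an affine homeomorphism, use `HasFDerivAt.comp` where `u t` is differentiable; on the
domain `S` it always is).  Coefficients `K.sc`: `mu_r`, `r^2 mudt_r`, `a_r`, `r f_r`, `r b_r`, `r^2 c_r`,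
`r F_r`, `r^2 g_r`.
KEY IDENTITY: for `φ : W → ℝ` and `φ_r x = φ (x0 + r x)`:
`dg_form (K.sc ..) u_r (r^2 (u_t)_r) φ_r t x = r^2 * dg_form K u ut φ (t0 + r^2 t) (x0 + r x)`  (for `x0 + r x ∈ S`;
both sides vanish otherwise when `φ` is a test function for `S`),
and `∫ h (x0 + r x) dx = r^{-m} ∫ h` (`Measure.integral_comp_smul`, `integral_add_left_eq_self`).
Every test function `ψ` for `dg_scS x0 r S` is `φ_r` with `φ y = ψ (r⁻¹ (y - x0))`, a test function for `S`.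
Measurability: `AEStronglyMeasurable` is preserved by composition with the affine homeomorphism (it is
quasi measure preserving: `(Homeomorph ..).measurableEmbedding`, `Measure.map_addHaar_smul`;
`volume.restrict (preimage)`).
-/

set_option autoImplicit false
set_option linter.unusedSectionVars false

open Set Filter MeasureTheory Metric
open scoped Topology ContDiff

namespace Claimed.Agent.Lib.Dgnm

variable {W : Type*} [NormedAddCommGroup W] [InnerProductSpace ℝ W] [FiniteDimensional ℝ W]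
  [MeasurableSpace W] [BorelSpace W]

/-- rescaled function. -/
def dg_sc {E : Type*} (t0 : ℝ) (x0 : W) (r : ℝ) (u : ℝ → W → E) : ℝ → W → E :=
  fun t x => u (t0 + r ^ 2 * t) (x0 + r • x)

/-- rescaled time set. -/
def dg_scI (t0 r : ℝ) (I : Set ℝ) : Set ℝ := {t | t0 + r ^ 2 * t ∈ I}

/-- rescaled spatial domain. -/
def dg_scS (x0 : W) (r : ℝ) (S : Set W) : Set W := {x | x0 + r • x ∈ S}

/-- rescaled coefficients. -/
noncomputable def dg_Coef.sc (K : dg_Coef W) (t0 : ℝ) (x0 : W) (r : ℝ) : dg_Coef W where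
  mu := dg_sc t0 x0 r K.mu
  mudt := fun t x => r ^ 2 * dg_sc t0 x0 r K.mudt t x
  a := dg_sc t0 x0 r K.a
  f := fun t x => r • dg_sc t0 x0 r K.f t x
  b := fun t x => r • dg_sc t0 x0 r K.b t x
  c := fun t x => r ^ 2 * dg_sc t0 x0 r K.c t x
  F := fun t x => r • dg_sc t0 x0 r K.F t x
  g := fun t x => r ^ 2 * dg_sc t0 x0 r K.g t x

variable {I : Set ℝ} {S : Set W} {u ut : ℝ → W → ℝ} {K : dg_Coef W} {lam Lam kF kg : ℝ}
  {t0 : ℝ} {x0 : W} {r : ℝ}

theorem dg_scS_isOpen (hS : IsOpen S) (x0 : W) (r : ℝ) : IsOpen (dg_scS x0 r S) :=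
  hS.preimage (f := fun x : W => x0 + r • x) (by fun_prop)

theorem dg_scI_Icc (hr : 0 < r) (t0 a b : ℝ) :
    dg_scI t0 r (Icc (t0 + r ^ 2 * a) (t0 + r ^ 2 * b)) = Icc a b := by
  have h2 : 0 < r ^ 2 := pow_pos hr 2
  ext t
  simp only [dg_scI, mem_ofPred_eq, mem_Icc, add_le_add_iff_left, mul_le_mul_iff_right₀ h2]

theorem dg_scS_ball (hr : 0 < r) (x0 : W) (ρ : ℝ) : dg_scS x0 r (ball x0 (r * ρ)) = ball 0 ρ := by
  ext x
  simp only [dg_scS, mem_ofPred_eq, mem_ball, dist_eq_norm, add_sub_cancel_left, sub_zero,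
    norm_smul, Real.norm_eq_abs, abs_of_pos hr, mul_lt_mul_iff_right₀ hr]

theorem dg_scS_closedBall (hr : 0 < r) (x0 : W) (ρ : ℝ) :
    dg_scS x0 r (closedBall x0 (r * ρ)) = closedBall 0 ρ := by
  ext x
  simp only [dg_scS, mem_ofPred_eq, mem_closedBall, dist_eq_norm, add_sub_cancel_left, sub_zero,
    norm_smul, Real.norm_eq_abs, abs_of_pos hr, mul_le_mul_iff_right₀ hr]

/-- the chain rule for the affine substitution holds for EVERY function at EVERY point. -/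
theorem dg_sc_fderiv {E : Type*} [NormedAddCommGroup E] [NormedSpace ℝ E] (g : W → E) (x0 : W)
    (r : ℝ) (x : W) :
    fderiv ℝ (fun y => g (x0 + r • y)) x = r • fderiv ℝ g (x0 + r • x) := by
  have h1 := fderiv_comp_smul (𝕜 := ℝ) (f := fun z => g (x0 + z)) (x := x) r
  rw [h1, fderiv_comp_add_left]

theorem dg_sc_continuous (t0 : ℝ) (x0 : W) (r : ℝ) :
    Continuous (fun q : ℝ × W => ((t0 + r ^ 2 * q.1, x0 + r • q.2) : ℝ × W)) := by fun_prop

theorem dg_sc_mapsTo (t0 : ℝ) (x0 : W) (r : ℝ) (I : Set ℝ) (S : Set W) :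
    MapsTo (fun q : ℝ × W => ((t0 + r ^ 2 * q.1, x0 + r • q.2) : ℝ × W))
      (dg_scI t0 r I ×ˢ dg_scS x0 r S) (I ×ˢ S) := fun _ hq => ⟨hq.1, hq.2⟩

theorem dg_sc_continuousOn {E : Type*} [TopologicalSpace E] {H : ℝ → W → E}
    (h : ContinuousOn (fun q : ℝ × W => H q.1 q.2) (I ×ˢ S)) (t0 : ℝ) (x0 : W) (r : ℝ) :
    ContinuousOn (fun q : ℝ × W => dg_sc t0 x0 r H q.1 q.2) (dg_scI t0 r I ×ˢ dg_scS x0 r S) :=
  h.comp (dg_sc_continuous t0 x0 r).continuousOn (dg_sc_mapsTo t0 x0 r I S)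

theorem dg_sc_hasDerivWithinAt {G Gt : ℝ → W → ℝ}
    (h : ∀ t ∈ I, ∀ x ∈ S, HasDerivWithinAt (fun s => G s x) (Gt t x) I t) (t0 : ℝ) (x0 : W)
    (r : ℝ) : ∀ t ∈ dg_scI t0 r I, ∀ x ∈ dg_scS x0 r S,
      HasDerivWithinAt (fun s => dg_sc t0 x0 r G s x) (r ^ 2 * dg_sc t0 x0 r Gt t x)
        (dg_scI t0 r I) t := by
  intro t ht x hx
  have h1 := h _ ht _ hx
  have h2 : HasDerivWithinAt (fun s : ℝ => t0 + r ^ 2 * s) (r ^ 2) (dg_scI t0 r I) t := by
    have := ((hasDerivAt_id t).const_mul (r ^ 2)).const_add t0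
    simpa using this.hasDerivWithinAt
  have h3 := h1.scomp t h2 (fun s hs => hs)
  simpa [dg_sc, Function.comp_def, smul_eq_mul] using h3

theorem dg_Reg.sc (hr : 0 < r) (hS : IsOpen S) (h : dg_Reg I S u ut) (t0 : ℝ) (x0 : W) :
    dg_Reg (dg_scI t0 r I) (dg_scS x0 r S) (dg_sc t0 x0 r u)
      (fun t x => r ^ 2 * dg_sc t0 x0 r ut t x) where
  c1 := fun t ht => (h.c1 _ ht).comp (g := u (t0 + r ^ 2 * t)) (f := fun x : W => x0 + r • x)
    (by fun_prop : ContDiff ℝ 1 (fun x : W => x0 + r • x)).contDiffOn (fun x hx => hx)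
  dt := dg_sc_hasDerivWithinAt h.dt t0 x0 r
  cont0 := dg_sc_continuousOn h.cont0 t0 x0 r
  cont1 := by
    have h1 := (dg_sc_continuousOn (H := fun t x => fderiv ℝ (u t) x) h.cont1 t0 x0 r).const_smul r
    refine h1.congr (fun q _ => ?_)
    exact dg_sc_fderiv (u (t0 + r ^ 2 * q.1)) x0 r q.2
  contt := continuousOn_const.mul (dg_sc_continuousOn h.contt t0 x0 r)

theorem dg_sc_qmp (hr : 0 < r) (x0 : W) (S : Set W) :
    Measure.QuasiMeasurePreserving (fun x : W => x0 + r • x) (volume.restrict (dg_scS x0 r S))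
      (volume.restrict S) := by
  have h1 : Measure.QuasiMeasurePreserving (fun x : W => r • x) volume volume :=
    Measure.quasiMeasurePreserving_smul volume hr.ne'
  have h2 : Measure.QuasiMeasurePreserving (fun x : W => x0 + x) volume volume :=
    (measurePreserving_add_left volume x0).quasiMeasurePreserving
  exact (h2.comp h1).restrict (fun x hx => hx)

theorem dg_sc_aesm {E : Type*} [TopologicalSpace E] (hr : 0 < r) {g : W → E}
    (h : AEStronglyMeasurable g (volume.restrict S)) (x0 : W) :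
    AEStronglyMeasurable (fun x => g (x0 + r • x)) (volume.restrict (dg_scS x0 r S)) :=
  h.comp_quasiMeasurePreserving (dg_sc_qmp hr x0 S)

/-- for `r ≤ 1` the structure constants do not increase; `kF ↦ r kF`, `kg ↦ r^2 kg`. -/
theorem dg_Coef.Ok.sc (hr : 0 < r) (hr1 : r ≤ 1) (hS : IsOpen S) (h : K.Ok I S lam Lam kF kg)
    (t0 : ℝ) (x0 : W) :
    (K.sc t0 x0 r).Ok (dg_scI t0 r I) (dg_scS x0 r S) lam Lam (r * kF) (r ^ 2 * kg) := by
  have hr2 : r ^ 2 ≤ 1 := pow_le_one₀ hr.le hr1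
  have hr20 : 0 ≤ r ^ 2 := sq_nonneg r
  have e1 : ∀ {y B : ℝ}, |y| ≤ B → |r ^ 2 * y| ≤ r ^ 2 * B := by
    intro y B hy
    rw [abs_mul, abs_of_nonneg hr20]
    exact mul_le_mul_of_nonneg_left hy hr20
  have e2 : ∀ {y : W} {B : ℝ}, ‖y‖ ≤ B → ‖r • y‖ ≤ r * B := by
    intro y B hy
    rw [norm_smul, Real.norm_eq_abs, abs_of_pos hr]
    exact mul_le_mul_of_nonneg_left hy hr.le
  have e3 : ∀ {y B : ℝ}, |y| ≤ B → |r ^ 2 * y| ≤ B := by
    intro y B hy
    have hB : 0 ≤ B := (abs_nonneg y).trans hy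
    exact (e1 hy).trans (by nlinarith)
  have e4 : ∀ {y : W} {B : ℝ}, ‖y‖ ≤ B → ‖r • y‖ ≤ B := by
    intro y B hy
    have hB : 0 ≤ B := (norm_nonneg y).trans hy
    exact (e2 hy).trans (by nlinarith)
  exact
  { mu_dt := dg_sc_hasDerivWithinAt h.mu_dt t0 x0 r
    mu_cont := dg_sc_continuousOn h.mu_cont t0 x0 r
    mudt_cont := continuousOn_const.mul (dg_sc_continuousOn h.mudt_cont t0 x0 r)
    a_meas := fun t ht => dg_sc_aesm hr (h.a_meas _ ht) x0
    f_meas := fun t ht => (dg_sc_aesm hr (h.f_meas _ ht) x0).const_smul r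
    b_meas := fun t ht => (dg_sc_aesm hr (h.b_meas _ ht) x0).const_smul r
    c_meas := fun t ht => (dg_sc_aesm hr (h.c_meas _ ht) x0).const_mul (r ^ 2)
    F_meas := fun t ht => (dg_sc_aesm hr (h.F_meas _ ht) x0).const_smul r
    g_meas := fun t ht => (dg_sc_aesm hr (h.g_meas _ ht) x0).const_mul (r ^ 2)
    mu_lo := fun t ht x hx => h.mu_lo _ ht _ hx
    mu_hi := fun t ht x hx => h.mu_hi _ ht _ hx
    mudt_le := fun t ht x hx => e3 (h.mudt_le _ ht _ hx)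
    a_lo := fun t ht x hx => h.a_lo _ ht _ hx
    a_hi := fun t ht x hx => h.a_hi _ ht _ hx
    f_le := fun t ht x hx => e4 (h.f_le _ ht _ hx)
    b_le := fun t ht x hx => e4 (h.b_le _ ht _ hx)
    c_le := fun t ht x hx => e3 (h.c_le _ ht _ hx)
    F_le := fun t ht x hx => e2 (h.F_le _ ht _ hx)
    g_le := fun t ht x hx => e1 (h.g_le _ ht _ hx) }

/-- the affine homeomorphism `x ↦ x0 + r x`. -/
noncomputable def dg_scHomeo (x0 : W) (r : ℝ) (hr : r ≠ 0) : W ≃ₜ W :=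
  (Homeomorph.smulOfNeZero r hr).trans (Homeomorph.addLeft x0)

theorem dg_scHomeo_apply (x0 : W) (r : ℝ) (hr : r ≠ 0) (x : W) :
    dg_scHomeo x0 r hr x = x0 + r • x := rfl

theorem dg_scHomeo_symm_apply (x0 : W) (r : ℝ) (hr : r ≠ 0) (y : W) :
    (dg_scHomeo x0 r hr).symm y = r⁻¹ • (y - x0) := by
  rw [Homeomorph.symm_apply_eq, dg_scHomeo_apply, smul_smul, mul_inv_cancel₀ hr, one_smul]
  abel

/-- every test function for the rescaled domain comes from a test function for `S`. -/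
theorem dg_Test.unsc (hr : r ≠ 0) {ψ : W → ℝ} (h : dg_Test (dg_scS x0 r S) ψ) :
    dg_Test S (fun y => ψ (r⁻¹ • (y - x0))) := by
  have e : (fun y => ψ (r⁻¹ • (y - x0))) = ψ ∘ (dg_scHomeo x0 r hr).symm := by
    funext y
    rw [Function.comp_apply, dg_scHomeo_symm_apply]
  refine ⟨h.smooth.comp (by fun_prop), ?_, ?_⟩
  · rw [e]
    exact h.cpt.comp_homeomorph _
  · rw [e, tsupport_comp_eq_preimage]
    intro y hy
    have h1 : (dg_scHomeo x0 r hr).symm y ∈ dg_scS x0 r S := h.supp hy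
    have h2 : x0 + r • (dg_scHomeo x0 r hr).symm y ∈ S := h1
    rwa [← dg_scHomeo_apply x0 r hr, Homeomorph.apply_symm_apply] at h2

/-- KEY IDENTITY. -/
theorem dg_form_sc (hr : r ≠ 0) (K : dg_Coef W) (u ut : ℝ → W → ℝ) (ψ : W → ℝ) (t0 : ℝ) (x0 : W)
    (t : ℝ) (x : W) :
    dg_form (K.sc t0 x0 r) (dg_sc t0 x0 r u) (fun t x => r ^ 2 * dg_sc t0 x0 r ut t x) ψ t x
      = r ^ 2 * dg_form K u ut (fun y => ψ (r⁻¹ • (y - x0))) (t0 + r ^ 2 * t) (x0 + r • x) := by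
  set φ : W → ℝ := fun y => ψ (r⁻¹ • (y - x0)) with hφ
  have e0 : ∀ y, φ (x0 + r • y) = ψ y := by
    intro y
    simp only [hφ, add_sub_cancel_left, smul_smul, inv_mul_cancel₀ hr, one_smul]
  have e1 : fderiv ℝ ψ x = r • fderiv ℝ φ (x0 + r • x) := by
    rw [← dg_sc_fderiv φ x0 r x]
    congr 1
    funext y
    exact (e0 y).symm
  have e2 : fderiv ℝ (dg_sc t0 x0 r u t) x = r • fderiv ℝ (u (t0 + r ^ 2 * t)) (x0 + r • x) :=
    dg_sc_fderiv (u (t0 + r ^ 2 * t)) x0 r x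
  simp only [dg_form, dg_Coef.sc, e1, e2, e0]
  simp only [dg_sc, map_smul, map_add, _root_.smul_apply, smul_eq_mul]
  ring

theorem dg_integral_sc (hr : 0 < r) (x0 : W) (F : W → ℝ) :
    ∫ x, F (x0 + r • x) = |(r ^ Module.finrank ℝ W)⁻¹| * ∫ y, F y := by
  rw [Measure.integral_comp_smul volume (fun z => F (x0 + z)) r, integral_add_left_eq_self,
    smul_eq_mul]

theorem dg_form_sc_integral (hr : 0 < r) (K : dg_Coef W) (u ut : ℝ → W → ℝ) (ψ : W → ℝ) (t0 : ℝ)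
    (x0 : W) (t : ℝ) :
    ∫ x, dg_form (K.sc t0 x0 r) (dg_sc t0 x0 r u) (fun t x => r ^ 2 * dg_sc t0 x0 r ut t x) ψ t x
      = (r ^ 2 * |(r ^ Module.finrank ℝ W)⁻¹|) *
        ∫ y, dg_form K u ut (fun y => ψ (r⁻¹ • (y - x0))) (t0 + r ^ 2 * t) y := by
  simp only [dg_form_sc hr.ne']
  rw [integral_const_mul, dg_integral_sc hr x0
    (dg_form K u ut (fun y => ψ (r⁻¹ • (y - x0))) (t0 + r ^ 2 * t)), mul_assoc]

theorem dg_Sub.sc (hr : 0 < r) (hS : IsOpen S) (hu : dg_Reg I S u ut) (h : dg_Sub K I S u ut)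
    (t0 : ℝ) (x0 : W) :
    dg_Sub (K.sc t0 x0 r) (dg_scI t0 r I) (dg_scS x0 r S) (dg_sc t0 x0 r u)
      (fun t x => r ^ 2 * dg_sc t0 x0 r ut t x) := by
  intro t ht ψ hψ h0
  rw [dg_form_sc_integral hr]
  exact mul_nonpos_of_nonneg_of_nonpos (by positivity)
    (h _ ht _ (hψ.unsc hr.ne') (fun y => h0 _))

theorem dg_Super.sc (hr : 0 < r) (hS : IsOpen S) (hu : dg_Reg I S u ut) (h : dg_Super K I S u ut)
    (t0 : ℝ) (x0 : W) :
    dg_Super (K.sc t0 x0 r) (dg_scI t0 r I) (dg_scS x0 r S) (dg_sc t0 x0 r u)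
      (fun t x => r ^ 2 * dg_sc t0 x0 r ut t x) := by
  intro t ht ψ hψ h0
  rw [dg_form_sc_integral hr]
  exact mul_nonneg (by positivity) (h _ ht _ (hψ.unsc hr.ne') (fun y => h0 _))

theorem dg_Sol.sc (hr : 0 < r) (hS : IsOpen S) (hu : dg_Reg I S u ut) (h : dg_Sol K I S u ut)
    (t0 : ℝ) (x0 : W) :
    dg_Sol (K.sc t0 x0 r) (dg_scI t0 r I) (dg_scS x0 r S) (dg_sc t0 x0 r u)
      (fun t x => r ^ 2 * dg_sc t0 x0 r ut t x) := by
  intro t ht ψ hψ
  rw [dg_form_sc_integral hr, h _ ht _ (hψ.unsc hr.ne'), mul_zero]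

/-- membership in standard cylinders. -/
theorem dg_mem_Q_sc (hr : 0 < r) (t0 : ℝ) (x0 : W) (ρ : ℝ) (t : ℝ) (x : W) :
    (t0 + r ^ 2 * t, x0 + r • x) ∈ dg_Q t0 x0 (r * ρ) ↔ (t, x) ∈ dg_Q 0 (0 : W) ρ := by
  have h2 : 0 < r ^ 2 := pow_pos hr 2
  have hx : x0 + r • x ∈ closedBall x0 (r * ρ) ↔ x ∈ closedBall (0 : W) ρ := by
    rw [← dg_scS_closedBall hr x0 ρ]; rfl
  simp only [dg_Q, dg_Cyl, mem_prod, hx, mem_Icc]
  have e1 : t0 - (r * ρ) ^ 2 ≤ t0 + r ^ 2 * t ↔ 0 - ρ ^ 2 ≤ t := by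
    constructor
    · intro h
      have : r ^ 2 * (0 - ρ ^ 2) ≤ r ^ 2 * t := by nlinarith
      exact le_of_mul_le_mul_left this h2
    · intro h
      have : r ^ 2 * (0 - ρ ^ 2) ≤ r ^ 2 * t := mul_le_mul_of_nonneg_left h h2.le
      nlinarith
  have e2 : t0 + r ^ 2 * t ≤ t0 ↔ t ≤ 0 := by
    constructor
    · intro h
      have : r ^ 2 * t ≤ r ^ 2 * 0 := by linarith
      exact le_of_mul_le_mul_left this h2
    · intro h
      have : r ^ 2 * t ≤ r ^ 2 * 0 := mul_le_mul_of_nonneg_left h h2.le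
      linarith
  rw [e1, e2]

theorem dg_map_affine {E : Type*} [NormedAddCommGroup E] [NormedSpace ℝ E] [MeasurableSpace E]
    [BorelSpace E] [FiniteDimensional ℝ E] (μ : Measure E) [μ.IsAddHaarMeasure] (x0 : E) {r : ℝ}
    (hr : r ≠ 0) :
    Measure.map (fun x : E => x0 + r • x) μ
      = ENNReal.ofReal |(r ^ Module.finrank ℝ E)⁻¹| • μ := by
  have h1 : (fun x : E => x0 + r • x) = (fun y => x0 + y) ∘ (fun x => r • x) := rfl
  rw [h1, ← Measure.map_map (measurable_const_add x0) (measurable_const_smul r),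
    Measure.map_addHaar_smul μ hr, Measure.map_smul, (measurePreserving_add_left μ x0).map_eq]

/-- change of variables on standard cylinders. -/
theorem dg_setIntegral_sc (hr : 0 < r) (t0 : ℝ) (x0 : W) (ρ : ℝ) (H : ℝ → W → ℝ) :
    ∫ q in dg_Q 0 (0 : W) ρ, dg_sc t0 x0 r H q.1 q.2
      = r ^ (-(dg_m W + 2)) * ∫ q in dg_Q t0 x0 (r * ρ), H q.1 q.2 := by
  have h2 : (r ^ 2 : ℝ) ≠ 0 := (pow_pos hr 2).ne'
  set Φ : ℝ × W → ℝ × W := Prod.map (fun t : ℝ => t0 + r ^ 2 • t) (fun x : W => x0 + r • x) with hΦ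
  have hemb : MeasurableEmbedding Φ :=
    ((dg_scHomeo t0 (r ^ 2) h2).prodCongr (dg_scHomeo x0 r hr.ne')).measurableEmbedding
  have hmap : Measure.map Φ (volume : Measure (ℝ × W))
      = ENNReal.ofReal (r ^ (-(dg_m W + 2))) • (volume : Measure (ℝ × W)) := by
    rw [Measure.volume_eq_prod, hΦ, ← Measure.map_prod_map _ _ (by fun_prop) (by fun_prop),
      dg_map_affine volume t0 h2, dg_map_affine volume x0 hr.ne', Measure.prod_smul_left,
      Measure.prod_smul_right, smul_smul]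
    congr 1
    rw [← ENNReal.ofReal_mul (abs_nonneg _)]
    congr 1
    rw [Module.finrank_self, pow_one, abs_of_pos (by positivity), abs_of_pos (by positivity),
      Real.rpow_neg hr.le, Real.rpow_add hr, dg_m, Real.rpow_natCast, mul_inv]
    norm_num
    ring
  have hpre : Φ ⁻¹' dg_Q t0 x0 (r * ρ) = dg_Q 0 (0 : W) ρ := by
    ext q
    exact dg_mem_Q_sc hr t0 x0 ρ q.1 q.2
  have h3 := hemb.setIntegral_map (μ := volume) (fun q : ℝ × W => H q.1 q.2) (dg_Q t0 x0 (r * ρ))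
  rw [hpre, hmap, Measure.restrict_smul, integral_smul_measure,
    ENNReal.toReal_ofReal (by positivity), smul_eq_mul] at h3
  rw [h3]
  rfl

end Claimed.Agent.Lib.Dgnm
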