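import Claimed.Agent.Lib.Dgnm.SupP
import Claimed.Agent.Lib.Dgnm.Scale
import Claimed.Agent.Lib.Dgnm.Hom

/-!
# Lib/Dgnm/Bound : local boundedness of nonnegative subsolutions, all scales `r ≤ 1` (leaf DG-BOUND)

API STATEMENT A1 (= DG1 of row316 with `p = 1`, (E3) of msg 9298, parabolic GT 8.17).
`u ≥ 0` subsolution of the general equation on `I × S`, `dg_Q t0 x0 r ⊆ I × S`, `0 < r ≤ 1`.
1. SCALE: `u_r = dg_sc t0 x0 r u` is a nonnegative subsolution of `K.sc t0 x0 r` on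
   `dg_scI t0 r I × dg_scS x0 r S ⊇ [-1,0] × closedBall 0 1`, bounds `(lam, Lam, r kF, r^2 kg)`.
2. HOM: for `ε > 0`, `k = r kF + r^2 kg + ε`: `u_r + k` is a `dg_PosSub .. lam (max Lam 1)`.
3. `dg_sup_Lp` (constant `Cp` for `(lam, max Lam 1, p)`): on `dg_Q 0 0 (1/2)`:
   `u_r ≤ u_r + k ≤ Cp (∫_{Q 0 0 1} (u_r + k)^p)^{1/p}`.
4. `(a+b)^p ≤ 2^p (a^p + b^p)` and `(x+y)^{1/p} ≤ 2^{1/p} (x^{1/p} + y^{1/p})` for `a,b,x,y ≥ 0`:
   `(∫ (u_r + k)^p)^{1/p} ≤ 2^{1+1/p} ((∫ u_r^p)^{1/p} + k v^{1/p})`, `v = vol (dg_Q 0 0 1) = vol (closedBall 0 1)`.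
5. `dg_setIntegral_sc`: `∫_{Q 0 0 1} u_r^p = r^{-(m+2)} ∫_{Q t0 x0 r} u^p`.  Let `ε → 0` (`le_of_forall_pos_le_add`).
-/

set_option autoImplicit false
set_option linter.unusedSectionVars false

open Set Filter MeasureTheory Metric
open scoped Topology ContDiff

namespace Claimed.Agent.Lib.Dgnm

variable {W : Type*} [NormedAddCommGroup W] [InnerProductSpace ℝ W] [FiniteDimensional ℝ W]
  [MeasurableSpace W] [BorelSpace W]

/-- `(a+b)^p ≤ 2^p (a^p + b^p)` for `a, b ≥ 0`, `p ≥ 0`. -/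
theorem dg_add_rpow_le {a b p : ℝ} (ha : 0 ≤ a) (hb : 0 ≤ b) (hp : 0 ≤ p) :
    (a + b) ^ p ≤ 2 ^ p * (a ^ p + b ^ p) := by
  have h1 : a + b ≤ 2 * max a b := by
    have := le_max_left a b; have := le_max_right a b; linarith
  have h2 : (a + b) ^ p ≤ (2 * max a b) ^ p := Real.rpow_le_rpow (by positivity) h1 hp
  rw [Real.mul_rpow (by norm_num) (le_max_of_le_left ha)] at h2
  refine h2.trans (mul_le_mul_of_nonneg_left ?_ (by positivity))
  have ha' := Real.rpow_nonneg ha p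
  have hb' := Real.rpow_nonneg hb p
  rcases max_cases a b with ⟨h, _⟩ | ⟨h, _⟩ <;> rw [h] <;> linarith

/-- `L^p` "triangle inequality" with a constant, for `u + k` on a set of finite measure. -/
theorem dg_Lp_add_const {α : Type*} [MeasurableSpace α] {μ : Measure α} {Q : Set α}
    (hQ : MeasurableSet Q) (hfin : μ Q ≠ ⊤) {f : α → ℝ} (hf0 : ∀ q ∈ Q, 0 ≤ f q) {p k : ℝ}
    (hp : 0 < p) (hk : 0 ≤ k) (hi : IntegrableOn (fun q => f q ^ p) Q μ)
    (hi' : IntegrableOn (fun q => (f q + k) ^ p) Q μ) :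
    (∫ q in Q, (f q + k) ^ p ∂μ) ^ (1 / p)
      ≤ 2 ^ (1 + 1 / p) * ((∫ q in Q, f q ^ p ∂μ) ^ (1 / p) + k * (μ.real Q) ^ (1 / p)) := by
  have hX0 : 0 ≤ ∫ q in Q, f q ^ p ∂μ :=
    setIntegral_nonneg hQ fun q hq => Real.rpow_nonneg (hf0 q hq) _
  have hic : IntegrableOn (fun _ : α => k ^ p) Q μ := integrableOn_const hfin
  have h1 : (∫ q in Q, (f q + k) ^ p ∂μ) ≤ 2 ^ p * ((∫ q in Q, f q ^ p ∂μ) + k ^ p * μ.real Q) := by
    have e : (∫ q in Q, f q ^ p ∂μ) + k ^ p * μ.real Q = ∫ q in Q, (f q ^ p + k ^ p) ∂μ := by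
      rw [integral_add hi hic, setIntegral_const, smul_eq_mul, mul_comm]
    rw [e, ← integral_const_mul]
    exact setIntegral_mono_on hi' ((hi.add hic).const_mul _) hQ fun q hq =>
      dg_add_rpow_le (hf0 q hq) hk hp.le
  have hv0 : 0 ≤ μ.real Q := measureReal_nonneg
  have hp' : 0 ≤ 1 / p := by positivity
  have h0 : 0 ≤ ∫ q in Q, (f q + k) ^ p ∂μ :=
    setIntegral_nonneg hQ fun q hq => Real.rpow_nonneg (add_nonneg (hf0 q hq) hk) _
  calc (∫ q in Q, (f q + k) ^ p ∂μ) ^ (1 / p)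
      ≤ (2 ^ p * ((∫ q in Q, f q ^ p ∂μ) + k ^ p * μ.real Q)) ^ (1 / p) :=
        Real.rpow_le_rpow h0 h1 hp'
    _ = 2 * ((∫ q in Q, f q ^ p ∂μ) + k ^ p * μ.real Q) ^ (1 / p) := by
        rw [Real.mul_rpow (by positivity) (by positivity), ← Real.rpow_mul (by norm_num),
          mul_one_div_cancel hp.ne', Real.rpow_one]
    _ ≤ 2 * (2 ^ (1 / p) * ((∫ q in Q, f q ^ p ∂μ) ^ (1 / p) + (k ^ p * μ.real Q) ^ (1 / p))) :=
        mul_le_mul_of_nonneg_left (dg_add_rpow_le hX0 (by positivity) hp') (by norm_num)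
    _ = _ := by
        rw [Real.mul_rpow (by positivity) hv0, ← Real.rpow_mul hk, mul_one_div_cancel hp.ne',
          Real.rpow_one, Real.rpow_add (by norm_num), Real.rpow_one]
        ring

variable (W) in
theorem dg_local_bound (hm : 2 ≤ Module.finrank ℝ W) (lam Lam : ℝ) (hl : 0 < lam) (hL : lam ≤ Lam)
    (p : ℝ) (hp : 0 < p) (hp2 : p ≤ 2) :
    ∃ C : ℝ, 0 < C ∧
    ∀ (I : Set ℝ) (S : Set W) (K : dg_Coef W) (u ut : ℝ → W → ℝ) (kF kg : ℝ), IsOpen S →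
      K.Ok I S lam Lam kF kg → dg_Reg I S u ut → (∀ t ∈ I, ∀ x ∈ S, 0 ≤ u t x) → dg_Sub K I S u ut →
    ∀ (t0 : ℝ) (x0 : W) (r : ℝ), 0 < r → r ≤ 1 → Icc (t0 - r ^ 2) t0 ⊆ I → closedBall x0 r ⊆ S →
      ∀ q ∈ dg_Q t0 x0 (r / 2), u q.1 q.2 ≤
        C * ((r ^ (-(dg_m W + 2)) * ∫ q in dg_Q t0 x0 r, u q.1 q.2 ^ p) ^ (1 / p)
          + r * kF + r ^ 2 * kg) := by
  obtain ⟨Cp, hCp, hsup⟩ := dg_sup_Lp W hm lam (max Lam 1) hl (hL.trans (le_max_left _ _)) p hp hp2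
  set v : ℝ := (volume : Measure (ℝ × W)).real (dg_Q (0 : ℝ) (0 : W) 1) with hv
  have hv0 : 0 ≤ v := measureReal_nonneg
  set C : ℝ := Cp * 2 ^ (1 + 1 / p) * (1 + v ^ (1 / p)) with hC
  have hC0 : 0 < C := by positivity
  refine ⟨C, hC0, ?_⟩
  intro I S K u ut kF kg hS hK hu h0 hsub t0 x0 r hr hr1 hI hR q hq
  have ht0I : t0 ∈ I := hI ⟨by nlinarith [sq_nonneg r], le_rfl⟩
  have hx0S : x0 ∈ S := hR (mem_closedBall_self hr.le)
  have hkF : 0 ≤ kF := (norm_nonneg _).trans (hK.F_le t0 ht0I x0 hx0S)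
  have hkg : 0 ≤ kg := (abs_nonneg _).trans (hK.g_le t0 ht0I x0 hx0S)
  set I' := dg_scI t0 r I with hI'
  set S' := dg_scS x0 r S with hS'
  set ur := dg_sc t0 x0 r u with hur
  have hS'o : IsOpen S' := dg_scS_isOpen hS x0 r
  have hK' := hK.sc hr hr1 hS t0 x0
  have hreg' := hu.sc hr hS t0 x0
  have h0' : ∀ t ∈ I', ∀ x ∈ S', 0 ≤ ur t x := fun t ht x hx => h0 _ ht _ hx
  have hsub' := hsub.sc hr hS hu t0 x0
  have hII : Icc ((0 : ℝ) - 1) 0 ⊆ I' := by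
    intro t ht
    refine hI ⟨?_, ?_⟩
    · nlinarith [ht.1, sq_nonneg r]
    · nlinarith [ht.2, sq_nonneg r]
  have hSS : closedBall (0 : W) 1 ⊆ S' := by
    intro x hx
    refine hR ?_
    rw [mem_closedBall_zero_iff] at hx
    rw [mem_closedBall, dist_eq_norm, add_sub_cancel_left, norm_smul, Real.norm_of_nonneg hr.le]
    nlinarith
  have hQ1 : dg_Q (0 : ℝ) (0 : W) 1 ⊆ I' ×ˢ S' := by
    refine dg_cyl_subset ?_ hSS
    simpa using hII
  have mQ : MeasurableSet (dg_Q (0 : ℝ) (0 : W) 1) := dg_measurableSet_cyl _ _ _ _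
  have fQ : (volume : Measure (ℝ × W)) (dg_Q (0 : ℝ) (0 : W) 1) ≠ ⊤ :=
    (dg_isCompact_cyl _ _ _ _).measure_lt_top.ne
  -- the point
  set t : ℝ := (q.1 - t0) / r ^ 2 with ht
  set x : W := r⁻¹ • (q.2 - x0) with hx
  have e1 : t0 + r ^ 2 * t = q.1 := by rw [ht]; field_simp; ring
  have e2 : x0 + r • x = q.2 := by
    rw [hx, smul_smul, mul_inv_cancel₀ hr.ne', one_smul]; abel
  have hmem : (t, x) ∈ dg_Q (0 : ℝ) (0 : W) (1 / 2) := by
    rw [← dg_mem_Q_sc hr t0 x0 (1 / 2) t x, e1, e2]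
    have : r * (1 / 2) = r / 2 := by ring
    rw [this]; exact hq
  have euq : u q.1 q.2 = ur t x := by rw [hur]; simp only [dg_sc, e1, e2]
  set X : ℝ := ∫ q in dg_Q (0 : ℝ) (0 : W) 1, ur q.1 q.2 ^ p with hX
  have eX : X = r ^ (-(dg_m W + 2)) * ∫ q in dg_Q t0 x0 r, u q.1 q.2 ^ p := by
    have := dg_setIntegral_sc hr t0 x0 1 (fun t x => u t x ^ p)
    rw [mul_one] at this
    exact this
  rw [← eX]
  have hX0 : 0 ≤ X := setIntegral_nonneg mQ fun q hq =>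
    Real.rpow_nonneg (h0' q.1 (hQ1 hq).1 q.2 (hQ1 hq).2) _
  have hXp0 : 0 ≤ X ^ (1 / p) := Real.rpow_nonneg hX0 _
  have curp : ContinuousOn (fun q : ℝ × W => ur q.1 q.2) (dg_Q (0 : ℝ) (0 : W) 1) :=
    hreg'.cont0.mono hQ1
  have main : ∀ ε : ℝ, 0 < ε → u q.1 q.2 ≤ C * (X ^ (1 / p) + r * kF + r ^ 2 * kg + ε) := by
    intro ε hε
    set k : ℝ := r * kF + r ^ 2 * kg + ε with hk
    have hk0 : 0 < k := by positivity
    have hPS := dg_PosSub.of_sub hS'o hK' hreg' h0' hk0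
      (by rw [hk]; nlinarith [mul_nonneg (sq_nonneg r) hkg])
      (by rw [hk]; nlinarith [mul_nonneg hr.le hkF]) hsub'
    have s1 := hsup I' S' _ _ _ hPS 0 0 hII hSS (t, x) hmem
    simp only at s1
    have s2 := dg_Lp_add_const (μ := (volume : Measure (ℝ × W))) mQ fQ
      (f := fun q : ℝ × W => ur q.1 q.2)
      (fun q hq => h0' q.1 (hQ1 hq).1 q.2 (hQ1 hq).2) hp hk0.le
      ((curp.rpow_const fun _ _ => Or.inr hp.le).integrableOn_compact (dg_isCompact_cyl _ _ _ _))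
      (((curp.add continuousOn_const).rpow_const fun _ _ => Or.inr hp.le).integrableOn_compact
        (dg_isCompact_cyl _ _ _ _))
    rw [← hv, ← hX] at s2
    have hvp0 : 0 ≤ v ^ (1 / p) := Real.rpow_nonneg hv0 _
    calc u q.1 q.2 = ur t x := euq
      _ ≤ ur t x + k := by linarith
      _ ≤ _ := s1
      _ ≤ Cp * (2 ^ (1 + 1 / p) * (X ^ (1 / p) + k * v ^ (1 / p))) :=
          mul_le_mul_of_nonneg_left s2 hCp.le
      _ ≤ Cp * (2 ^ (1 + 1 / p) * ((1 + v ^ (1 / p)) * (X ^ (1 / p) + k))) := by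
          refine mul_le_mul_of_nonneg_left (mul_le_mul_of_nonneg_left ?_ (by positivity)) hCp.le
          nlinarith [mul_nonneg hvp0 hXp0]
      _ = C * (X ^ (1 / p) + r * kF + r ^ 2 * kg + ε) := by rw [hC, hk]; ring
  refine le_of_forall_pos_le_add fun ε hε => ?_
  have := main (ε / C) (by positivity)
  have e : C * (X ^ (1 / p) + r * kF + r ^ 2 * kg + ε / C)
      = C * (X ^ (1 / p) + r * kF + r ^ 2 * kg) + ε := by field_simp
  rw [e] at this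
  exact this

end Claimed.Agent.Lib.Dgnm
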