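import Claimed.Agent.Lib.Dgnm.Bound

/-!
# Lib/Dgnm/BoundAbs : local boundedness of `|q|` for SOLUTIONS (leaf DG-ABS)

API STATEMENT A2.  `Φ(s) = sqrt (s^2 + ε^2)`, `Φ' = s/Φ`, `Φ'' = ε^2/Φ^3`, `v = Φ(q) ≥ ε > 0`, `|q| ≤ v ≤ |q| + ε`.
For a test function `φ ≥ 0` use `ψ = Φ'(q) φ` (a test function of ANY sign) in `dg_Sol`:
`dψ = Φ' dφ + Φ'' φ dq`, `dv = Φ' dq`, `v_t = Φ' q_t`.  With
`K2 = { K with f := (q^2/v^2) • f, F := (q/v) • F, c := c q^2/v^2 + c1, g := g q/v + g1 }`,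
`c1 = Lam^2/(2 lam)`, `g1 = kF^2/(2 lam ε)`:
`dg_form K2 v v_t φ = dg_form K q q_t ψ - Φ'' φ (dq(a dq) + q dq(f) + dq(F)) - (c1 v + g1) φ`  on `S`, and
`-Φ''(dq(a dq) + q dq(f) + dq(F)) ≤ Φ'' (|q| Lam + kF)^2/(4 lam) ≤ (ε^2/v^3)(q^2 Lam^2 + kF^2)/(2 lam) ≤ c1 v + g1`
(`ε^2 q^2 ≤ v^4`, `ε ≤ v`).  So `v` is a nonnegative subsolution of `K2`,
`K2.Ok I S lam (Lam + c1) kF (kg + g1)`.
Apply `dg_local_bound` (constants `lam`, `Lam + c1`, `p`) with `ε = r kF + ε0`, `ε0 > 0`: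
`r^2 g1 ≤ r kF/(2 lam)`;  `(r^{-(m+2)} ∫_{Q r} v^p)^{1/p} ≤ 2^{1+1/p} ((r^{-(m+2)} ∫ |q|^p)^{1/p} + ε v1^{1/p})`
(`vol (dg_Q t0 x0 r) = r^{m+2} v1`, `v1 = vol (closedBall 0 1)`).  Let `ε0 → 0`.
-/

set_option autoImplicit false
set_option linter.unusedSectionVars false

open Set Filter MeasureTheory Metric
open scoped Topology ContDiff

namespace Claimed.Agent.Lib.Dgnm

variable {W : Type*} [NormedAddCommGroup W] [InnerProductSpace ℝ W] [FiniteDimensional ℝ W]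
  [MeasurableSpace W] [BorelSpace W]

theorem dg_abs_aux {lam Lam kF ε s v n A1 B1 D1 : ℝ} (hl : 0 < lam) (hLam : 0 ≤ Lam)
    (hkF : 0 ≤ kF) (hε : 0 < ε) (hv : 0 < v) (hv2 : v ^ 2 = s ^ 2 + ε ^ 2)
    (hA1 : lam * n ^ 2 ≤ A1) (hB1 : |B1| ≤ n * Lam) (hD1 : |D1| ≤ n * kF) :
    -(ε ^ 2 / v ^ 3 * (A1 + s * B1 + D1)) ≤ Lam ^ 2 / (2 * lam) * v + kF ^ 2 / (2 * lam * ε) := by
  set T : ℝ := |s| * Lam + kF with hT
  have hT0 : 0 ≤ T := by positivity
  have hn : 0 ≤ n * Lam := (abs_nonneg _).trans hB1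
  have h1 : -(n * T) ≤ s * B1 + D1 := by
    have a1 : |s * B1| ≤ |s| * (n * Lam) := by
      rw [abs_mul]; exact mul_le_mul_of_nonneg_left hB1 (abs_nonneg _)
    have a2 := (abs_le.1 a1).1
    have a3 := (abs_le.1 hD1).1
    rw [hT]; nlinarith
  have y := dg_young lam hl n T
  have hT2 : T ^ 2 ≤ 2 * (s ^ 2 * Lam ^ 2) + 2 * kF ^ 2 := by
    rw [hT]
    have : (|s| * Lam) ^ 2 = s ^ 2 * Lam ^ 2 := by rw [mul_pow, sq_abs]
    nlinarith [sq_nonneg (|s| * Lam - kF)]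
  have h2 : -(A1 + s * B1 + D1) ≤ (s ^ 2 * Lam ^ 2 + kF ^ 2) / (2 * lam) := by
    have a1 : T ^ 2 / (4 * lam) ≤ (s ^ 2 * Lam ^ 2 + kF ^ 2) / (2 * lam) := by
      rw [div_le_div_iff₀ (by positivity) (by positivity)]
      nlinarith
    linarith
  set P2 : ℝ := ε ^ 2 / v ^ 3 with hP2
  have hP20 : 0 ≤ P2 := by positivity
  have hεv : ε ≤ v := by
    by_contra hcon
    push Not at hcon
    nlinarith [sq_nonneg s]
  have b1 : P2 * s ^ 2 ≤ v := by
    rw [hP2, div_mul_eq_mul_div, div_le_iff₀ (by positivity)]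
    have : v * v ^ 3 = (v ^ 2) ^ 2 := by ring
    rw [this, hv2]
    nlinarith [sq_nonneg (s ^ 2), sq_nonneg (ε ^ 2), mul_nonneg (sq_nonneg s) (sq_nonneg ε)]
  have b2 : P2 ≤ 1 / ε := by
    rw [hP2, div_le_div_iff₀ (by positivity) hε]
    have : ε ^ 3 ≤ v ^ 3 := pow_le_pow_left₀ hε.le hεv 3
    nlinarith
  have h3 := mul_le_mul_of_nonneg_left h2 hP20
  have e : P2 * ((s ^ 2 * Lam ^ 2 + kF ^ 2) / (2 * lam))
      = (P2 * s ^ 2) * (Lam ^ 2 / (2 * lam)) + P2 * (kF ^ 2 / (2 * lam)) := by ring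
  rw [e] at h3
  have c1 : (P2 * s ^ 2) * (Lam ^ 2 / (2 * lam)) ≤ v * (Lam ^ 2 / (2 * lam)) :=
    mul_le_mul_of_nonneg_right b1 (by positivity)
  have c2 : P2 * (kF ^ 2 / (2 * lam)) ≤ 1 / ε * (kF ^ 2 / (2 * lam)) :=
    mul_le_mul_of_nonneg_right b2 (by positivity)
  have e2 : 1 / ε * (kF ^ 2 / (2 * lam)) = kF ^ 2 / (2 * lam * ε) := by field_simp
  rw [e2] at c2
  linarith

theorem dg_abs_hasDerivAt_Phi {ε : ℝ} (hε : 0 < ε) (s : ℝ) :
    HasDerivAt (fun s => Real.sqrt (s ^ 2 + ε ^ 2)) (s / Real.sqrt (s ^ 2 + ε ^ 2)) s := by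
  have h1 : HasDerivAt (fun s : ℝ => s ^ 2 + ε ^ 2) (2 * s) s := by
    have := ((hasDerivAt_id s).pow 2).add_const (ε ^ 2)
    simpa using this
  have h2 : s ^ 2 + ε ^ 2 ≠ 0 := by positivity
  have h3 := h1.sqrt h2
  have e : s / Real.sqrt (s ^ 2 + ε ^ 2) = 2 * s / (2 * Real.sqrt (s ^ 2 + ε ^ 2)) := by
    rw [mul_div_mul_left _ _ two_ne_zero]
  rw [e]
  exact h3

theorem dg_abs_hasDerivAt_w {ε : ℝ} (hε : 0 < ε) (s : ℝ) :
    HasDerivAt (fun s => s / Real.sqrt (s ^ 2 + ε ^ 2)) (ε ^ 2 / Real.sqrt (s ^ 2 + ε ^ 2) ^ 3) s := by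
  have hpos : 0 < s ^ 2 + ε ^ 2 := by positivity
  have hv : 0 < Real.sqrt (s ^ 2 + ε ^ 2) := Real.sqrt_pos.2 hpos
  have h3 := (hasDerivAt_id s).div (dg_abs_hasDerivAt_Phi hε s) hv.ne'
  have hv2 : Real.sqrt (s ^ 2 + ε ^ 2) ^ 2 = s ^ 2 + ε ^ 2 := Real.sq_sqrt hpos.le
  set v := Real.sqrt (s ^ 2 + ε ^ 2) with hvdef
  have e : ε ^ 2 / v ^ 3 = (1 * v - id s * (s / v)) / v ^ 2 := by
    simp only [id]
    field_simp
    nlinarith
  rw [e]
  exact h3

theorem dg_abs_contDiff_Phi {ε : ℝ} (hε : 0 < ε) :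
    ContDiff ℝ 1 (fun s : ℝ => Real.sqrt (s ^ 2 + ε ^ 2)) :=
  ((contDiff_id.pow 2).add contDiff_const).sqrt fun s => by positivity

theorem dg_abs_contDiff_w {ε : ℝ} (hε : 0 < ε) :
    ContDiff ℝ 1 (fun s : ℝ => s / Real.sqrt (s ^ 2 + ε ^ 2)) :=
  contDiff_id.div (dg_abs_contDiff_Phi hε) fun s =>
    (Real.sqrt_pos.2 (by positivity : 0 < s ^ 2 + ε ^ 2)).ne'

/-- `sqrt (q^2 + ε^2)` is a subsolution. -/
theorem dg_abs_sub {lam Lam kF kg : ℝ} (hl : 0 < lam) (hL : lam ≤ Lam) {I : Set ℝ} {S : Set W}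
    {K : dg_Coef W} {q qt : ℝ → W → ℝ} (hS : IsOpen S) (hK : K.Ok I S lam Lam kF kg)
    (hq : dg_Reg I S q qt) (hsol : dg_Sol K I S q qt) (hkF : 0 ≤ kF) {ε : ℝ} (hε : 0 < ε) :
    ∃ (K2 : dg_Coef W) (vt : ℝ → W → ℝ),
      K2.Ok I S lam (Lam + Lam ^ 2 / (2 * lam)) kF (kg + kF ^ 2 / (2 * lam * ε)) ∧
      dg_Reg I S (fun t x => Real.sqrt (q t x ^ 2 + ε ^ 2)) vt ∧
      dg_Sub K2 I S (fun t x => Real.sqrt (q t x ^ 2 + ε ^ 2)) vt := by
  have hLam : 0 < Lam := lt_of_lt_of_le hl hL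
  set c1 : ℝ := Lam ^ 2 / (2 * lam) with hc1
  set g1 : ℝ := kF ^ 2 / (2 * lam * ε) with hg1
  have hc10 : 0 ≤ c1 := by positivity
  have hg10 : 0 ≤ g1 := by positivity
  set v : ℝ → W → ℝ := fun t x => Real.sqrt (q t x ^ 2 + ε ^ 2) with hv
  have hvpos : ∀ t x, 0 < v t x := fun t x => Real.sqrt_pos.2 (by positivity)
  have hv2 : ∀ t x, v t x ^ 2 = q t x ^ 2 + ε ^ 2 := fun t x => Real.sq_sqrt (by positivity)
  have hr : ∀ t ∈ I, ∀ x ∈ S, q t x ∈ (univ : Set ℝ) := fun _ _ _ _ => mem_univ _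
  have hreg := hq.comp hS isOpen_univ (dg_abs_contDiff_Phi hε).contDiffOn hr
  set vt : ℝ → W → ℝ := fun t x => deriv (fun s => Real.sqrt (s ^ 2 + ε ^ 2)) (q t x) * qt t x
    with hvt
  set K2 : dg_Coef W :=
    { mu := K.mu, mudt := K.mudt, a := K.a,
      f := fun t x => (q t x ^ 2 / v t x ^ 2) • K.f t x,
      b := K.b, c := fun t x => K.c t x * (q t x ^ 2 / v t x ^ 2) + c1,
      F := fun t x => (q t x / v t x) • K.F t x,
      g := fun t x => K.g t x * (q t x / v t x) + g1 } with hK2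
  have hqc : ∀ t ∈ I, ContinuousOn (q t) S := fun t ht => dg_continuousOn_slice hq.cont0 ht
  have hvc : ∀ t ∈ I, ContinuousOn (v t) S := fun t ht => dg_continuousOn_slice hreg.cont0 ht
  have hr1c : ∀ t ∈ I, ContinuousOn (fun x => q t x / v t x) S := fun t ht =>
    (hqc t ht).div (hvc t ht) fun x _ => (hvpos t x).ne'
  have hr2c : ∀ t ∈ I, ContinuousOn (fun x => q t x ^ 2 / v t x ^ 2) S := fun t ht =>
    ((hqc t ht).pow 2).div ((hvc t ht).pow 2) fun x _ => pow_ne_zero 2 (hvpos t x).ne'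
  have hr2 : ∀ t x, |q t x ^ 2 / v t x ^ 2| ≤ 1 := by
    intro t x
    rw [abs_of_nonneg (by positivity), div_le_one (pow_pos (hvpos t x) 2), hv2]
    nlinarith [sq_nonneg ε]
  have hr1 : ∀ t x, |q t x / v t x| ≤ 1 := by
    intro t x
    rw [abs_div, abs_of_pos (hvpos t x), div_le_one (hvpos t x)]
    apply abs_le_of_sq_le_sq _ (hvpos t x).le
    rw [hv2]; nlinarith [sq_nonneg ε]
  have hok : K2.Ok I S lam (Lam + c1) kF (kg + g1) := by
    refine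
      { mu_dt := hK.mu_dt, mu_cont := hK.mu_cont, mudt_cont := hK.mudt_cont
        a_meas := hK.a_meas, f_meas := ?_, b_meas := hK.b_meas, c_meas := ?_
        F_meas := ?_, g_meas := ?_
        mu_lo := hK.mu_lo, mu_hi := fun t ht x hx => (hK.mu_hi t ht x hx).trans (by linarith)
        mudt_le := fun t ht x hx => (hK.mudt_le t ht x hx).trans (by linarith)
        a_lo := hK.a_lo
        a_hi := fun t ht x hx ξ => (hK.a_hi t ht x hx ξ).trans
          (mul_le_mul_of_nonneg_right (by linarith) (norm_nonneg _))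
        f_le := ?_
        b_le := fun t ht x hx => (hK.b_le t ht x hx).trans (by linarith)
        c_le := ?_, F_le := ?_, g_le := ?_ }
    · intro t ht
      exact ((hr2c t ht).aestronglyMeasurable hS.measurableSet).smul (hK.f_meas t ht)
    · intro t ht
      exact ((hK.c_meas t ht).mul ((hr2c t ht).aestronglyMeasurable hS.measurableSet)).add
        aestronglyMeasurable_const
    · intro t ht
      exact ((hr1c t ht).aestronglyMeasurable hS.measurableSet).smul (hK.F_meas t ht)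
    · intro t ht
      exact ((hK.g_meas t ht).mul ((hr1c t ht).aestronglyMeasurable hS.measurableSet)).add
        aestronglyMeasurable_const
    · intro t ht x hx
      simp only [hK2]
      rw [norm_smul, Real.norm_eq_abs]
      have a1 := hr2 t x
      have a3 := hK.f_le t ht x hx
      calc |q t x ^ 2 / v t x ^ 2| * ‖K.f t x‖ ≤ 1 * Lam := by gcongr
        _ ≤ Lam + c1 := by linarith
    · intro t ht x hx
      simp only [hK2]
      have a1 := hr2 t x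
      have a3 := hK.c_le t ht x hx
      calc |K.c t x * (q t x ^ 2 / v t x ^ 2) + c1| ≤ |K.c t x * (q t x ^ 2 / v t x ^ 2)| + |c1| :=
            abs_add_le _ _
        _ = |K.c t x| * |q t x ^ 2 / v t x ^ 2| + c1 := by rw [abs_mul, abs_of_nonneg hc10]
        _ ≤ Lam * 1 + c1 := by gcongr
        _ = Lam + c1 := by ring
    · intro t ht x hx
      simp only [hK2]
      rw [norm_smul, Real.norm_eq_abs]
      have a1 := hr1 t x
      have a3 := hK.F_le t ht x hx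
      calc |q t x / v t x| * ‖K.F t x‖ ≤ 1 * kF := by gcongr
        _ = kF := one_mul _
    · intro t ht x hx
      simp only [hK2]
      have a1 := hr1 t x
      have a3 := hK.g_le t ht x hx
      have hkg : 0 ≤ kg := (abs_nonneg _).trans a3
      calc |K.g t x * (q t x / v t x) + g1| ≤ |K.g t x * (q t x / v t x)| + |g1| := abs_add_le _ _
        _ = |K.g t x| * |q t x / v t x| + g1 := by rw [abs_mul, abs_of_nonneg hg10]
        _ ≤ kg * 1 + g1 := by gcongr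
        _ = kg + g1 := by ring
  refine ⟨K2, vt, hok, hreg, ?_⟩
  intro t ht φ hφ hφ0
  have hwreg := hq.comp hS isOpen_univ (dg_abs_contDiff_w hε).contDiffOn hr
  have hw : ContDiffOn ℝ 1 (fun x => q t x / Real.sqrt (q t x ^ 2 + ε ^ 2)) S := hwreg.c1 t ht
  have hψ : dg_Test S (fun x => φ x * (q t x / Real.sqrt (q t x ^ 2 + ε ^ 2))) :=
    dg_Test.mul_on hS hφ hw
  have h0 := hsol t ht _ hψ
  rw [← h0]
  refine integral_mono (dg_form_integrable hS hok hreg ht hφ) (dg_form_integrable hS hK hq ht hψ) ?_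
  intro x
  by_cases hx : x ∈ S
  swap
  · simp only
    rw [dg_form_eq_zero hφ t hx, dg_form_eq_zero hψ t hx]
  have hdψ : fderiv ℝ (fun y => φ y * (q t y / Real.sqrt (q t y ^ 2 + ε ^ 2))) x
      = φ x • ((ε ^ 2 / v t x ^ 3) • fderiv ℝ (q t) x) + (q t x / v t x) • fderiv ℝ φ x := by
    rw [dg_Test.fderiv_mul_on hS hφ hw x,
      hq.fderiv_comp hS isOpen_univ (dg_abs_contDiff_w hε).contDiffOn hr ht hx,
      (dg_abs_hasDerivAt_w hε _).deriv]
  have hdv : fderiv ℝ (v t) x = (q t x / v t x) • fderiv ℝ (q t) x := by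
    have := hq.fderiv_comp hS isOpen_univ (dg_abs_contDiff_Phi hε).contDiffOn hr ht hx
    rw [(dg_abs_hasDerivAt_Phi hε _).deriv] at this
    exact this
  have key := dg_abs_aux (n := ‖fderiv ℝ (q t) x‖) (s := q t x) (v := v t x)
    (A1 := fderiv ℝ (q t) x (K.a t x (fderiv ℝ (q t) x)))
    (B1 := fderiv ℝ (q t) x (K.f t x)) (D1 := fderiv ℝ (q t) x (K.F t x)) hl hLam.le hkF hε
    (hvpos t x) (hv2 t x) (hK.a_lo t ht x hx _)
    (((fderiv ℝ (q t) x).le_opNorm _).trans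
      (mul_le_mul_of_nonneg_left (hK.f_le t ht x hx) (norm_nonneg _)))
    (((fderiv ℝ (q t) x).le_opNorm _).trans
      (mul_le_mul_of_nonneg_left (hK.F_le t ht x hx) (norm_nonneg _)))
  rw [← hc1, ← hg1] at key
  have key2 := mul_le_mul_of_nonneg_left key (hφ0 x)
  have hvne : v t x ≠ 0 := (hvpos t x).ne'
  simp only
  unfold dg_form
  rw [hdψ, hdv]
  simp only [hK2, hvt, (dg_abs_hasDerivAt_Phi hε _).deriv, add_apply, FunLike.coe_smul,
    Pi.smul_apply, smul_eq_mul, map_add, map_smul]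
  have ev : Real.sqrt (q t x ^ 2 + ε ^ 2) = v t x := rfl
  rw [ev]
  set w : ℝ := q t x / v t x with hwdef
  have e1 : v t x * (q t x ^ 2 / v t x ^ 2 * (fderiv ℝ φ x) (K.f t x))
      = w * (q t x * (fderiv ℝ φ x) (K.f t x)) := by
    rw [hwdef]; field_simp
  have e2 : (K.c t x * (q t x ^ 2 / v t x ^ 2) + c1) * v t x = w * (K.c t x * q t x) + c1 * v t x := by
    rw [hwdef]; field_simp
  rw [e1, e2]
  nlinarith [key2]

variable (W) in
theorem dg_local_bound_abs (hm : 2 ≤ Module.finrank ℝ W) (lam Lam : ℝ) (hl : 0 < lam)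
    (hL : lam ≤ Lam) (p : ℝ) (hp : 0 < p) (hp2 : p ≤ 2) :
    ∃ C : ℝ, 0 < C ∧
    ∀ (I : Set ℝ) (S : Set W) (K : dg_Coef W) (q qt : ℝ → W → ℝ) (kF kg : ℝ), IsOpen S →
      K.Ok I S lam Lam kF kg → dg_Reg I S q qt → dg_Sol K I S q qt →
    ∀ (t0 : ℝ) (x0 : W) (r : ℝ), 0 < r → r ≤ 1 → Icc (t0 - r ^ 2) t0 ⊆ I → closedBall x0 r ⊆ S →
      ∀ P ∈ dg_Q t0 x0 (r / 2), |q P.1 P.2| ≤
        C * ((r ^ (-(dg_m W + 2)) * ∫ P in dg_Q t0 x0 r, |q P.1 P.2| ^ p) ^ (1 / p)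
          + r * kF + r ^ 2 * kg) := by
  have hLam : 0 < Lam := lt_of_lt_of_le hl hL
  have hc10 : 0 ≤ Lam ^ 2 / (2 * lam) := by positivity
  obtain ⟨C1, hC1, hb⟩ := dg_local_bound W hm lam (Lam + Lam ^ 2 / (2 * lam)) hl (by linarith)
    p hp hp2
  set v1 : ℝ := (volume : Measure (ℝ × W)).real (dg_Q (0 : ℝ) (0 : W) 1) with hv1
  have hv10 : 0 ≤ v1 := measureReal_nonneg
  set a : ℝ := 2 ^ (1 + 1 / p) with ha
  set b : ℝ := v1 ^ (1 / p) with hbdef
  set c : ℝ := 1 / (2 * lam) with hc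
  have ha0 : 0 < a := by positivity
  have hb0 : 0 ≤ b := Real.rpow_nonneg hv10 _
  have hc0 : 0 < c := by positivity
  set C : ℝ := C1 * (a * (1 + b) + 1 + c) with hC
  have hC0 : 0 < C := by positivity
  refine ⟨C, hC0, ?_⟩
  intro I S K q qt kF kg hS hK hq hsol t0 x0 r hr hr1 hI hR P hP
  have ht0I : t0 ∈ I := hI ⟨by nlinarith [sq_nonneg r], le_rfl⟩
  have hx0S : x0 ∈ S := hR (mem_closedBall_self hr.le)
  have hkF : 0 ≤ kF := (norm_nonneg _).trans (hK.F_le t0 ht0I x0 hx0S)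
  have hkg : 0 ≤ kg := (abs_nonneg _).trans (hK.g_le t0 ht0I x0 hx0S)
  set ρm : ℝ := r ^ (-(dg_m W + 2)) with hρm
  have hρm0 : 0 < ρm := Real.rpow_pos_of_pos hr _
  set Q := dg_Q t0 x0 r with hQ
  have mQ : MeasurableSet Q := dg_measurableSet_cyl _ _ _ _
  have cQ : IsCompact Q := dg_isCompact_cyl _ _ _ _
  have fQ : (volume : Measure (ℝ × W)) Q ≠ ⊤ := cQ.measure_lt_top.ne
  have hQsub : Q ⊆ I ×ˢ S := dg_cyl_subset hI hR
  set V : ℝ := (volume : Measure (ℝ × W)).real Q with hV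
  have hV0 : 0 ≤ V := measureReal_nonneg
  have eV : ρm * V = v1 := by
    have := dg_setIntegral_sc hr t0 x0 1 (fun _ _ => (1 : ℝ))
    simp only [dg_sc, mul_one, setIntegral_const, smul_eq_mul] at this
    rw [hv1, this]
  set Z : ℝ := ∫ P in Q, |q P.1 P.2| ^ p with hZ
  have hZ0 : 0 ≤ Z := setIntegral_nonneg mQ fun P _ => Real.rpow_nonneg (abs_nonneg _) _
  set Y : ℝ := (ρm * Z) ^ (1 / p) with hY
  have hY0 : 0 ≤ Y := Real.rpow_nonneg (by positivity) _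
  have cq : ContinuousOn (fun P : ℝ × W => |q P.1 P.2|) Q := (hq.cont0.mono hQsub).abs
  have hp' : 0 ≤ 1 / p := by positivity
  have main : ∀ ε0 : ℝ, 0 < ε0 → |q P.1 P.2| ≤ C * (Y + r * kF + r ^ 2 * kg + ε0) := by
    intro ε0 hε0
    set ε : ℝ := r * kF + ε0 with hε
    have hεpos : 0 < ε := by positivity
    obtain ⟨K2, vt, hok, hreg, hsub⟩ := dg_abs_sub hl hL hS hK hq hsol hkF hεpos
    have s1 := hb I S K2 _ vt kF _ hS hok hreg (fun _ _ _ _ => Real.sqrt_nonneg _) hsub t0 x0 r hr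
      hr1 hI hR P hP
    rw [← hρm, ← hQ] at s1
    have s0 : |q P.1 P.2| ≤ Real.sqrt (q P.1 P.2 ^ 2 + ε ^ 2) :=
      Real.abs_le_sqrt (by nlinarith [sq_nonneg ε])
    have cv : ContinuousOn (fun P : ℝ × W => Real.sqrt (q P.1 P.2 ^ 2 + ε ^ 2)) Q :=
      hreg.cont0.mono hQsub
    have iv : IntegrableOn (fun P : ℝ × W => Real.sqrt (q P.1 P.2 ^ 2 + ε ^ 2) ^ p) Q :=
      (cv.rpow_const fun _ _ => Or.inr hp.le).integrableOn_compact cQ
    have iq : IntegrableOn (fun P : ℝ × W => |q P.1 P.2| ^ p) Q :=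
      (cq.rpow_const fun _ _ => Or.inr hp.le).integrableOn_compact cQ
    have iqe : IntegrableOn (fun P : ℝ × W => (|q P.1 P.2| + ε) ^ p) Q :=
      ((cq.add continuousOn_const).rpow_const fun _ _ => Or.inr hp.le).integrableOn_compact cQ
    have s2 : (∫ P in Q, Real.sqrt (q P.1 P.2 ^ 2 + ε ^ 2) ^ p) ≤ ∫ P in Q, (|q P.1 P.2| + ε) ^ p := by
      refine setIntegral_mono_on iv iqe mQ fun P _ => ?_
      refine Real.rpow_le_rpow (Real.sqrt_nonneg _) ?_ hp.le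
      rw [Real.sqrt_le_iff]
      refine ⟨by positivity, ?_⟩
      nlinarith [sq_abs (q P.1 P.2), mul_nonneg (abs_nonneg (q P.1 P.2)) hεpos.le]
    have s3 := dg_Lp_add_const (μ := (volume : Measure (ℝ × W))) mQ fQ
      (f := fun P : ℝ × W => |q P.1 P.2|) (fun _ _ => abs_nonneg _) hp hεpos.le iq iqe
    rw [← hV, ← hZ, ← ha] at s3
    have hI0 : 0 ≤ ∫ P in Q, Real.sqrt (q P.1 P.2 ^ 2 + ε ^ 2) ^ p :=
      setIntegral_nonneg mQ fun P _ => Real.rpow_nonneg (Real.sqrt_nonneg _) _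
    have s4 : (ρm * ∫ P in Q, Real.sqrt (q P.1 P.2 ^ 2 + ε ^ 2) ^ p) ^ (1 / p) ≤ a * (Y + ε * b) := by
      calc (ρm * ∫ P in Q, Real.sqrt (q P.1 P.2 ^ 2 + ε ^ 2) ^ p) ^ (1 / p)
          = ρm ^ (1 / p) * (∫ P in Q, Real.sqrt (q P.1 P.2 ^ 2 + ε ^ 2) ^ p) ^ (1 / p) :=
            Real.mul_rpow hρm0.le hI0
        _ ≤ ρm ^ (1 / p) * (a * (Z ^ (1 / p) + ε * V ^ (1 / p))) := by
            refine mul_le_mul_of_nonneg_left ?_ (Real.rpow_nonneg hρm0.le _)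
            exact (Real.rpow_le_rpow hI0 s2 hp').trans s3
        _ = a * (Y + ε * b) := by
            rw [hY, hbdef, ← eV, Real.mul_rpow hρm0.le hZ0, Real.mul_rpow hρm0.le hV0]; ring
    have s5 : r ^ 2 * (kF ^ 2 / (2 * lam * ε)) ≤ r * kF * c := by
      have h1 : r * kF / ε ≤ 1 := by rw [div_le_one hεpos, hε]; linarith
      have e : r ^ 2 * (kF ^ 2 / (2 * lam * ε)) = (r * kF * c) * (r * kF / ε) := by
        rw [hc]; field_simp
      rw [e]
      exact mul_le_of_le_one_right (by positivity) h1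
    have s6 : |q P.1 P.2| ≤ C1 * (a * (Y + ε * b) + r * kF + r ^ 2 * kg + r * kF * c) := by
      refine s0.trans (s1.trans (mul_le_mul_of_nonneg_left ?_ hC1.le))
      rw [mul_add]
      linarith only [s4, s5]
    refine s6.trans ?_
    have eC : C * (Y + r * kF + r ^ 2 * kg + ε0)
        = C1 * ((a * (1 + b) + 1 + c) * (Y + r * kF + r ^ 2 * kg + ε0)) := by rw [hC]; ring
    rw [eC]
    refine mul_le_mul_of_nonneg_left ?_ hC1.le
    have hA : 0 ≤ r * kF := by positivity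
    have hB : 0 ≤ r ^ 2 * kg := by positivity
    have e : (a * (1 + b) + 1 + c) * (Y + r * kF + r ^ 2 * kg + ε0)
        - (a * (Y + ε * b) + r * kF + r ^ 2 * kg + r * kF * c)
        = a * (r * kF + r ^ 2 * kg + ε0) + a * b * (Y + r ^ 2 * kg) + (Y + ε0)
          + c * (Y + r ^ 2 * kg + ε0) := by rw [hε]; ring
    have : 0 ≤ a * (r * kF + r ^ 2 * kg + ε0) + a * b * (Y + r ^ 2 * kg) + (Y + ε0)
          + c * (Y + r ^ 2 * kg + ε0) := by positivity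
    linarith
  refine le_of_forall_pos_le_add fun ε hε => ?_
  have := main (ε / C) (by positivity)
  have e : C * (Y + r * kF + r ^ 2 * kg + ε / C) = C * (Y + r * kF + r ^ 2 * kg) + ε := by
    field_simp
  rw [e] at this
  exact this

end Claimed.Agent.Lib.Dgnm
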