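import Claimed.Agent.Lib.Dgnm.Basic

/-!
# Lib/Dgnm/Classical : from the pointwise (classical, divergence form) equation to the weak form
(leaf DG-CLASS)

FOR CONSUMERS.  `dg_flux K u t x = a du + u f + F`; if `x ↦ dg_flux K u t x` is `C^1` on `S` and the
differential inequality holds pointwise on `S` with `dg_div` (trace of the derivative), then the weak
inequality holds.
KEY LEMMA `dg_integral_div`: `∫ (φ div J + dφ(J)) = 0` for a test function `φ` and `J` of class `C^1` on `S`.
Proof: `X = φ • J` is `C^1` with compact support on `W` (as in `dg_Test.mul_on`), `div X = φ div J + dφ(J)`,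
and `∫ div X = ∑_i ∫ ∂_i ⟪X, e_i⟫ = 0` for the standard orthonormal basis: for a `C^1` compactly supported
scalar `h` and a vector `v`: `∫ fderiv ℝ h x v = 0` (`integral_mul_fderiv_eq_neg_fderiv_mul_of_integrable`
with the second factor a cutoff equal to `1` on the support, or with `g = 1`:
`MeasureTheory.integral_bilinear_hasLineDerivAt_right_eq_neg_left_of_integrable`; also
`LinearMap.trace_eq_sum_inner`).
Then: `∫ dg_form = ∫ φ (mu u_t - div flux - du(b) - c u - g)` and the bracket has a sign.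
-/

set_option autoImplicit false
set_option linter.unusedSectionVars false

open Set Filter MeasureTheory Metric
open scoped Topology ContDiff

namespace Claimed.Agent.Lib.Dgnm

variable {W : Type*} [NormedAddCommGroup W] [InnerProductSpace ℝ W] [FiniteDimensional ℝ W]
  [MeasurableSpace W] [BorelSpace W]

variable {I : Set ℝ} {S : Set W} {u ut : ℝ → W → ℝ} {K : dg_Coef W} {lam Lam kF kg : ℝ}

/-- divergence of a vector field. -/
noncomputable def dg_div (J : W → W) (x : W) : ℝ :=
  LinearMap.trace ℝ W (fderiv ℝ J x).toLinearMap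

theorem dg_div_eq_sum {ι : Type*} [Fintype ι] (e : OrthonormalBasis ι ℝ W) (J : W → W) (x : W) :
    dg_div J x = ∑ i, inner ℝ (e i) (fderiv ℝ J x (e i)) := by
  rw [dg_div, LinearMap.trace_eq_sum_inner _ e]
  rfl

/-- the flux `a du + u f + F`. -/
noncomputable def dg_flux (K : dg_Coef W) (u : ℝ → W → ℝ) (t : ℝ) (x : W) : W :=
  K.a t x (fderiv ℝ (u t) x) + u t x • K.f t x + K.F t x

/-- the integral of a directional derivative of a test function vanishes. -/
theorem dg_Test.integral_fderiv {h : W → ℝ} (hh : dg_Test S h) (v : W) :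
    ∫ x, fderiv ℝ h x v = 0 := by
  have hc : Continuous (fun x => fderiv ℝ h x v) :=
    (hh.smooth.continuous_fderiv one_ne_zero).clm_apply continuous_const
  have hi : Integrable (fun x => fderiv ℝ h x v) :=
    hc.integrable_of_hasCompactSupport (hh.cpt.fderiv_apply (𝕜 := ℝ) v)
  have hi0 : Integrable h := hh.smooth.continuous.integrable_of_hasCompactSupport hh.cpt
  have := integral_mul_fderiv_eq_neg_fderiv_mul_of_integrable (μ := (volume : Measure W))
    (f := fun _ : W => (1 : ℝ)) (g := h) (v := v) (by simp) (by simpa using hi)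
    (by simpa using hi0) (fun x _ => differentiableAt_const _)
    (fun x _ => (hh.smooth.differentiable one_ne_zero) x)
  simpa using this

theorem dg_Test.integrable_fderiv {h : W → ℝ} (hh : dg_Test S h) (v : W) :
    Integrable (fun x => fderiv ℝ h x v) :=
  ((hh.smooth.continuous_fderiv one_ne_zero).clm_apply continuous_const).integrable_of_hasCompactSupport
    (hh.cpt.fderiv_apply (𝕜 := ℝ) v)

/-- `φ div J + dφ(J)` is the sum of the directional derivatives of the components of `φ J`. -/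
theorem dg_cl_key (hS : IsOpen S) {φ : W → ℝ} (hφ : dg_Test S φ) {J : W → W}
    (hJ : ContDiffOn ℝ 1 J S) (x : W) :
    φ x * dg_div J x + fderiv ℝ φ x (J x) = ∑ i, fderiv ℝ
      (fun y => φ y * inner ℝ (stdOrthonormalBasis ℝ W i) (J y)) x (stdOrthonormalBasis ℝ W i) := by
  set e := stdOrthonormalBasis ℝ W with he
  have hJi : ∀ i, ContDiffOn ℝ 1 (fun y => inner ℝ (e i) (J y)) S := fun i =>
    contDiffOn_const.inner ℝ hJ
  simp only [fun i => hφ.fderiv_mul_on hS (hJi i) x]
  by_cases hx : x ∈ S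
  · have hd : DifferentiableAt ℝ J x :=
      (hJ.contDiffAt (hS.mem_nhds hx)).differentiableAt one_ne_zero
    have e1 : ∀ i, fderiv ℝ (fun y => inner ℝ (e i) (J y)) x (e i)
        = inner ℝ (e i) (fderiv ℝ J x (e i)) := by
      intro i
      rw [fderiv_inner_apply ℝ (differentiableAt_const _) hd]
      simp
    have e2 : J x = ∑ i, inner ℝ (e i) (J x) • e i := (e.sum_repr' (J x)).symm
    rw [dg_div_eq_sum e, Finset.mul_sum]
    conv_lhs => rw [e2, map_sum]
    rw [← Finset.sum_add_distrib]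
    refine Finset.sum_congr rfl (fun i _ => ?_)
    simp only [_root_.add_apply, _root_.smul_apply, smul_eq_mul, e1, map_smul]
  · rw [hφ.eq_zero hx, hφ.fderiv_eq_zero hx]
    simp

theorem dg_cl_integrable (hS : IsOpen S) {φ : W → ℝ} (hφ : dg_Test S φ) {J : W → W}
    (hJ : ContDiffOn ℝ 1 J S) : Integrable (fun x => φ x * dg_div J x + fderiv ℝ φ x (J x)) := by
  simp only [dg_cl_key hS hφ hJ]
  exact integrable_finsetSum _ (fun i _ =>
    (hφ.mul_on hS (contDiffOn_const.inner ℝ hJ)).integrable_fderiv _)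

theorem dg_integral_div (hS : IsOpen S) {φ : W → ℝ} (hφ : dg_Test S φ) {J : W → W}
    (hJ : ContDiffOn ℝ 1 J S) : ∫ x, (φ x * dg_div J x + fderiv ℝ φ x (J x)) = 0 := by
  simp only [dg_cl_key hS hφ hJ]
  rw [integral_finsetSum _ (fun i _ =>
    (hφ.mul_on hS (contDiffOn_const.inner ℝ hJ)).integrable_fderiv _)]
  exact Finset.sum_eq_zero (fun i _ =>
    (hφ.mul_on hS (contDiffOn_const.inner ℝ hJ)).integral_fderiv _)

theorem dg_aesm_of_continuousOn {E : Type*} [NormedAddCommGroup E] (hS : IsOpen S) {h : W → E}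
    (hh : ContinuousOn h S) : AEStronglyMeasurable h (volume.restrict S) :=
  hh.aestronglyMeasurable hS.measurableSet

/-- the weak form is the integral of `φ` times the pointwise defect. -/
theorem dg_cl_integral_form (hS : IsOpen S) (hK : K.Ok I S lam Lam kF kg) (hu : dg_Reg I S u ut)
    {t : ℝ} (ht : t ∈ I) (hJ : ContDiffOn ℝ 1 (dg_flux K u t) S) {φ : W → ℝ} (hφ : dg_Test S φ) :
    ∫ x, dg_form K u ut φ t x = ∫ x, φ x * (K.mu t x * ut t x - (dg_div (dg_flux K u t) x
      + fderiv ℝ (u t) x (K.b t x) + K.c t x * u t x + K.g t x)) := by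
  have h1 := dg_integral_div hS hφ hJ
  have h2 := dg_cl_integrable hS hφ hJ
  have h3 := dg_form_integrable hS hK hu ht hφ
  have h4 := integral_sub h3 h2
  rw [h1, sub_zero] at h4
  rw [← h4]
  congr 1
  funext x
  simp only [dg_form, dg_flux]
  ring

theorem dg_sub_of_classical (hS : IsOpen S) (hK : K.Ok I S lam Lam kF kg) (hu : dg_Reg I S u ut)
    (hJ : ∀ t ∈ I, ContDiffOn ℝ 1 (dg_flux K u t) S)
    (h : ∀ t ∈ I, ∀ x ∈ S, K.mu t x * ut t x ≤
      dg_div (dg_flux K u t) x + fderiv ℝ (u t) x (K.b t x) + K.c t x * u t x + K.g t x) :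
    dg_Sub K I S u ut := by
  intro t ht φ hφ h0
  rw [dg_cl_integral_form hS hK hu ht (hJ t ht) hφ]
  refine integral_nonpos (fun x => ?_)
  by_cases hx : x ∈ S
  · exact mul_nonpos_of_nonneg_of_nonpos (h0 x) (sub_nonpos.2 (h t ht x hx))
  · show φ x * _ ≤ 0
    rw [hφ.eq_zero hx, zero_mul]

theorem dg_super_of_classical (hS : IsOpen S) (hK : K.Ok I S lam Lam kF kg) (hu : dg_Reg I S u ut)
    (hJ : ∀ t ∈ I, ContDiffOn ℝ 1 (dg_flux K u t) S)
    (h : ∀ t ∈ I, ∀ x ∈ S, dg_div (dg_flux K u t) x + fderiv ℝ (u t) x (K.b t x) + K.c t x * u t x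
      + K.g t x ≤ K.mu t x * ut t x) :
    dg_Super K I S u ut := by
  intro t ht φ hφ h0
  rw [dg_cl_integral_form hS hK hu ht (hJ t ht) hφ]
  refine integral_nonneg (fun x => ?_)
  by_cases hx : x ∈ S
  · exact mul_nonneg (h0 x) (sub_nonneg.2 (h t ht x hx))
  · show 0 ≤ φ x * _
    rw [hφ.eq_zero hx, zero_mul]

theorem dg_sol_of_classical (hS : IsOpen S) (hK : K.Ok I S lam Lam kF kg) (hu : dg_Reg I S u ut)
    (hJ : ∀ t ∈ I, ContDiffOn ℝ 1 (dg_flux K u t) S)
    (h : ∀ t ∈ I, ∀ x ∈ S, K.mu t x * ut t x =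
      dg_div (dg_flux K u t) x + fderiv ℝ (u t) x (K.b t x) + K.c t x * u t x + K.g t x) :
    dg_Sol K I S u ut := by
  intro t ht φ hφ
  rw [dg_cl_integral_form hS hK hu ht (hJ t ht) hφ]
  have : (fun x => φ x * (K.mu t x * ut t x - (dg_div (dg_flux K u t) x
      + fderiv ℝ (u t) x (K.b t x) + K.c t x * u t x + K.g t x))) = fun _ => 0 := by
    funext x
    by_cases hx : x ∈ S
    · rw [h t ht x hx, sub_self, mul_zero]
    · rw [hφ.eq_zero hx, zero_mul]
  rw [this, integral_zero]

/-- the equation `(mu u)_t = ..` is the equation `mu u_t = ..` with `c - mudt` instead of `c`. -/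
noncomputable def dg_Coef.muIn (K : dg_Coef W) : dg_Coef W :=
  { K with c := fun t x => K.c t x - K.mudt t x }

theorem dg_Coef.Ok.muIn (hS : IsOpen S) (hL : 0 ≤ Lam) (hK : K.Ok I S lam Lam kF kg) :
    K.muIn.Ok I S lam (2 * Lam) kF kg := by
  have h2 := hK.mono (I' := I) (S' := S) (Lam' := 2 * Lam) subset_rfl subset_rfl (by linarith)
    le_rfl le_rfl
  exact
  { mu_dt := h2.mu_dt
    mu_cont := h2.mu_cont
    mudt_cont := h2.mudt_cont
    a_meas := h2.a_meas
    f_meas := h2.f_meas
    b_meas := h2.b_meas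
    c_meas := fun t ht => (hK.c_meas t ht).sub (dg_aesm_of_continuousOn hS
      (hK.mudt_cont.comp (f := fun x : W => ((t, x) : ℝ × W))
        (continuous_const.prodMk continuous_id).continuousOn (fun x hx => ⟨ht, hx⟩)))
    F_meas := h2.F_meas
    g_meas := h2.g_meas
    mu_lo := h2.mu_lo
    mu_hi := h2.mu_hi
    mudt_le := h2.mudt_le
    a_lo := h2.a_lo
    a_hi := h2.a_hi
    f_le := h2.f_le
    b_le := h2.b_le
    c_le := fun t ht x hx => by
      have h3 := hK.c_le t ht x hx
      have h4 := hK.mudt_le t ht x hx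
      show |K.c t x - K.mudt t x| ≤ 2 * Lam
      calc |K.c t x - K.mudt t x| ≤ |K.c t x| + |K.mudt t x| := abs_sub _ _
        _ ≤ 2 * Lam := by linarith
    F_le := h2.F_le
    g_le := h2.g_le }

theorem dg_form_muIn (K : dg_Coef W) (u ut : ℝ → W → ℝ) (φ : W → ℝ) (t : ℝ) (x : W) :
    dg_form K.muIn u ut φ t x
      = dg_form K u ut φ t x + K.mudt t x * u t x * φ x := by
  simp only [dg_form, dg_Coef.muIn]
  ring

end Claimed.Agent.Lib.Dgnm
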