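import Claimed.Agent.Lib.Dgnm.Defs

/-!
# Lib/Dgnm/Cutoff : radial cutoff functions with gradient bound (leaf DG-CUT)

`ζ x = Real.smoothTransition ((R - ‖x - x0‖) / (R - ρ))`.
* `= 1` iff `‖x - x0‖ ≤ ρ`, `= 0` iff `R ≤ ‖x - x0‖` (`Real.smoothTransition.one_of_one_le`,
  `zero_of_nonpos`), monotone in `- ‖x - x0‖` (`Real.smoothTransition.monotone`).
* smooth: on the open ball of radius `ρ > 0` it is constant `1`; away from `x0` the norm is smooth
  (`contDiffAt_norm`), `Real.smoothTransition.contDiff`.
* gradient bound: `C := 1 + sup |deriv smoothTransition|`; the derivative of `smoothTransition` is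
  continuous and vanishes outside `[0,1]`, hence bounded (`IsCompact.exists_bound_of_continuousOn` on
  `Icc 0 1`); `x ↦ ‖x - x0‖` is `1`-Lipschitz so `‖fderiv‖ ≤ 1` (`norm_fderiv_le_of_lipschitz`), or:
  `ζ` itself is `C/(R-ρ)`-Lipschitz (composition of Lipschitz maps; a `C^1` function on `ℝ` with
  `|deriv| ≤ C` is `C`-Lipschitz: `lipschitzWith_of_nnnorm_deriv_le`) and then
  `norm_fderiv_le_of_lipschitz`.  The second route avoids all chain rules.
-/

set_option autoImplicit false
set_option linter.unusedSectionVars false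

open Set Filter MeasureTheory Metric
open scoped Topology ContDiff

namespace Claimed.Agent.Lib.Dgnm

variable {W : Type*} [NormedAddCommGroup W] [InnerProductSpace ℝ W] [FiniteDimensional ℝ W]
  [MeasurableSpace W] [BorelSpace W]

/-- a radial cutoff between `closedBall x0 ρ` and `closedBall x0 R` with `|dζ| ≤ C / (R - ρ)`. -/
structure dg_IsCutoff (x0 : W) (ρ R C : ℝ) (ζ : W → ℝ) : Prop where
  smooth : ContDiff ℝ ∞ ζ
  nonneg : ∀ x, 0 ≤ ζ x
  le_one : ∀ x, ζ x ≤ 1
  eq_one : ∀ x ∈ closedBall x0 ρ, ζ x = 1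
  eq_zero : ∀ x, R ≤ ‖x - x0‖ → ζ x = 0
  radial : ∀ x y, ‖x - x0‖ ≤ ‖y - x0‖ → ζ y ≤ ζ x
  grad : ∀ x, ‖fderiv ℝ ζ x‖ ≤ C / (R - ρ)

/-- `Real.smoothTransition` is Lipschitz. -/
theorem dg_cut_lip : ∃ C : ℝ, 0 < C ∧ ∀ x y : ℝ,
    |Real.smoothTransition y - Real.smoothTransition x| ≤ C * |y - x| := by
  have hcd : ContDiff ℝ 1 Real.smoothTransition := Real.smoothTransition.contDiff
  have hcont : Continuous (deriv Real.smoothTransition) := hcd.continuous_deriv le_rfl
  obtain ⟨C, hC⟩ := (isCompact_Icc (a := (0:ℝ)) (b := 1)).exists_bound_of_continuousOn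
    hcont.continuousOn
  have hb : ∀ x, ‖deriv Real.smoothTransition x‖ ≤ max C 1 := by
    intro x
    by_cases hx : x ∈ Icc (0:ℝ) 1
    · exact (hC x hx).trans (le_max_left _ _)
    · have h0 : deriv Real.smoothTransition x = 0 := by
        rw [mem_Icc, not_and_or, not_le, not_le] at hx
        rcases hx with hx | hx
        · have : Real.smoothTransition =ᶠ[𝓝 x] fun _ => 0 := by
            filter_upwards [Iio_mem_nhds hx] with y hy
            exact Real.smoothTransition.zero_of_nonpos (le_of_lt hy)
          rw [this.deriv_eq]; simp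
        · have : Real.smoothTransition =ᶠ[𝓝 x] fun _ => 1 := by
            filter_upwards [Ioi_mem_nhds hx] with y hy
            exact Real.smoothTransition.one_of_one_le (le_of_lt hy)
          rw [this.deriv_eq]; simp
      rw [h0, norm_zero]
      positivity
  refine ⟨max C 1, by positivity, fun x y => ?_⟩
  have := Convex.norm_image_sub_le_of_norm_deriv_le (f := Real.smoothTransition) (s := univ)
    (x := x) (y := y) (C := max C 1)
    (fun z _ => (hcd.differentiable one_ne_zero).differentiableAt) (fun z _ => hb z) convex_univ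
    (mem_univ _) (mem_univ _)
  simpa [Real.norm_eq_abs] using this

variable (W) in
/-- existence (the constant is in fact universal: `1 + sup |smoothTransition'|`). -/
theorem dg_cutoff_exists : ∃ C : ℝ, 0 < C ∧ ∀ (x0 : W) (ρ R : ℝ), 0 < ρ → ρ < R →
    ∃ ζ : W → ℝ, dg_IsCutoff x0 ρ R C ζ := by
  obtain ⟨C, hC, hlip⟩ := dg_cut_lip
  refine ⟨C, hC, fun x0 ρ R hρ hR => ?_⟩
  have hd : 0 < R - ρ := by linarith
  set a : W → ℝ := fun x => (R - ‖x - x0‖) / (R - ρ) with ha
  refine ⟨fun x => Real.smoothTransition (a x), ?_, ?_, ?_, ?_, ?_, ?_, ?_⟩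
  · rw [contDiff_iff_contDiffAt]
    intro x
    by_cases hx : x = x0
    · have : (fun x => Real.smoothTransition (a x)) =ᶠ[𝓝 x] fun _ => 1 := by
        have hmem : ball x0 ρ ∈ 𝓝 x := by rw [hx]; exact ball_mem_nhds x0 hρ
        filter_upwards [hmem] with y hy
        apply Real.smoothTransition.one_of_one_le
        rw [ha, one_le_div hd]
        have : ‖y - x0‖ < ρ := by simpa [dist_eq_norm] using hy
        linarith
      exact contDiffAt_const.congr_of_eventuallyEq this
    · have h1 : ContDiffAt ℝ ∞ (fun x : W => ‖x - x0‖) x :=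
        (contDiffAt_norm ℝ (sub_ne_zero.2 hx)).comp x (contDiffAt_id.sub contDiffAt_const)
      have h2 : ContDiffAt ℝ ∞ a x := (contDiffAt_const.sub h1).div_const _
      exact Real.smoothTransition.contDiff.contDiffAt.comp x h2
  · exact fun x => Real.smoothTransition.nonneg _
  · exact fun x => Real.smoothTransition.le_one _
  · intro x hx
    apply Real.smoothTransition.one_of_one_le
    rw [ha, one_le_div hd]
    have : ‖x - x0‖ ≤ ρ := by simpa [dist_eq_norm] using hx
    linarith
  · intro x hx
    apply Real.smoothTransition.zero_of_nonpos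
    exact div_nonpos_of_nonpos_of_nonneg (by linarith) hd.le
  · intro x y hxy
    apply Real.smoothTransition.monotone
    simp only [ha]
    gcongr
  · intro x
    have hK : 0 ≤ C / (R - ρ) := by positivity
    have hl : LipschitzWith (Real.toNNReal (C / (R - ρ)))
        (fun x => Real.smoothTransition (a x)) := by
      apply LipschitzWith.of_dist_le_mul
      intro y z
      rw [Real.coe_toNNReal _ hK, Real.dist_eq, dist_eq_norm]
      have h1 : |a y - a z| ≤ ‖y - z‖ / (R - ρ) := by
        have e : a y - a z = (‖z - x0‖ - ‖y - x0‖) / (R - ρ) := by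
          simp only [ha]; ring
        rw [e, abs_div, abs_of_pos hd]
        gcongr
        have := abs_norm_sub_norm_le (z - x0) (y - x0)
        have e2 : z - x0 - (y - x0) = z - y := by abel
        rw [e2, norm_sub_rev z y] at this
        exact this
      calc |Real.smoothTransition (a y) - Real.smoothTransition (a z)| ≤ C * |a y - a z| :=
            hlip _ _
        _ ≤ C * (‖y - z‖ / (R - ρ)) := by gcongr
        _ = _ := by ring
    have := norm_fderiv_le_of_lipschitz ℝ hl (x₀ := x)
    rwa [Real.coe_toNNReal _ hK] at this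

theorem dg_IsCutoff.tsupport_subset {x0 : W} {ρ R C : ℝ} {ζ : W → ℝ} (h : dg_IsCutoff x0 ρ R C ζ) :
    tsupport ζ ⊆ closedBall x0 R := by
  apply closure_minimal _ isClosed_closedBall
  intro x hx
  by_contra hcon
  apply hx
  apply h.eq_zero
  simp only [mem_closedBall, dist_eq_norm, not_le] at hcon
  exact hcon.le

theorem dg_IsCutoff.hasCompactSupport {x0 : W} {ρ R C : ℝ} {ζ : W → ℝ}
    (h : dg_IsCutoff x0 ρ R C ζ) : HasCompactSupport ζ :=
  (isCompact_closedBall x0 R).of_isClosed_subset (isClosed_tsupport ζ) h.tsupport_subset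

theorem dg_IsCutoff.test {x0 : W} {ρ R C : ℝ} {ζ : W → ℝ} (h : dg_IsCutoff x0 ρ R C ζ) {S : Set W}
    (hS : closedBall x0 R ⊆ S) : dg_Test S ζ :=
  ⟨h.smooth.of_le (by exact_mod_cast le_top), h.hasCompactSupport, h.tsupport_subset.trans hS⟩

end Claimed.Agent.Lib.Dgnm
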