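import Mathlib

/-!
# Lib/Dgnm : De Giorgi - Nash - Moser A PRIORI estimates for `C^1` functions (architect helper10)

Row-neutral library (consumers: row315 E4/E5, row316 BP-B8DG DG1/DG2, (E3) of msg 9298).
Parabolic AND elliptic (elliptic = time independent special case, file `Elliptic.lean`).

## Conventions

* `W` : finite dimensional real inner product space with its canonical `volume`; `2 ≤ finrank ℝ W`
  wherever the Sobolev inequality is used.
* CURRIED, time first (same convention as `R316/B8/Defs.lean`): `u : ℝ → W → ℝ`, and the time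
  derivative is carried EXPLICITLY as a second function `ut` (`HasDerivWithinAt` on the time set `I`).
* PRODUCT DOMAIN `I ×ˢ S` : `I : Set ℝ` any set of times (we only use `Icc s t ⊆ I`), `S : Set W` OPEN.
* the spatial differential is `fderiv ℝ (u t) x : W →L[ℝ] ℝ` (a COVECTOR; no `gradient` anywhere).
* the principal part is `a t x : (W →L[ℝ] ℝ) →L[ℝ] W` (covector ↦ flux vector); in coordinates
  `a ξ = ∑ a^{ij} ξ(e_j) e_i`.  NO symmetry is assumed.
* equation (GT (8.1)-(8.2) + time):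
  `mu u_t = div (a du + u f + F) + du(b) + c u + g`,
  understood WEAKLY IN SPACE, CLASSICALLY IN TIME: for every `t ∈ I` and every `C^1` test function
  `φ : W → ℝ` with compact support in `S`:  `∫ dg_form K u ut φ t = 0` (`≤ 0` for subsolutions and
  `φ ≥ 0`, `≥ 0` for supersolutions).  `Classical.lean` proves this from the pointwise equation.
* the coefficients `a f b c F g` are only MEASURABLE in `x` for each fixed `t` and bounded;
  `mu` is continuous with a continuous time derivative `mudt`.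
* HOMOGENEOUS equation = `K.Ok I S lam Lam 0 0` (the bounds `kF = kg = 0` force `F = 0`, `g = 0`).
* space-time integrals are set integrals over `Icc s t ×ˢ closedBall x0 R` w.r.t. `volume` on `ℝ × W`.
* all constants: `∃ C, 0 < C ∧ ∀ data, ..` with `C` depending only on what stands before `∃`.
-/

set_option autoImplicit false

open Set Filter MeasureTheory Metric
open scoped Topology ContDiff

namespace Claimed.Agent.Lib.Dgnm

variable {W : Type*} [NormedAddCommGroup W] [InnerProductSpace ℝ W] [FiniteDimensional ℝ W]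
  [MeasurableSpace W] [BorelSpace W]

/-- `u` is `C^1` on `I × S` with time derivative `ut`. -/
structure dg_Reg (I : Set ℝ) (S : Set W) (u ut : ℝ → W → ℝ) : Prop where
  c1 : ∀ t ∈ I, ContDiffOn ℝ 1 (u t) S
  dt : ∀ t ∈ I, ∀ x ∈ S, HasDerivWithinAt (fun s => u s x) (ut t x) I t
  cont0 : ContinuousOn (fun q : ℝ × W => u q.1 q.2) (I ×ˢ S)
  cont1 : ContinuousOn (fun q : ℝ × W => fderiv ℝ (u q.1) q.2) (I ×ˢ S)
  contt : ContinuousOn (fun q : ℝ × W => ut q.1 q.2) (I ×ˢ S)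

/-- `G` is continuous on `I × S` and differentiable in time with continuous time derivative `Gt`
(no spatial derivative). -/
structure dg_RegT (I : Set ℝ) (S : Set W) (G Gt : ℝ → W → ℝ) : Prop where
  dt : ∀ t ∈ I, ∀ x ∈ S, HasDerivWithinAt (fun s => G s x) (Gt t x) I t
  cont0 : ContinuousOn (fun q : ℝ × W => G q.1 q.2) (I ×ˢ S)
  contt : ContinuousOn (fun q : ℝ × W => Gt q.1 q.2) (I ×ˢ S)

/-- the coefficients of `mu u_t = div (a du + u f + F) + du(b) + c u + g`. -/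
structure dg_Coef (W : Type*) [NormedAddCommGroup W] [InnerProductSpace ℝ W] where
  mu : ℝ → W → ℝ
  mudt : ℝ → W → ℝ
  a : ℝ → W → (W →L[ℝ] ℝ) →L[ℝ] W
  f : ℝ → W → W
  b : ℝ → W → W
  c : ℝ → W → ℝ
  F : ℝ → W → W
  g : ℝ → W → ℝ

/-- structure conditions on `I × S`: ellipticity `lam`, bounds `Lam`, `‖F‖ ≤ kF`, `|g| ≤ kg`. -/
structure dg_Coef.Ok (K : dg_Coef W) (I : Set ℝ) (S : Set W) (lam Lam kF kg : ℝ) : Prop where
  mu_dt : ∀ t ∈ I, ∀ x ∈ S, HasDerivWithinAt (fun s => K.mu s x) (K.mudt t x) I t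
  mu_cont : ContinuousOn (fun q : ℝ × W => K.mu q.1 q.2) (I ×ˢ S)
  mudt_cont : ContinuousOn (fun q : ℝ × W => K.mudt q.1 q.2) (I ×ˢ S)
  a_meas : ∀ t ∈ I, AEStronglyMeasurable (K.a t) (volume.restrict S)
  f_meas : ∀ t ∈ I, AEStronglyMeasurable (K.f t) (volume.restrict S)
  b_meas : ∀ t ∈ I, AEStronglyMeasurable (K.b t) (volume.restrict S)
  c_meas : ∀ t ∈ I, AEStronglyMeasurable (K.c t) (volume.restrict S)
  F_meas : ∀ t ∈ I, AEStronglyMeasurable (K.F t) (volume.restrict S)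
  g_meas : ∀ t ∈ I, AEStronglyMeasurable (K.g t) (volume.restrict S)
  mu_lo : ∀ t ∈ I, ∀ x ∈ S, lam ≤ K.mu t x
  mu_hi : ∀ t ∈ I, ∀ x ∈ S, K.mu t x ≤ Lam
  mudt_le : ∀ t ∈ I, ∀ x ∈ S, |K.mudt t x| ≤ Lam
  a_lo : ∀ t ∈ I, ∀ x ∈ S, ∀ ξ : W →L[ℝ] ℝ, lam * ‖ξ‖ ^ 2 ≤ ξ (K.a t x ξ)
  a_hi : ∀ t ∈ I, ∀ x ∈ S, ∀ ξ : W →L[ℝ] ℝ, ‖K.a t x ξ‖ ≤ Lam * ‖ξ‖
  f_le : ∀ t ∈ I, ∀ x ∈ S, ‖K.f t x‖ ≤ Lam
  b_le : ∀ t ∈ I, ∀ x ∈ S, ‖K.b t x‖ ≤ Lam
  c_le : ∀ t ∈ I, ∀ x ∈ S, |K.c t x| ≤ Lam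
  F_le : ∀ t ∈ I, ∀ x ∈ S, ‖K.F t x‖ ≤ kF
  g_le : ∀ t ∈ I, ∀ x ∈ S, |K.g t x| ≤ kg

/-- `C^1` test functions with compact support in `S`. -/
structure dg_Test (S : Set W) (φ : W → ℝ) : Prop where
  smooth : ContDiff ℝ 1 φ
  cpt : HasCompactSupport φ
  supp : tsupport φ ⊆ S

/-- the integrand of the weak form at time `t`. -/
noncomputable def dg_form (K : dg_Coef W) (u ut : ℝ → W → ℝ) (φ : W → ℝ) (t : ℝ) (x : W) : ℝ :=
  K.mu t x * ut t x * φ x
    + fderiv ℝ φ x (K.a t x (fderiv ℝ (u t) x) + u t x • K.f t x + K.F t x)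
    - (fderiv ℝ (u t) x (K.b t x) + K.c t x * u t x + K.g t x) * φ x

/-- weak subsolution: `mu u_t ≤ div (a du + u f + F) + du(b) + c u + g`. -/
def dg_Sub (K : dg_Coef W) (I : Set ℝ) (S : Set W) (u ut : ℝ → W → ℝ) : Prop :=
  ∀ t ∈ I, ∀ φ : W → ℝ, dg_Test S φ → (∀ x, 0 ≤ φ x) → ∫ x, dg_form K u ut φ t x ≤ 0

/-- weak supersolution: `mu u_t ≥ div (a du + u f + F) + du(b) + c u + g`. -/
def dg_Super (K : dg_Coef W) (I : Set ℝ) (S : Set W) (u ut : ℝ → W → ℝ) : Prop :=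
  ∀ t ∈ I, ∀ φ : W → ℝ, dg_Test S φ → (∀ x, 0 ≤ φ x) → 0 ≤ ∫ x, dg_form K u ut φ t x

/-- weak solution (test functions of any sign). -/
def dg_Sol (K : dg_Coef W) (I : Set ℝ) (S : Set W) (u ut : ℝ → W → ℝ) : Prop :=
  ∀ t ∈ I, ∀ φ : W → ℝ, dg_Test S φ → ∫ x, dg_form K u ut φ t x = 0

/-- POSITIVE subsolution of a HOMOGENEOUS equation: the objects of the core. -/
structure dg_PosSub (I : Set ℝ) (S : Set W) (lam Lam : ℝ) (K : dg_Coef W) (u ut : ℝ → W → ℝ) :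
    Prop where
  isOpen : IsOpen S
  ok : K.Ok I S lam Lam 0 0
  reg : dg_Reg I S u ut
  pos : ∀ t ∈ I, ∀ x ∈ S, 0 < u t x
  sub : dg_Sub K I S u ut

/-- POSITIVE supersolution of a HOMOGENEOUS equation. -/
structure dg_PosSuper (I : Set ℝ) (S : Set W) (lam Lam : ℝ) (K : dg_Coef W) (u ut : ℝ → W → ℝ) :
    Prop where
  isOpen : IsOpen S
  ok : K.Ok I S lam Lam 0 0
  reg : dg_Reg I S u ut
  pos : ∀ t ∈ I, ∀ x ∈ S, 0 < u t x
  super : dg_Super K I S u ut

/-- closed space-time cylinder `[s,t] × closedBall x0 R`. -/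
def dg_Cyl (s t : ℝ) (x0 : W) (R : ℝ) : Set (ℝ × W) := Icc s t ×ˢ closedBall x0 R

/-- standard parabolic cylinder `[t0 - r^2, t0] × closedBall x0 r`. -/
def dg_Q (t0 : ℝ) (x0 : W) (r : ℝ) : Set (ℝ × W) := dg_Cyl (t0 - r ^ 2) t0 x0 r

/-- the dimension as a real number. -/
noncomputable def dg_m (W : Type*) [NormedAddCommGroup W] [InnerProductSpace ℝ W] : ℝ :=
  (Module.finrank ℝ W : ℝ)

/-- the Sobolev gain `κ = m / (m - 1) ∈ (1, 2]`. -/
noncomputable def dg_kap (W : Type*) [NormedAddCommGroup W] [InnerProductSpace ℝ W] : ℝ :=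
  dg_m W / (dg_m W - 1)

end Claimed.Agent.Lib.Dgnm
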