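import Claimed.Agent.Lib.Dgnm.Defs

/-!
# Lib/Dgnm/Layer : a weak `L^1` bound gives an `L^{1/2}` bound (leaf DG-LAYER)

## `dg_layer_half` (DG-LAYER)
`MeasureTheory.lintegral_rpow_eq_lintegral_meas_lt_mul` for `μ = volume.restrict Q`, `f = max h 0`, `p = 1/2`:
`∫⁻ f^{1/2} = (1/2) ∫⁻_{s>0} μ{f > s} s^{-1/2} ≤ (1/2) ∫_0^1 V s^{-1/2} + (1/2) ∫_1^∞ C s^{-3/2} = V + C`
(`integral_rpow`, `integral_Ioi_rpow_of_lt`).  If the function is not integrable its Bochner integral
is `0 ≤ V + C`; otherwise `integral_eq_lintegral_of_nonneg_ae`.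
-/

set_option autoImplicit false
set_option linter.unusedSectionVars false

open Set Filter MeasureTheory Metric
open scoped Topology ContDiff

namespace Claimed.Agent.Lib.Dgnm

variable {W : Type*} [NormedAddCommGroup W] [InnerProductSpace ℝ W] [FiniteDimensional ℝ W]
  [MeasurableSpace W] [BorelSpace W]

theorem dg_layer_half {Q : Set (ℝ × W)} (hQ : MeasurableSet Q) {V C : ℝ} (hV0 : 0 ≤ V) (hC0 : 0 ≤ C)
    (hV : volume Q ≤ ENNReal.ofReal V) {h : ℝ × W → ℝ} (hh : ContinuousOn h Q)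
    (hw : ∀ s : ℝ, 0 < s → volume {q | q ∈ Q ∧ s < h q} ≤ ENNReal.ofReal (C / s)) :
    ∫ q in Q, (max (h q) 0) ^ (1 / 2 : ℝ) ≤ V + C := by
  set μ : Measure (ℝ × W) := volume.restrict Q with hμ
  set f : ℝ × W → ℝ := fun q => max (h q) 0 with hf
  have hf0 : ∀ q, 0 ≤ f q := fun q => le_max_right _ _
  have hfc : ContinuousOn f Q := hh.sup continuousOn_const
  have hfm : AEMeasurable f μ := (hfc.aestronglyMeasurable hQ).aemeasurable
  have hpc : ContinuousOn (fun q => f q ^ (1 / 2 : ℝ)) Q :=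
    hfc.rpow_const (fun _ _ => Or.inr (by norm_num))
  have hlc := lintegral_rpow_eq_lintegral_meas_lt_mul μ (ae_of_all _ hf0) hfm
    (by norm_num : (0:ℝ) < 1 / 2)
  -- the distribution function
  have hdist : ∀ s : ℝ, 0 < s → μ {a | s < f a} = volume {q | q ∈ Q ∧ s < h q} := by
    intro s hs
    rw [hμ, Measure.restrict_apply' hQ]
    congr 1
    ext q
    simp only [mem_inter_iff, mem_ofPred_eq, hf, lt_max_iff]
    constructor
    · rintro ⟨h1 | h1, h2⟩
      · exact ⟨h2, h1⟩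
      · exact absurd h1 (not_lt.2 hs.le)
    · rintro ⟨h1, h2⟩
      exact ⟨Or.inl h2, h1⟩
  have hd1 : ∀ s : ℝ, 0 < s → μ {a | s < f a} ≤ ENNReal.ofReal V := by
    intro s hs
    rw [hdist s hs]
    exact (measure_mono (fun q hq => hq.1)).trans hV
  have hd2 : ∀ s : ℝ, 0 < s → μ {a | s < f a} ≤ ENNReal.ofReal (C / s) := by
    intro s hs
    rw [hdist s hs]
    exact hw s hs
  -- the two pieces
  have hA : ∫⁻ s in Ioc (0:ℝ) 1, μ {a | s < f a} * ENNReal.ofReal (s ^ ((1:ℝ) / 2 - 1)) ≤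
      ENNReal.ofReal (V * 2) := by
    have hi : IntegrableOn (fun s : ℝ => s ^ ((1:ℝ) / 2 - 1)) (Ioc 0 1) :=
      (intervalIntegral.intervalIntegrable_rpow' (by norm_num : (-1:ℝ) < 1 / 2 - 1)
        (a := 0) (b := 1)).1
    have hval : ∫ s in Ioc (0:ℝ) 1, s ^ ((1:ℝ) / 2 - 1) = 2 := by
      rw [← intervalIntegral.integral_of_le zero_le_one,
        integral_rpow (Or.inl (by norm_num : (-1:ℝ) < 1 / 2 - 1))]
      norm_num
    calc ∫⁻ s in Ioc (0:ℝ) 1, μ {a | s < f a} * ENNReal.ofReal (s ^ ((1:ℝ) / 2 - 1))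
        ≤ ∫⁻ s in Ioc (0:ℝ) 1, ENNReal.ofReal V * ENNReal.ofReal (s ^ ((1:ℝ) / 2 - 1)) :=
          setLIntegral_mono' measurableSet_Ioc (fun s hs => by gcongr; exact hd1 s hs.1)
      _ = ENNReal.ofReal V * ∫⁻ s in Ioc (0:ℝ) 1, ENNReal.ofReal (s ^ ((1:ℝ) / 2 - 1)) :=
          lintegral_const_mul' _ _ ENNReal.ofReal_ne_top
      _ = ENNReal.ofReal (V * 2) := by
          rw [← ofReal_integral_eq_lintegral_ofReal hi
            ((ae_restrict_iff' measurableSet_Ioc).2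
              (ae_of_all _ (fun s hs => Real.rpow_nonneg hs.1.le _))), hval,
            ← ENNReal.ofReal_mul hV0]
  have hB : ∫⁻ s in Ioi (1:ℝ), μ {a | s < f a} * ENNReal.ofReal (s ^ ((1:ℝ) / 2 - 1)) ≤
      ENNReal.ofReal (C * 2) := by
    have hi : IntegrableOn (fun s : ℝ => s ^ (-(3:ℝ) / 2)) (Ioi 1) :=
      integrableOn_Ioi_rpow_of_lt (by norm_num) one_pos
    have hval : ∫ s in Ioi (1:ℝ), s ^ (-(3:ℝ) / 2) = 2 := by
      rw [integral_Ioi_rpow_of_lt (by norm_num) one_pos]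
      norm_num
    calc ∫⁻ s in Ioi (1:ℝ), μ {a | s < f a} * ENNReal.ofReal (s ^ ((1:ℝ) / 2 - 1))
        ≤ ∫⁻ s in Ioi (1:ℝ), ENNReal.ofReal C * ENNReal.ofReal (s ^ (-(3:ℝ) / 2)) := by
          apply setLIntegral_mono' measurableSet_Ioi
          intro s hs
          have hs0 : (0:ℝ) < s := one_pos.trans hs
          calc μ {a | s < f a} * ENNReal.ofReal (s ^ ((1:ℝ) / 2 - 1))
              ≤ ENNReal.ofReal (C / s) * ENNReal.ofReal (s ^ ((1:ℝ) / 2 - 1)) := by
                gcongr; exact hd2 s hs0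
            _ = ENNReal.ofReal C * ENNReal.ofReal (s ^ (-(3:ℝ) / 2)) := by
                rw [← ENNReal.ofReal_mul (by positivity), ← ENNReal.ofReal_mul hC0]
                congr 1
                have : (-(3:ℝ) / 2) = ((1:ℝ) / 2 - 1) - 1 := by norm_num
                have e : s ^ (-(3:ℝ) / 2) = s ^ ((1:ℝ) / 2 - 1) / s := by
                  rw [this]; exact Real.rpow_sub_one hs0.ne' _
                rw [e]
                generalize s ^ ((1:ℝ) / 2 - 1) = X
                field_simp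
      _ = ENNReal.ofReal C * ∫⁻ s in Ioi (1:ℝ), ENNReal.ofReal (s ^ (-(3:ℝ) / 2)) :=
          lintegral_const_mul' _ _ ENNReal.ofReal_ne_top
      _ = ENNReal.ofReal (C * 2) := by
          rw [← ofReal_integral_eq_lintegral_ofReal hi
            ((ae_restrict_iff' measurableSet_Ioi).2
              (ae_of_all _ (fun s hs => Real.rpow_nonneg (one_pos.trans hs).le _))), hval,
            ← ENNReal.ofReal_mul hC0]
  have hsplit : ∫⁻ s in Ioi (0:ℝ), μ {a | s < f a} * ENNReal.ofReal (s ^ ((1:ℝ) / 2 - 1)) ≤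
      ENNReal.ofReal (V * 2) + ENNReal.ofReal (C * 2) := by
    rw [← Ioc_union_Ioi_eq_Ioi (zero_le_one' ℝ)]
    exact (lintegral_union_le _ _ _).trans (add_le_add hA hB)
  have htot : ∫⁻ q, ENNReal.ofReal (f q ^ (1 / 2 : ℝ)) ∂μ ≤ ENNReal.ofReal (V + C) := by
    rw [hlc]
    calc ENNReal.ofReal (1 / 2) *
          ∫⁻ s in Ioi (0:ℝ), μ {a | s < f a} * ENNReal.ofReal (s ^ ((1:ℝ) / 2 - 1))
        ≤ ENNReal.ofReal (1 / 2) * (ENNReal.ofReal (V * 2) + ENNReal.ofReal (C * 2)) := by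
          gcongr
      _ = ENNReal.ofReal (V + C) := by
          rw [← ENNReal.ofReal_add (by positivity) (by positivity),
            ← ENNReal.ofReal_mul (by norm_num)]
          congr 1
          ring
  rw [integral_eq_lintegral_of_nonneg_ae (ae_of_all _ (fun q => Real.rpow_nonneg (hf0 q) _))
    (hpc.aestronglyMeasurable hQ)]
  calc (∫⁻ q, ENNReal.ofReal (f q ^ (1 / 2 : ℝ)) ∂μ).toReal
      ≤ (ENNReal.ofReal (V + C)).toReal := ENNReal.toReal_mono ENNReal.ofReal_ne_top htot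
    _ = V + C := ENNReal.toReal_ofReal (by positivity)

end Claimed.Agent.Lib.Dgnm
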