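import Claimed.Agent.Lib.Dgnm.Basic

/-!
# Lib/Dgnm/SlicePow : Caccioppoli inequality for powers, at a fixed time (leaf DG-S1)

`u > 0` subsolution of the homogeneous equation, `γ ≥ 2`, `ζ` a test function.  TEST FUNCTION
`φ = ζ^2 u^{γ-1} ≥ 0` (`dg_Test.mul_on`, `dg_Test.sq`, `dg_Reg.rpow`), with (at every point, by
`dg_Test.fderiv_mul_on` and `dg_Reg.fderiv_rpow`)
`dφ = 2 ζ u^{γ-1} dζ + (γ-1) ζ^2 u^{γ-2} du`.
Write `P = u^{γ/2-1} ‖du‖`, `V = u^{γ/2}` (so `u^{γ-1}‖du‖ = V P`, `u^{γ-2}‖du‖^2 = P^2`, `u^γ = V^2`).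
On `S` (`F = 0 = g` there because `kF = kg = 0`):
`dφ(a du) ≥ (γ-1) lam ζ^2 P^2 - 2 Lam |ζ| ‖dζ‖ V P`,
`dφ(u f) ≥ - 2 Lam |ζ| ‖dζ‖ V^2 - (γ-1) Lam ζ^2 V P`,
`-(du(b) + c u) ζ^2 u^{γ-1} ≥ - Lam ζ^2 V P - Lam ζ^2 V^2`.
Multiply by `γ`, use `γ(γ-1) ≥ γ^2/2` and
`2 Lam γ |ζ|‖dζ‖ V P ≤ (γ^2/8) lam ζ^2 P^2 + (8 Lam^2/lam) ‖dζ‖^2 V^2`,
`γ^2 Lam ζ^2 V P ≤ (γ^2/8) lam ζ^2 P^2 + γ^2 (2 Lam^2/lam) ζ^2 V^2`,
`2 Lam γ |ζ|‖dζ‖ V^2 ≤ Lam γ (ζ^2 + ‖dζ‖^2) V^2`: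
`γ * dg_form ≥ ζ^2 mu γ u^{γ-1} u_t + lam (γ^2/4) ζ^2 P^2 - C γ^2 (ζ^2 + ‖dζ‖^2) V^2`,
`C = 10 Lam^2/lam + 2 Lam`.  Conclude with `dg_Sub.integral_le` (the lower bound `J` is `ζ`-cutoff times
continuous on `S`, hence integrable: `dg_integrable_mul`) and linearity of the integral.
Suggestion: first prove the pointwise inequality as a separate lemma about real numbers
(`nlinarith`/`positivity` after setting `P`, `V`, `z = |ζ|`, `d = ‖dζ‖`).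
-/

set_option autoImplicit false
set_option linter.unusedSectionVars false

open Set Filter MeasureTheory Metric
open scoped Topology ContDiff

namespace Claimed.Agent.Lib.Dgnm

theorem dg_young (ε : ℝ) (hε : 0 < ε) (a b : ℝ) : a * b ≤ ε * a ^ 2 + b ^ 2 / (4 * ε) := by
  have h1 : 0 ≤ (2 * ε * a - b) ^ 2 / (4 * ε) := by positivity
  have h2 : (2 * ε * a - b) ^ 2 / (4 * ε) = ε * a ^ 2 + b ^ 2 / (4 * ε) - a * b := by
    field_simp; ring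
  linarith

theorem dg_slice_pow_aux1 {lam Lam γ X Y Z : ℝ} (hl : 0 < lam) (hL : lam ≤ Lam) (hγ : 2 ≤ γ)
    (_hX : 0 ≤ X) (_hY : 0 ≤ Y) (_hZ : 0 ≤ Z) :
    lam * (γ / 4) * X ^ 2 - (10 * Lam ^ 2 / lam + 2 * Lam) * γ * (Z ^ 2 + Y ^ 2)
      ≤ (γ - 1) * lam * X ^ 2 - 2 * Lam * X * Y - γ * Lam * X * Z - 2 * Lam * Y * Z
        - Lam * Z ^ 2 := by
  have hLam : 0 < Lam := lt_of_lt_of_le hl hL
  set q : ℝ := Lam ^ 2 / lam with hq
  have hq0 : 0 ≤ q := by positivity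
  have h1 : 2 * Lam * X * Y ≤ lam / 4 * X ^ 2 + 4 * q * Y ^ 2 := by
    have := dg_young (lam / 4) (by positivity) X (2 * Lam * Y)
    have e : (2 * Lam * Y) ^ 2 / (4 * (lam / 4)) = 4 * q * Y ^ 2 := by
      rw [hq]; field_simp; ring
    rw [e] at this
    linarith
  have h2 : Lam * X * Z ≤ lam / 8 * X ^ 2 + 2 * q * Z ^ 2 := by
    have := dg_young (lam / 8) (by positivity) X (Lam * Z)
    have e : (Lam * Z) ^ 2 / (4 * (lam / 8)) = 2 * q * Z ^ 2 := by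
      rw [hq]; field_simp; ring
    rw [e] at this
    linarith
  have e10 : 10 * Lam ^ 2 / lam = 10 * q := by rw [hq]; ring
  rw [e10]
  have hg : 0 ≤ γ - 2 := by linarith
  have h3 := mul_le_mul_of_nonneg_left h2 (by linarith : (0 : ℝ) ≤ γ)
  have p1 : 0 ≤ (γ - 2) * (lam * X ^ 2) := by positivity
  have p2 : 0 ≤ (γ - 2) * (q * Y ^ 2) := by positivity
  have p3 : 0 ≤ (γ - 2) * (q * Z ^ 2) := by positivity
  have p4 : 0 ≤ (γ - 2) * (Lam * (Z ^ 2 + Y ^ 2)) := by positivity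
  have p5 : 0 ≤ Lam * (Y - Z) ^ 2 := by positivity
  have p6 : 0 ≤ q * Y ^ 2 := by positivity
  have p7 : 0 ≤ q * Z ^ 2 := by positivity
  have p8 : 0 ≤ Lam * Z ^ 2 := by positivity
  have p9 : 0 ≤ Lam * Y ^ 2 := by positivity
  nlinarith [h1, h3, p1, p2, p3, p4, p5, p6, p7, p8, p9]

theorem dg_slice_pow_aux2 {lam Lam γ z d n p V u A1 A2 B1 B2 B3 c : ℝ} (hl : 0 < lam)
    (hL : lam ≤ Lam) (hγ : 2 ≤ γ) (hd : 0 ≤ d) (hn : 0 ≤ n) (hp : 0 < p) (hV : 0 < V) (hu : 0 < u)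
    (hup : u * p = V) (hA1 : lam * n ^ 2 ≤ A1) (hA2 : |A2| ≤ d * (Lam * n)) (hB1 : |B1| ≤ n * Lam)
    (hB2 : |B2| ≤ d * Lam) (hB3 : |B3| ≤ n * Lam) (hc : |c| ≤ Lam) :
    lam * (γ / 4) * (z ^ 2 * (p ^ 2 * n ^ 2))
        - (10 * Lam ^ 2 / lam + 2 * Lam) * γ * ((z ^ 2 + d ^ 2) * V ^ 2)
      ≤ z ^ 2 * ((γ - 1) * p ^ 2) * (A1 + u * B1) + (p * V) * (2 * z) * (A2 + u * B2)
        - (B3 + c * u) * (z ^ 2 * (p * V)) := by
  have hLam : 0 < Lam := lt_of_lt_of_le hl hL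
  have hz : 0 ≤ |z| := abs_nonneg z
  have hzz : |z| ^ 2 = z ^ 2 := sq_abs z
  have key := dg_slice_pow_aux1 (X := |z| * (p * n)) (Y := d * V) (Z := |z| * V) hl hL hγ
    (by positivity) (by positivity) (by positivity)
  have hg1 : 0 ≤ γ - 1 := by linarith
  -- termwise bounds
  have t1 : (γ - 1) * lam * (|z| * (p * n)) ^ 2 ≤ z ^ 2 * ((γ - 1) * p ^ 2) * A1 := by
    have : z ^ 2 * ((γ - 1) * p ^ 2) * (lam * n ^ 2) ≤ z ^ 2 * ((γ - 1) * p ^ 2) * A1 :=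
      mul_le_mul_of_nonneg_left hA1 (by positivity)
    calc (γ - 1) * lam * (|z| * (p * n)) ^ 2 = z ^ 2 * ((γ - 1) * p ^ 2) * (lam * n ^ 2) := by
          rw [mul_pow, hzz]; ring
      _ ≤ _ := this
  have t2 : -((γ - 1) * Lam * (|z| * (p * n)) * (|z| * V)) ≤ z ^ 2 * ((γ - 1) * p ^ 2) * (u * B1) := by
    have h1 : -(n * Lam) ≤ B1 := (abs_le.1 hB1).1
    have : z ^ 2 * ((γ - 1) * p ^ 2) * u * (-(n * Lam)) ≤ z ^ 2 * ((γ - 1) * p ^ 2) * u * B1 :=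
      mul_le_mul_of_nonneg_left h1 (by positivity)
    calc -((γ - 1) * Lam * (|z| * (p * n)) * (|z| * V))
        = z ^ 2 * ((γ - 1) * p ^ 2) * u * (-(n * Lam)) := by
          rw [← hup, ← hzz]; ring
      _ ≤ _ := this
      _ = _ := by ring
  have t3 : -(2 * Lam * (|z| * (p * n)) * (d * V)) ≤ (p * V) * (2 * z) * A2 := by
    have h1 : |z * A2| ≤ |z| * (d * (Lam * n)) := by
      rw [abs_mul]; exact mul_le_mul_of_nonneg_left hA2 hz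
    have h2 : -(|z| * (d * (Lam * n))) ≤ z * A2 := (abs_le.1 h1).1
    have : (2 * (p * V)) * (-(|z| * (d * (Lam * n)))) ≤ (2 * (p * V)) * (z * A2) :=
      mul_le_mul_of_nonneg_left h2 (by positivity)
    calc -(2 * Lam * (|z| * (p * n)) * (d * V)) = (2 * (p * V)) * (-(|z| * (d * (Lam * n)))) := by ring
      _ ≤ _ := this
      _ = _ := by ring
  have t4 : -(2 * Lam * (d * V) * (|z| * V)) ≤ (p * V) * (2 * z) * (u * B2) := by
    have h1 : |z * B2| ≤ |z| * (d * Lam) := by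
      rw [abs_mul]; exact mul_le_mul_of_nonneg_left hB2 hz
    have h2 : -(|z| * (d * Lam)) ≤ z * B2 := (abs_le.1 h1).1
    have : (2 * (p * V) * u) * (-(|z| * (d * Lam))) ≤ (2 * (p * V) * u) * (z * B2) :=
      mul_le_mul_of_nonneg_left h2 (by positivity)
    calc -(2 * Lam * (d * V) * (|z| * V)) = (2 * (p * V) * u) * (-(|z| * (d * Lam))) := by
          rw [← hup]; ring
      _ ≤ _ := this
      _ = _ := by ring
  have t5 : -(Lam * (|z| * (p * n)) * (|z| * V)) ≤ -(B3 * (z ^ 2 * (p * V))) := by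
    have h1 : B3 ≤ n * Lam := (abs_le.1 hB3).2
    have : B3 * (z ^ 2 * (p * V)) ≤ n * Lam * (z ^ 2 * (p * V)) :=
      mul_le_mul_of_nonneg_right h1 (by positivity)
    have e : Lam * (|z| * (p * n)) * (|z| * V) = n * Lam * (z ^ 2 * (p * V)) := by
      rw [← hzz]; ring
    rw [e]; linarith
  have t6 : -(Lam * (|z| * V) ^ 2) ≤ -(c * u * (z ^ 2 * (p * V))) := by
    have h1 : c ≤ Lam := (abs_le.1 hc).2
    have : c * (u * (z ^ 2 * (p * V))) ≤ Lam * (u * (z ^ 2 * (p * V))) :=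
      mul_le_mul_of_nonneg_right h1 (by positivity)
    have e : Lam * (|z| * V) ^ 2 = Lam * (u * (z ^ 2 * (p * V))) := by
      rw [mul_pow, hzz, ← hup]; ring
    rw [e]; linarith
  have e1 : lam * (γ / 4) * (z ^ 2 * (p ^ 2 * n ^ 2)) = lam * (γ / 4) * (|z| * (p * n)) ^ 2 := by
    rw [mul_pow, hzz]; ring
  have e2 : (z ^ 2 + d ^ 2) * V ^ 2 = (|z| * V) ^ 2 + (d * V) ^ 2 := by
    rw [mul_pow, hzz]; ring
  rw [e1, e2]
  nlinarith [key, t1, t2, t3, t4, t5, t6]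

variable {W : Type*} [NormedAddCommGroup W] [InnerProductSpace ℝ W] [FiniteDimensional ℝ W]
  [MeasurableSpace W] [BorelSpace W]

/-- time slices of a function which is continuous on `I ×ˢ S`. -/
theorem dg_continuousOn_slice {E : Type*} [TopologicalSpace E] {I : Set ℝ} {S : Set W}
    {h : ℝ → W → E} (hh : ContinuousOn (fun q : ℝ × W => h q.1 q.2) (I ×ˢ S)) {t : ℝ} (ht : t ∈ I) :
    ContinuousOn (h t) S :=
  hh.comp (f := fun x : W => (t, x)) (by fun_prop) (fun _ hx => ⟨ht, hx⟩)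

theorem dg_Test.fderiv_sq {S : Set W} {ζ : W → ℝ} (h : dg_Test S ζ) (x : W) :
    fderiv ℝ (fun y => ζ y ^ 2) x = (2 * ζ x) • fderiv ℝ ζ x := by
  have hd : HasFDerivAt ζ (fderiv ℝ ζ x) x := (h.smooth.differentiable one_ne_zero x).hasFDerivAt
  have h1 := (hd.mul hd).fderiv
  have e : (fun y => ζ y ^ 2) = fun y => ζ y * ζ y := by funext y; ring
  rw [e]
  have e2 : (ζ * ζ) = fun y => ζ y * ζ y := rfl
  rw [← e2, h1, two_mul, add_smul]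

/-- the cutoff `ζ^2 + ‖dζ‖^2`. -/
theorem dg_Test.cut2 {S : Set W} {ζ : W → ℝ} (h : dg_Test S ζ) :
    Continuous (fun x => ζ x ^ 2 + ‖fderiv ℝ ζ x‖ ^ 2) ∧
      HasCompactSupport (fun x => ζ x ^ 2 + ‖fderiv ℝ ζ x‖ ^ 2) ∧
      tsupport (fun x => ζ x ^ 2 + ‖fderiv ℝ ζ x‖ ^ 2) ⊆ S := by
  have hc : Continuous (fun x => fderiv ℝ ζ x) := h.smooth.continuous_fderiv one_ne_zero
  have hsub : tsupport (fun x => ζ x ^ 2 + ‖fderiv ℝ ζ x‖ ^ 2) ⊆ tsupport ζ := by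
    apply closure_minimal _ (isClosed_tsupport ζ)
    intro x hx
    by_contra hx'
    apply hx
    have h1 : ζ x = 0 := image_eq_zero_of_notMem_tsupport hx'
    have h2 : fderiv ℝ ζ x = 0 :=
      image_eq_zero_of_notMem_tsupport (fun h3 => hx' (tsupport_fderiv_subset ℝ h3))
    simp [h1, h2]
  refine ⟨(h.smooth.continuous.pow 2).add (hc.norm.pow 2), ?_, hsub.trans h.supp⟩
  exact h.cpt.of_isClosed_subset (isClosed_tsupport _) hsub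

variable (W) in
theorem dg_slice_pow (lam Lam : ℝ) (hl : 0 < lam) (hL : lam ≤ Lam) : ∃ C : ℝ, 0 < C ∧
    ∀ (I : Set ℝ) (S : Set W) (K : dg_Coef W) (u ut : ℝ → W → ℝ), dg_PosSub I S lam Lam K u ut →
    ∀ γ : ℝ, 2 ≤ γ → ∀ t ∈ I, ∀ ζ : W → ℝ, dg_Test S ζ →
      lam * (∫ x, ζ x ^ 2 * ((γ / 2) ^ 2 * u t x ^ (γ - 2) * ‖fderiv ℝ (u t) x‖ ^ 2))
        + ∫ x, ζ x ^ 2 * (K.mu t x * (γ * u t x ^ (γ - 1) * ut t x))
      ≤ C * γ ^ 2 * ∫ x, (ζ x ^ 2 + ‖fderiv ℝ ζ x‖ ^ 2) * u t x ^ γ := by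
  have hLam : 0 < Lam := lt_of_lt_of_le hl hL
  refine ⟨10 * Lam ^ 2 / lam + 2 * Lam, by positivity, ?_⟩
  intro I S K u ut h γ hγ t ht ζ hζ
  set C : ℝ := 10 * Lam ^ 2 / lam + 2 * Lam with hC
  have hγ0 : 0 < γ := by linarith
  have hS := h.isOpen
  have hu0 : ContinuousOn (u t) S := dg_continuousOn_slice h.reg.cont0 ht
  have hu1 : ContinuousOn (fun x => fderiv ℝ (u t) x) S :=
    dg_continuousOn_slice (h := fun t x => fderiv ℝ (u t) x) h.reg.cont1 ht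
  have hut : ContinuousOn (ut t) S := dg_continuousOn_slice h.reg.contt ht
  have hmu : ContinuousOn (K.mu t) S := dg_continuousOn_slice h.ok.mu_cont ht
  have hpow : ∀ β : ℝ, ContinuousOn (fun x => u t x ^ β) S := fun β =>
    hu0.rpow_const (fun x hx => Or.inl (h.pos t ht x hx).ne')
  have hw : ContDiffOn ℝ 1 (fun x => u t x ^ (γ - 1)) S := (h.reg.rpow hS h.pos (γ - 1)).c1 t ht
  have hφ : dg_Test S (fun x => ζ x ^ 2 * u t x ^ (γ - 1)) := dg_Test.mul_on hS hζ.sq hw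
  have hφ0 : ∀ x, 0 ≤ ζ x ^ 2 * u t x ^ (γ - 1) := by
    intro x
    by_cases hx : x ∈ S
    · exact mul_nonneg (sq_nonneg _) (Real.rpow_nonneg (h.pos t ht x hx).le _)
    · rw [hζ.eq_zero hx]; simp
  -- the three integrands
  have i1 : Integrable (fun x => ζ x ^ 2 * (K.mu t x * (γ * u t x ^ (γ - 1) * ut t x))) :=
    dg_integrable_mul hS hζ.sq.smooth.continuous hζ.sq.cpt hζ.sq.supp
      (hmu.mul ((continuousOn_const.mul (hpow _)).mul hut))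
  have i2 : Integrable
      (fun x => ζ x ^ 2 * ((γ / 2) ^ 2 * u t x ^ (γ - 2) * ‖fderiv ℝ (u t) x‖ ^ 2)) :=
    dg_integrable_mul hS hζ.sq.smooth.continuous hζ.sq.cpt hζ.sq.supp
      ((continuousOn_const.mul (hpow _)).mul (hu1.norm.pow 2))
  have i3 : Integrable (fun x => (ζ x ^ 2 + ‖fderiv ℝ ζ x‖ ^ 2) * u t x ^ γ) :=
    dg_integrable_mul hS hζ.cut2.1 hζ.cut2.2.1 hζ.cut2.2.2 (hpow γ)
  set J : W → ℝ := fun x => γ⁻¹ * (lam * (ζ x ^ 2 * ((γ / 2) ^ 2 * u t x ^ (γ - 2) * ‖fderiv ℝ (u t) x‖ ^ 2))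
      + ζ x ^ 2 * (K.mu t x * (γ * u t x ^ (γ - 1) * ut t x))
      - C * γ ^ 2 * ((ζ x ^ 2 + ‖fderiv ℝ ζ x‖ ^ 2) * u t x ^ γ)) with hJ
  have iJ : Integrable J := (((i2.const_mul lam).add i1).sub (i3.const_mul (C * γ ^ 2))).const_mul γ⁻¹
  have hJ0 : ∀ x, x ∉ S → J x = 0 := by
    intro x hx
    simp only [hJ, hζ.eq_zero hx, hζ.fderiv_eq_zero hx]
    simp
  have hle : ∀ x ∈ S, J x ≤ dg_form K u ut (fun x => ζ x ^ 2 * u t x ^ (γ - 1)) t x := by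
    intro x hx
    have hux : 0 < u t x := h.pos t ht x hx
    have hF : K.F t x = 0 := norm_le_zero_iff.1 (h.ok.F_le t ht x hx)
    have hg : K.g t x = 0 := abs_nonpos_iff.1 (h.ok.g_le t ht x hx)
    have hdφ : fderiv ℝ (fun y => ζ y ^ 2 * u t y ^ (γ - 1)) x
        = ζ x ^ 2 • (((γ - 1) * u t x ^ (γ - 1 - 1)) • fderiv ℝ (u t) x)
          + u t x ^ (γ - 1) • ((2 * ζ x) • fderiv ℝ ζ x) := by
      rw [dg_Test.fderiv_mul_on hS hζ.sq hw x, h.reg.fderiv_rpow hS h.pos (γ - 1) ht hx,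
        hζ.fderiv_sq x]
    set p : ℝ := u t x ^ (γ / 2 - 1) with hp
    set V : ℝ := u t x ^ (γ / 2) with hV
    have hp0 : 0 < p := Real.rpow_pos_of_pos hux _
    have hV0 : 0 < V := Real.rpow_pos_of_pos hux _
    have e2 : u t x ^ (γ - 2) = p ^ 2 := by
      rw [hp, sq, ← Real.rpow_add hux]; congr 1; ring
    have e1 : u t x ^ (γ - 1) = p * V := by
      rw [hp, hV, ← Real.rpow_add hux]; congr 1; ring
    have e0 : u t x ^ γ = V ^ 2 := by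
      rw [hV, sq, ← Real.rpow_add hux]; congr 1; ring
    have eup : u t x * p = V := by
      rw [hp, hV]
      nth_rewrite 1 [← Real.rpow_one (u t x)]
      rw [← Real.rpow_add hux]; congr 1; ring
    have e11 : γ - 1 - 1 = γ - 2 := by ring
    have key := dg_slice_pow_aux2 (z := ζ x) (d := ‖fderiv ℝ ζ x‖) (n := ‖fderiv ℝ (u t) x‖)
      (p := p) (V := V) (u := u t x)
      (A1 := fderiv ℝ (u t) x (K.a t x (fderiv ℝ (u t) x)))
      (A2 := fderiv ℝ ζ x (K.a t x (fderiv ℝ (u t) x)))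
      (B1 := fderiv ℝ (u t) x (K.f t x)) (B2 := fderiv ℝ ζ x (K.f t x))
      (B3 := fderiv ℝ (u t) x (K.b t x)) (c := K.c t x) hl hL hγ (norm_nonneg _) (norm_nonneg _)
      hp0 hV0 hux eup (h.ok.a_lo t ht x hx _)
      (((fderiv ℝ ζ x).le_opNorm _).trans
        (mul_le_mul_of_nonneg_left (h.ok.a_hi t ht x hx _) (norm_nonneg _)))
      (((fderiv ℝ (u t) x).le_opNorm _).trans
        (mul_le_mul_of_nonneg_left (h.ok.f_le t ht x hx) (norm_nonneg _)))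
      (((fderiv ℝ ζ x).le_opNorm _).trans
        (mul_le_mul_of_nonneg_left (h.ok.f_le t ht x hx) (norm_nonneg _)))
      (((fderiv ℝ (u t) x).le_opNorm _).trans
        (mul_le_mul_of_nonneg_left (h.ok.b_le t ht x hx) (norm_nonneg _)))
      (h.ok.c_le t ht x hx)
    unfold dg_form
    rw [hdφ, hF, hg, e11]
    simp only [hJ, add_apply, FunLike.coe_smul, Pi.smul_apply, smul_eq_mul,
      map_add, map_smul, add_zero, e2, e1, e0]
    rw [← hC] at key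
    have e3 : γ⁻¹ * (lam * (ζ x ^ 2 * ((γ / 2) ^ 2 * p ^ 2 * ‖fderiv ℝ (u t) x‖ ^ 2))
        + ζ x ^ 2 * (K.mu t x * (γ * (p * V) * ut t x))
        - C * γ ^ 2 * ((ζ x ^ 2 + ‖fderiv ℝ ζ x‖ ^ 2) * V ^ 2))
        = (lam * (γ / 4) * (ζ x ^ 2 * (p ^ 2 * ‖fderiv ℝ (u t) x‖ ^ 2))
          - C * γ * ((ζ x ^ 2 + ‖fderiv ℝ ζ x‖ ^ 2) * V ^ 2)) + K.mu t x * ut t x * (ζ x ^ 2 * (p * V)) := by
      field_simp; ring
    rw [e3]
    linarith
  have hfin := dg_Sub.integral_le hS h.ok h.reg h.sub ht hφ hφ0 iJ hJ0 hle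
  have hint : ∫ x, J x = γ⁻¹ * (lam * (∫ x, ζ x ^ 2 * ((γ / 2) ^ 2 * u t x ^ (γ - 2) * ‖fderiv ℝ (u t) x‖ ^ 2))
      + (∫ x, ζ x ^ 2 * (K.mu t x * (γ * u t x ^ (γ - 1) * ut t x)))
      - C * γ ^ 2 * ∫ x, (ζ x ^ 2 + ‖fderiv ℝ ζ x‖ ^ 2) * u t x ^ γ) := by
    simp only [hJ]
    have i12 : Integrable (fun x => lam * (ζ x ^ 2 * ((γ / 2) ^ 2 * u t x ^ (γ - 2) * ‖fderiv ℝ (u t) x‖ ^ 2))
      + ζ x ^ 2 * (K.mu t x * (γ * u t x ^ (γ - 1) * ut t x))) := (i2.const_mul lam).add i1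
    rw [integral_const_mul, integral_sub i12 (i3.const_mul (C * γ ^ 2)),
      integral_add (i2.const_mul lam) i1, integral_const_mul, integral_const_mul]
  rw [hint] at hfin
  by_contra hcon
  push Not at hcon
  exact absurd hfin (not_le.2 (mul_pos (inv_pos.2 hγ0) (by linarith)))

end Claimed.Agent.Lib.Dgnm
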