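import Claimed.Agent.Lib.Dgnm.Basic
import Claimed.Agent.Lib.Dgnm.SlicePow

/-!
# Lib/Dgnm/Softplus : `1 + log (1 + κ0/u)` is a positive subsolution (leaf DG-SP)

## `dg_softplus` (leaf DG-SP)
`Φ(s) = log (1 + κ0/s) = log (s + κ0) - log s` on `s > 0`:
`Φ' = -κ0/(s (s+κ0)) < 0`, `s Φ' = -κ0/(s+κ0) ∈ (-1,0)`, `Φ'' = (κ0^2 + 2 κ0 s)/(s^2 (s+κ0)^2) > 0`,
`s^2 Φ'' ∈ (0,1]`.  `v = Φ(u) > 0`, `vbar = 1 + v`, `dv = Φ'(u) du`, `v_t = Φ'(u) u_t`.
For a test function `φ ≥ 0` use `ψ = -Φ'(u) φ ≥ 0` in the supersolution inequality,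
`dψ = -Φ' dφ - Φ'' φ du`:
`0 ≤ ∫ [ -mu v_t φ - dφ(a dv) - Φ'' φ du(a du) - u Φ' dφ(f) - u Φ'' φ du(f) + dv(b) φ + c u Φ' φ ]`.
Since `-Φ''(du(a du) + u du(f)) ≤ Φ'' (-lam ‖du‖^2 + u Lam ‖du‖) ≤ Φ'' u^2 Lam^2/(4 lam) ≤ Lam^2/(4 lam)`
and `c u Φ' ≤ Lam`:   `∫ [ mu v_t φ + dφ(a dv + u Φ'(u) f) - dv(b) φ - g0 φ ] ≤ 0`, `g0 = Lam^2/(4 lam) + Lam`.
This is `dg_Sub K' vbar` for
`K' = { K with f := vbar⁻¹ • (u Φ'(u)) • K.f, c := vbar⁻¹ * g0 }` (`F = g = 0` may be replaced by `0`),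
`‖f'‖ ≤ Lam`, `|c'| ≤ g0`; `Lam' = Lam + g0`.
Use `dg_Super.le_integral` with `J = -(dg_form K' vbar vbar_t φ)` (integrable by `dg_form_integrable`), or directly
`integral_mono` between the two weak form integrands.
-/

set_option autoImplicit false
set_option linter.unusedSectionVars false

open Set Filter MeasureTheory Metric
open scoped Topology ContDiff

namespace Claimed.Agent.Lib.Dgnm

variable {W : Type*} [NormedAddCommGroup W] [InnerProductSpace ℝ W] [FiniteDimensional ℝ W]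
  [MeasurableSpace W] [BorelSpace W]

theorem dg_sp_hasDerivAt_Phi {κ0 s : ℝ} (hκ : 0 < κ0) (hs : 0 < s) :
    HasDerivAt (fun s => 1 + Real.log (1 + κ0 / s)) (-(κ0 / (s * (s + κ0)))) s := by
  have h1 : HasDerivAt (fun s : ℝ => 1 + κ0 / s) (-κ0 / s ^ 2) s := by
    have h0 : HasDerivAt (fun s : ℝ => κ0 / s) ((0 * s - κ0 * 1) / s ^ 2) s :=
      (hasDerivAt_const s κ0).div (hasDerivAt_id s) hs.ne'
    have e : -κ0 / s ^ 2 = (0 * s - κ0 * 1) / s ^ 2 := by ring
    rw [e]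
    exact h0.const_add 1
  have h2 : (1 + κ0 / s) ≠ 0 := by positivity
  have h3 := (h1.log h2).const_add 1
  have e : -(κ0 / (s * (s + κ0))) = -κ0 / s ^ 2 / (1 + κ0 / s) := by
    field_simp
  rw [e]
  exact h3

theorem dg_sp_hasDerivAt_w {κ0 s : ℝ} (hκ : 0 < κ0) (hs : 0 < s) :
    HasDerivAt (fun s => κ0 / (s * (s + κ0))) (-(κ0 * (2 * s + κ0) / (s * (s + κ0)) ^ 2)) s := by
  have h1 : HasDerivAt (fun s : ℝ => s * (s + κ0)) (1 * (s + κ0) + s * 1) s :=
    (hasDerivAt_id s).mul ((hasDerivAt_id s).add_const κ0)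
  have h2 : s * (s + κ0) ≠ 0 := by positivity
  have h3 : HasDerivAt (fun s => κ0 / (s * (s + κ0)))
      ((0 * (s * (s + κ0)) - κ0 * (1 * (s + κ0) + s * 1)) / (s * (s + κ0)) ^ 2) s :=
    (hasDerivAt_const s κ0).div h1 h2
  have e : -(κ0 * (2 * s + κ0) / (s * (s + κ0)) ^ 2)
      = ((0 * (s * (s + κ0)) - κ0 * (1 * (s + κ0) + s * 1)) / (s * (s + κ0)) ^ 2) := by
    ring
  rw [e]
  exact h3

theorem dg_sp_contDiffOn_Phi {κ0 : ℝ} (hκ : 0 < κ0) :
    ContDiffOn ℝ 1 (fun s => 1 + Real.log (1 + κ0 / s)) (Ioi 0) := by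
  refine contDiffOn_const.add (ContDiffOn.log ?_ ?_)
  · exact contDiffOn_const.add (contDiffOn_const.div contDiffOn_id fun s hs => (mem_Ioi.1 hs).ne')
  · intro s hs
    have : 0 < s := hs
    positivity

theorem dg_sp_contDiffOn_w {κ0 : ℝ} (hκ : 0 < κ0) :
    ContDiffOn ℝ 1 (fun s => κ0 / (s * (s + κ0))) (Ioi 0) := by
  refine contDiffOn_const.div (contDiffOn_id.mul (contDiffOn_id.add contDiffOn_const)) ?_
  intro s hs
  have : 0 < s := hs
  positivity

theorem dg_sp_aux {lam Lam κ0 s n A1 B1 c : ℝ} (hl : 0 < lam) (hL : lam ≤ Lam) (hκ : 0 < κ0)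
    (hs : 0 < s) (hA1 : lam * n ^ 2 ≤ A1) (hB1 : |B1| ≤ n * Lam) (hc : |c| ≤ Lam) :
    0 ≤ (Lam ^ 2 / (4 * lam) + Lam) + (κ0 * (2 * s + κ0) / (s * (s + κ0)) ^ 2) * (A1 + s * B1)
      + c * s * (κ0 / (s * (s + κ0))) := by
  have hLam : 0 < Lam := lt_of_lt_of_le hl hL
  set P2 : ℝ := κ0 * (2 * s + κ0) / (s * (s + κ0)) ^ 2 with hP2
  have hP20 : 0 ≤ P2 := by positivity
  have hP21 : P2 * s ^ 2 ≤ 1 := by
    have e : P2 * s ^ 2 = κ0 * (2 * s + κ0) / (s + κ0) ^ 2 := by rw [hP2]; field_simp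
    rw [e, div_le_one (by positivity)]
    nlinarith [sq_nonneg s]
  have h1 : -(s ^ 2 * (Lam ^ 2 / (4 * lam))) ≤ A1 + s * B1 := by
    have y := dg_young lam hl n (s * Lam)
    have h2 : -(n * Lam) ≤ B1 := (abs_le.1 hB1).1
    have h3 : s * (-(n * Lam)) ≤ s * B1 := mul_le_mul_of_nonneg_left h2 hs.le
    have e : (s * Lam) ^ 2 / (4 * lam) = s ^ 2 * (Lam ^ 2 / (4 * lam)) := by ring
    rw [e] at y
    linarith
  have h2 : -(Lam ^ 2 / (4 * lam)) ≤ P2 * (A1 + s * B1) := by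
    have a1 := mul_le_mul_of_nonneg_left h1 hP20
    have a2 : (P2 * s ^ 2) * (Lam ^ 2 / (4 * lam)) ≤ 1 * (Lam ^ 2 / (4 * lam)) :=
      mul_le_mul_of_nonneg_right hP21 (by positivity)
    nlinarith
  have h3 : -Lam ≤ c * s * (κ0 / (s * (s + κ0))) := by
    have e : c * s * (κ0 / (s * (s + κ0))) = c * (κ0 / (s + κ0)) := by field_simp
    rw [e]
    have a1 : 0 ≤ κ0 / (s + κ0) := by positivity
    have a2 : κ0 / (s + κ0) ≤ 1 := by rw [div_le_one (by positivity)]; linarith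
    have a3 : -Lam ≤ c := (abs_le.1 hc).1
    nlinarith
  linarith

variable (W) in
theorem dg_softplus (lam Lam : ℝ) (hl : 0 < lam) (hL : lam ≤ Lam) : ∃ Lam' : ℝ, Lam ≤ Lam' ∧
    ∀ (I : Set ℝ) (S : Set W) (K : dg_Coef W) (u ut : ℝ → W → ℝ), dg_PosSuper I S lam Lam K u ut →
    ∀ κ0 : ℝ, 0 < κ0 → ∃ K' : dg_Coef W,
      dg_PosSub I S lam Lam' K' (fun t x => 1 + Real.log (1 + κ0 / u t x))
        (fun t x => -(κ0 / (u t x * (u t x + κ0))) * ut t x) := by
  have hLam : 0 < Lam := lt_of_lt_of_le hl hL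
  set g0 : ℝ := Lam ^ 2 / (4 * lam) + Lam with hg0
  have hg00 : 0 < g0 := by positivity
  refine ⟨Lam + g0, by linarith, ?_⟩
  intro I S K u ut h κ0 hκ
  have hS := h.isOpen
  set vb : ℝ → W → ℝ := fun t x => 1 + Real.log (1 + κ0 / u t x) with hvb
  set vbt : ℝ → W → ℝ := fun t x => -(κ0 / (u t x * (u t x + κ0))) * ut t x with hvbt
  have hr : ∀ t ∈ I, ∀ x ∈ S, u t x ∈ Ioi (0 : ℝ) := fun t ht x hx => h.pos t ht x hx
  have hreg : dg_Reg I S vb vbt := by
    refine (h.reg.comp hS isOpen_Ioi (dg_sp_contDiffOn_Phi hκ) hr).congr_ut ?_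
    intro t ht x hx
    rw [(dg_sp_hasDerivAt_Phi hκ (h.pos t ht x hx)).deriv]
  have hvb1 : ∀ t ∈ I, ∀ x ∈ S, 1 < vb t x := by
    intro t ht x hx
    have hu := h.pos t ht x hx
    have : 0 < Real.log (1 + κ0 / u t x) := Real.log_pos (by
      have : 0 < κ0 / u t x := by positivity
      linarith)
    simp only [hvb]; linarith
  set K' : dg_Coef W :=
    { mu := K.mu, mudt := K.mudt, a := K.a,
      f := fun t x => (vb t x)⁻¹ • (-(κ0 / (u t x + κ0))) • K.f t x,
      b := K.b, c := fun t x => (vb t x)⁻¹ * g0, F := fun _ _ => 0, g := fun _ _ => 0 } with hK'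
  have hvbc : ∀ t ∈ I, ContinuousOn (vb t) S := fun t ht => dg_continuousOn_slice hreg.cont0 ht
  have huc : ∀ t ∈ I, ContinuousOn (u t) S := fun t ht => dg_continuousOn_slice h.reg.cont0 ht
  have hinv : ∀ t ∈ I, ContinuousOn (fun x => (vb t x)⁻¹) S := fun t ht =>
    (hvbc t ht).inv₀ fun x hx => by have := hvb1 t ht x hx; positivity
  have hinv_le : ∀ t ∈ I, ∀ x ∈ S, |(vb t x)⁻¹| ≤ 1 := by
    intro t ht x hx
    have := hvb1 t ht x hx
    rw [abs_of_pos (by positivity)]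
    exact inv_le_one_of_one_le₀ this.le
  have hok : K'.Ok I S lam (Lam + g0) 0 0 := by
    refine
      { mu_dt := h.ok.mu_dt, mu_cont := h.ok.mu_cont, mudt_cont := h.ok.mudt_cont
        a_meas := h.ok.a_meas, f_meas := ?_, b_meas := h.ok.b_meas, c_meas := ?_
        F_meas := fun _ _ => aestronglyMeasurable_const
        g_meas := fun _ _ => aestronglyMeasurable_const
        mu_lo := h.ok.mu_lo, mu_hi := fun t ht x hx => (h.ok.mu_hi t ht x hx).trans (by linarith)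
        mudt_le := fun t ht x hx => (h.ok.mudt_le t ht x hx).trans (by linarith)
        a_lo := h.ok.a_lo
        a_hi := fun t ht x hx ξ => (h.ok.a_hi t ht x hx ξ).trans
          (mul_le_mul_of_nonneg_right (by linarith) (norm_nonneg _))
        f_le := ?_
        b_le := fun t ht x hx => (h.ok.b_le t ht x hx).trans (by linarith)
        c_le := ?_, F_le := fun _ _ _ _ => by simp [hK'], g_le := fun _ _ _ _ => by simp [hK'] }
    · intro t ht
      have c1 : ContinuousOn (fun x => -(κ0 / (u t x + κ0))) S :=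
        (continuousOn_const.div ((huc t ht).add continuousOn_const) fun x hx => by
          have := h.pos t ht x hx
          exact (by positivity : 0 < u t x + κ0).ne').neg
      exact ((hinv t ht).aestronglyMeasurable hS.measurableSet).smul
        ((c1.aestronglyMeasurable hS.measurableSet).smul (h.ok.f_meas t ht))
    · intro t ht
      exact ((hinv t ht).mul continuousOn_const).aestronglyMeasurable hS.measurableSet
    · intro t ht x hx
      have hu := h.pos t ht x hx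
      simp only [hK']
      rw [norm_smul, norm_smul, Real.norm_eq_abs, Real.norm_eq_abs]
      have a1 := hinv_le t ht x hx
      have a2 : |-(κ0 / (u t x + κ0))| ≤ 1 := by
        rw [abs_neg, abs_of_pos (by positivity), div_le_one (by positivity)]; linarith
      have a3 := h.ok.f_le t ht x hx
      calc |(vb t x)⁻¹| * (|-(κ0 / (u t x + κ0))| * ‖K.f t x‖) ≤ 1 * (1 * Lam) := by
            gcongr
        _ ≤ Lam + g0 := by linarith
    · intro t ht x hx
      simp only [hK']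
      rw [abs_mul, abs_of_pos hg00]
      have a1 := hinv_le t ht x hx
      nlinarith
  refine ⟨K', hS, hok, hreg, fun t ht x hx => by have := hvb1 t ht x hx; linarith, ?_⟩
  intro t ht φ hφ hφ0
  -- the test function
  have hwreg := h.reg.comp hS isOpen_Ioi (dg_sp_contDiffOn_w hκ) hr
  have hw : ContDiffOn ℝ 1 (fun x => κ0 / (u t x * (u t x + κ0))) S := hwreg.c1 t ht
  have hψ : dg_Test S (fun x => φ x * (κ0 / (u t x * (u t x + κ0)))) := dg_Test.mul_on hS hφ hw
  have hψ0 : ∀ x, 0 ≤ φ x * (κ0 / (u t x * (u t x + κ0))) := by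
    intro x
    by_cases hx : x ∈ S
    · have hu := h.pos t ht x hx
      exact mul_nonneg (hφ0 x) (by positivity)
    · rw [hφ.eq_zero hx]; simp
  have iJ : Integrable (fun x => -(dg_form K' vb vbt φ t x)) :=
    (dg_form_integrable hS hok hreg ht hφ).neg
  have hfin := dg_Super.le_integral hS h.ok h.reg h.super ht hψ hψ0 iJ
    (fun x hx => by rw [dg_form_eq_zero hφ t hx, neg_zero]) (by
      intro x hx
      have hu : 0 < u t x := h.pos t ht x hx
      have hF : K.F t x = 0 := norm_le_zero_iff.1 (h.ok.F_le t ht x hx)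
      have hg : K.g t x = 0 := abs_nonpos_iff.1 (h.ok.g_le t ht x hx)
      have hdψ : fderiv ℝ (fun y => φ y * (κ0 / (u t y * (u t y + κ0)))) x
          = φ x • ((-(κ0 * (2 * u t x + κ0) / (u t x * (u t x + κ0)) ^ 2)) • fderiv ℝ (u t) x)
            + (κ0 / (u t x * (u t x + κ0))) • fderiv ℝ φ x := by
        rw [dg_Test.fderiv_mul_on hS hφ hw x,
          h.reg.fderiv_comp hS isOpen_Ioi (dg_sp_contDiffOn_w hκ) hr ht hx,
          (dg_sp_hasDerivAt_w hκ hu).deriv]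
      have hdv : fderiv ℝ (vb t) x = (-(κ0 / (u t x * (u t x + κ0)))) • fderiv ℝ (u t) x := by
        have := h.reg.fderiv_comp hS isOpen_Ioi (dg_sp_contDiffOn_Phi hκ) hr ht hx
        rw [(dg_sp_hasDerivAt_Phi hκ hu).deriv] at this
        exact this
      have hvne : vb t x ≠ 0 := by have := hvb1 t ht x hx; positivity
      have key := dg_sp_aux (n := ‖fderiv ℝ (u t) x‖)
        (A1 := fderiv ℝ (u t) x (K.a t x (fderiv ℝ (u t) x)))
        (B1 := fderiv ℝ (u t) x (K.f t x)) (c := K.c t x) hl hL hκ hu (h.ok.a_lo t ht x hx _)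
        (((fderiv ℝ (u t) x).le_opNorm _).trans
          (mul_le_mul_of_nonneg_left (h.ok.f_le t ht x hx) (norm_nonneg _)))
        (h.ok.c_le t ht x hx)
      rw [← hg0] at key
      have key2 := mul_nonneg (hφ0 x) key
      unfold dg_form
      rw [hdψ, hdv, hF, hg]
      simp only [hK', hvbt, add_apply, FunLike.coe_smul, Pi.smul_apply, smul_eq_mul,
        map_add, map_smul, add_zero]
      set w : ℝ := κ0 / (u t x * (u t x + κ0)) with hwdef
      have e1 : vb t x * ((vb t x)⁻¹ * (-(κ0 / (u t x + κ0)) * (fderiv ℝ φ x) (K.f t x)))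
          = -(u t x * w * (fderiv ℝ φ x) (K.f t x)) := by
        rw [← mul_assoc, mul_inv_cancel₀ hvne, one_mul, hwdef]
        field_simp
      have e2 : (vb t x)⁻¹ * g0 * vb t x = g0 := by field_simp
      rw [e1, e2]
      nlinarith [key2])
  rw [integral_neg] at hfin
  linarith

end Claimed.Agent.Lib.Dgnm
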