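import Claimed.Agent.Lib.Dgnm.Sup2

/-!
# Lib/Dgnm/SupP : `L^p → sup` for every `0 < p ≤ 2`, unit scale (leaf DG-SUPP)

`Q r = dg_Q t0 x0 r = [t0 - r^2, t0] × closedBall x0 r`.  For `r ∈ [1/2,1]` let
`M r = sSup ((fun q => u q.1 q.2) '' Q r)` (`u` is continuous on the compact nonempty set `Q r ⊆ I ×ˢ S`:
bounded above, `M r ≤ M 1`, `u q ≤ M r` on `Q r`, `0 ≤ M r`).
For `1/2 ≤ ρ < R ≤ 1` apply `dg_sup_L2` with `s = t0 - R^2`, `s' = t0 - ρ^2`, `t = t0`: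
`s' - s = (R-ρ)(R+ρ) ≥ R - ρ`, and with `h = R - ρ ≤ 1/2`: `(1 + 1/h)(1 + 1/h^2) ≤ 4/h^3`.  So
`M ρ ≤ C2 (4/h^3)^{m/2} (∫_{Q R} u^2)^{1/2}`, and `u^2 = u^{2-p} u^p ≤ (M R)^{2-p} u^p` on `Q R`, so
`M ρ ≤ C2 4^{m/2} h^{-3m/2} (M R)^{1-p/2} Ip^{1/2}`, `Ip = ∫_{Q 1} u^p`.
`dg_young_pow` with `x = M R`, `y = C2 4^{m/2} h^{-3m/2} Ip^{1/2}`:
`M ρ ≤ (1/2) M R + Cy (C2 4^{m/2})^{2/p} Ip^{1/p} / h^{3m/p}`.
`dg_radius_iter` with `α = 3m/p`, `r0 = 1/2`, `r1 = 1`: `M (1/2) ≤ C Ip^{1/p}`.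
-/

set_option autoImplicit false
set_option linter.unusedSectionVars false

open Set Filter MeasureTheory Metric
open scoped Topology ContDiff

namespace Claimed.Agent.Lib.Dgnm

variable {W : Type*} [NormedAddCommGroup W] [InnerProductSpace ℝ W] [FiniteDimensional ℝ W]
  [MeasurableSpace W] [BorelSpace W]

theorem dg_supp_num {ρ R : ℝ} (h1 : 1 / 2 ≤ ρ) (h2 : ρ < R) (h3 : R ≤ 1) :
    (1 + 1 / (R ^ 2 - ρ ^ 2)) * (1 + 1 / (R - ρ) ^ 2) ≤ 4 / (R - ρ) ^ 3 := by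
  set h : ℝ := R - ρ with hh
  have hh0 : 0 < h := by rw [hh]; linarith
  have hh1 : h ≤ 1 := by rw [hh]; linarith
  have e : R ^ 2 - ρ ^ 2 = h * (R + ρ) := by rw [hh]; ring
  have hge : h ≤ R ^ 2 - ρ ^ 2 := by rw [e]; nlinarith
  have a1 : 1 / (R ^ 2 - ρ ^ 2) ≤ 1 / h := one_div_le_one_div_of_le hh0 hge
  have a2 : 1 + 1 / (R ^ 2 - ρ ^ 2) ≤ 2 / h := by
    have : (1 : ℝ) ≤ 1 / h := by rw [le_div_iff₀ hh0]; linarith
    have e2 : 2 / h = 1 / h + 1 / h := by ring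
    rw [e2]; linarith
  have a3 : 1 + 1 / h ^ 2 ≤ 2 / h ^ 2 := by
    have : (1 : ℝ) ≤ 1 / h ^ 2 := by rw [le_div_iff₀ (by positivity)]; nlinarith
    have e2 : 2 / h ^ 2 = 1 / h ^ 2 + 1 / h ^ 2 := by ring
    rw [e2]; linarith
  have hpos : 0 < R ^ 2 - ρ ^ 2 := lt_of_lt_of_le hh0 hge
  calc (1 + 1 / (R ^ 2 - ρ ^ 2)) * (1 + 1 / h ^ 2) ≤ (2 / h) * (2 / h ^ 2) :=
        mul_le_mul a2 a3 (by positivity) (by positivity)
    _ = 4 / h ^ 3 := by field_simp; ring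

variable (W) in
theorem dg_sup_Lp (hm : 2 ≤ Module.finrank ℝ W) (lam Lam : ℝ) (hl : 0 < lam) (hL : lam ≤ Lam)
    (p : ℝ) (hp : 0 < p) (hp2 : p ≤ 2) :
    ∃ C : ℝ, 0 < C ∧
    ∀ (I : Set ℝ) (S : Set W) (K : dg_Coef W) (u ut : ℝ → W → ℝ), dg_PosSub I S lam Lam K u ut →
    ∀ (t0 : ℝ) (x0 : W), Icc (t0 - 1) t0 ⊆ I → closedBall x0 1 ⊆ S →
      ∀ q ∈ dg_Q t0 x0 (1 / 2), u q.1 q.2 ≤
        C * (∫ q in dg_Q t0 x0 1, u q.1 q.2 ^ p) ^ (1 / p) := by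
  obtain ⟨C2, hC2, hsup2⟩ := dg_sup_L2 W hm lam Lam hl hL
  obtain ⟨Cy, hCy, hyoung⟩ := dg_young_pow p hp hp2
  have hm2 := dg_m_ge (W := W) hm
  set m := dg_m W with hmdef
  have hm0 : 0 < m := by linarith
  set α : ℝ := 3 * m / p with hα
  have hα0 : 0 < α := by positivity
  obtain ⟨Cr, hCr, hrad⟩ := dg_radius_iter α hα0
  refine ⟨Cr * (Cy * (C2 * 4 ^ (m / 2)) ^ (2 / p)) * 2 ^ α, by positivity, ?_⟩
  intro I S K u ut h t0 x0 hI hR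
  set U : ℝ × W → ℝ := fun q => u q.1 q.2 with hU
  set Ip : ℝ := ∫ q in dg_Q t0 x0 1, u q.1 q.2 ^ p with hIp
  set M : ℝ → ℝ := fun r => sSup (U '' dg_Q t0 x0 r) with hM
  have hQmono : ∀ {r r' : ℝ}, 0 ≤ r → r ≤ r' → dg_Q t0 x0 r ⊆ dg_Q t0 x0 r' := by
    intro r r' h0 h1
    refine Set.prod_mono (Icc_subset_Icc ?_ le_rfl) (closedBall_subset_closedBall h1)
    nlinarith
  have hQ1 : dg_Q t0 x0 1 ⊆ I ×ˢ S := by
    refine dg_cyl_subset ?_ hR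
    simpa using hI
  have hQI : ∀ {r : ℝ}, 0 ≤ r → r ≤ 1 → dg_Q t0 x0 r ⊆ I ×ˢ S := fun h0 h1 =>
    (hQmono h0 h1).trans hQ1
  have hbdd : ∀ {r : ℝ}, 0 ≤ r → r ≤ 1 → BddAbove (U '' dg_Q t0 x0 r) := fun h0 h1 =>
    ((dg_isCompact_cyl _ _ _ _).image_of_continuousOn (h.reg.cont0.mono (hQI h0 h1))).bddAbove
  have hne : ∀ {r : ℝ}, 0 ≤ r → (dg_Q t0 x0 r).Nonempty := fun {r} h0 =>
    ⟨(t0, x0), ⟨by nlinarith [sq_nonneg r], le_rfl⟩, mem_closedBall_self h0⟩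
  have hleM : ∀ {r : ℝ}, 0 ≤ r → r ≤ 1 → ∀ q ∈ dg_Q t0 x0 r, U q ≤ M r := fun h0 h1 q hq =>
    le_csSup (hbdd h0 h1) (mem_image_of_mem U hq)
  have hUpos : ∀ q ∈ dg_Q t0 x0 1, 0 < U q := fun q hq => h.pos q.1 (hQ1 hq).1 q.2 (hQ1 hq).2
  have hM0 : ∀ {r : ℝ}, 0 ≤ r → r ≤ 1 → 0 ≤ M r := fun h0 h1 => by
    obtain ⟨q, hq⟩ := hne h0
    exact (hUpos q (hQmono h0 h1 hq)).le.trans (hleM h0 h1 q hq)
  have cpow : ∀ β : ℝ, ContinuousOn (fun q : ℝ × W => u q.1 q.2 ^ β) (I ×ˢ S) := fun β =>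
    h.reg.cont0.rpow_const (fun q hq => Or.inl (h.pos _ hq.1 _ hq.2).ne')
  have iQ : ∀ {r : ℝ}, 0 ≤ r → r ≤ 1 → ∀ β : ℝ,
      IntegrableOn (fun q : ℝ × W => u q.1 q.2 ^ β) (dg_Q t0 x0 r) := fun h0 h1 β =>
    dg_integrableOn_cyl (H := fun r x => u r x ^ β) ((cpow β).mono (hQI h0 h1))
  have mQ : ∀ r : ℝ, MeasurableSet (dg_Q t0 x0 r) := fun r => dg_measurableSet_cyl _ _ _ _
  have hIp0 : 0 ≤ Ip := setIntegral_nonneg (mQ 1) fun q hq => Real.rpow_nonneg (hUpos q hq).le _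
  set A' : ℝ := Cy * (C2 * 4 ^ (m / 2)) ^ (2 / p) * Ip ^ (1 / p) with hA'
  have hA'0 : 0 ≤ A' := by positivity
  have key : ∀ ρ R : ℝ, 1 / 2 ≤ ρ → ρ < R → R ≤ 1 → M ρ ≤ (1 / 2) * M R + A' / (R - ρ) ^ α := by
    intro ρ R h1 h2 h3
    have hρ0 : 0 < ρ := by linarith
    have hR0 : 0 ≤ R := by linarith
    set hh : ℝ := R - ρ with hhh
    have hh0 : 0 < hh := by rw [hhh]; linarith
    refine csSup_le ((hne hρ0.le).image U) ?_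
    rintro _ ⟨q, hq, rfl⟩
    have s1 := hsup2 I S K u ut h x0 ρ R (t0 - R ^ 2) (t0 - ρ ^ 2) t0 hρ0 h2 (by nlinarith)
      (by nlinarith) (by nlinarith) ((Icc_subset_Icc (by nlinarith) le_rfl).trans hI)
      ((closedBall_subset_closedBall h3).trans hR) q hq
    have e1 : t0 - ρ ^ 2 - (t0 - R ^ 2) = R ^ 2 - ρ ^ 2 := by ring
    rw [e1] at s1
    have hnum := dg_supp_num h1 h2 h3
    have hNN0 : 0 ≤ (1 + 1 / (R ^ 2 - ρ ^ 2)) * (1 + 1 / (R - ρ) ^ 2) := by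
      have : 0 < R ^ 2 - ρ ^ 2 := by nlinarith
      positivity
    have s2 : ((1 + 1 / (R ^ 2 - ρ ^ 2)) * (1 + 1 / (R - ρ) ^ 2)) ^ (m / 2)
        ≤ 4 ^ (m / 2) / hh ^ (3 * m / 2) := by
      refine (Real.rpow_le_rpow hNN0 hnum (by positivity)).trans (le_of_eq ?_)
      rw [Real.div_rpow (by norm_num) (by positivity), ← Real.rpow_natCast hh 3,
        ← Real.rpow_mul hh0.le]
      congr 2; push_cast; ring
    have s3 : (∫ q in dg_Cyl (t0 - R ^ 2) t0 x0 R, u q.1 q.2 ^ (2 : ℝ)) ≤ M R ^ (2 - p) * Ip := by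
      have a1 : (∫ q in dg_Q t0 x0 R, u q.1 q.2 ^ (2 : ℝ))
          ≤ ∫ q in dg_Q t0 x0 R, M R ^ (2 - p) * u q.1 q.2 ^ p := by
        refine setIntegral_mono_on (iQ hR0 h3 2) ((iQ hR0 h3 p).const_mul _) (mQ R) fun q hq => ?_
        have hu := hUpos q (hQmono hR0 h3 hq)
        have e : u q.1 q.2 ^ (2 : ℝ) = u q.1 q.2 ^ (2 - p) * u q.1 q.2 ^ p := by
          rw [← Real.rpow_add hu]; congr 1; ring
        rw [e]
        refine mul_le_mul_of_nonneg_right ?_ (Real.rpow_nonneg hu.le _)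
        exact Real.rpow_le_rpow hu.le (hleM hR0 h3 q hq) (by linarith)
      rw [integral_const_mul] at a1
      refine a1.trans (mul_le_mul_of_nonneg_left ?_ (Real.rpow_nonneg (hM0 hR0 h3) _))
      refine setIntegral_mono_set (iQ zero_le_one le_rfl p) ?_ (hQmono hR0 h3).eventuallyLE
      exact (ae_restrict_iff' (mQ 1)).2 (ae_of_all _ fun q hq => Real.rpow_nonneg (hUpos q hq).le _)
    have hI20 : 0 ≤ ∫ q in dg_Cyl (t0 - R ^ 2) t0 x0 R, u q.1 q.2 ^ (2 : ℝ) :=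
      setIntegral_nonneg (mQ R) fun q hq => Real.rpow_nonneg (hUpos q (hQmono hR0 h3 hq)).le _
    have s4 : (∫ q in dg_Cyl (t0 - R ^ 2) t0 x0 R, u q.1 q.2 ^ (2 : ℝ)) ^ (1 / 2 : ℝ)
        ≤ M R ^ (1 - p / 2) * Ip ^ (1 / 2 : ℝ) := by
      refine (Real.rpow_le_rpow hI20 s3 (by norm_num)).trans (le_of_eq ?_)
      rw [Real.mul_rpow (Real.rpow_nonneg (hM0 hR0 h3) _) hIp0, ← Real.rpow_mul (hM0 hR0 h3)]
      congr 2; ring
    set y : ℝ := (C2 * 4 ^ (m / 2)) * Ip ^ (1 / 2 : ℝ) / hh ^ (3 * m / 2) with hy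
    have hy0 : 0 ≤ y := by positivity
    have s5 : U q ≤ M R ^ (1 - p / 2) * y := by
      calc U q ≤ C2 * ((1 + 1 / (R ^ 2 - ρ ^ 2)) * (1 + 1 / (R - ρ) ^ 2)) ^ (m / 2) *
            (∫ q in dg_Cyl (t0 - R ^ 2) t0 x0 R, u q.1 q.2 ^ (2 : ℝ)) ^ (1 / 2 : ℝ) := s1
        _ ≤ C2 * (4 ^ (m / 2) / hh ^ (3 * m / 2)) * (M R ^ (1 - p / 2) * Ip ^ (1 / 2 : ℝ)) := by
            refine mul_le_mul (mul_le_mul_of_nonneg_left s2 hC2.le) s4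
              (Real.rpow_nonneg hI20 _) (by positivity)
        _ = M R ^ (1 - p / 2) * y := by rw [hy]; ring
    have s6 := hyoung (M R) y (hM0 hR0 h3) hy0
    have e2 : y ^ (2 / p) = (C2 * 4 ^ (m / 2)) ^ (2 / p) * Ip ^ (1 / p) / hh ^ α := by
      rw [hy, Real.div_rpow (by positivity) (by positivity), Real.mul_rpow (by positivity)
        (by positivity), ← Real.rpow_mul hIp0, ← Real.rpow_mul hh0.le]
      have e3 : (1 / 2 : ℝ) * (2 / p) = 1 / p := by field_simp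
      have e4 : 3 * m / 2 * (2 / p) = α := by rw [hα]; field_simp
      rw [e3, e4]
    rw [e2] at s6
    calc U q ≤ _ := s5
      _ ≤ _ := s6
      _ = _ := by rw [hA']; ring
  have hfin := hrad (1 / 2) 1 A' M (by norm_num) hA'0
    ⟨M 1, fun r hr => csSup_le_csSup (hbdd zero_le_one le_rfl)
      ((hne (by linarith [hr.1])).image U) (image_mono (hQmono (by linarith [hr.1]) hr.2))⟩ key
  intro q hq
  refine (hleM (by norm_num) (by norm_num) q hq).trans (hfin.trans (le_of_eq ?_))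
  have e5 : ((1 : ℝ) - 1 / 2) ^ α = (2 ^ α)⁻¹ := by
    rw [← Real.inv_rpow (by norm_num)]; norm_num
  rw [e5, hA', div_inv_eq_mul]
  ring

end Claimed.Agent.Lib.Dgnm
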