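import Claimed.Agent.Lib.Dgnm.LogMean
import Claimed.Agent.Lib.Dgnm.SupP
import Claimed.Agent.Lib.Dgnm.Softplus
import Claimed.Agent.Lib.Dgnm.Layer

/-!
# Lib/Dgnm/Density : the density lemma (measure-to-pointwise), unit scale (leaf DG-DENS)

`u > 0` supersolution (homogeneous) on `I × S ⊇ [t0-4,t0] × closedBall x0 2`, and
`vol {q ∈ [t0-4,t0-1] × B1 | u q ≥ 1} ≥ δ`.  Then `u ≥ c0` on `dg_Q t0 x0 (1/2)`.
ASSEMBLY (`w = -log u`, `v1 = vol(closedBall x0 1)` as a real number, independent of `x0`):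
1. `dg_log_mean` on `[α,β] = [t0-4,t0]`: `Wm, Wd`, constants `c3, C4`; restrict with `dg_MeanOde.mono`.
2. `dg_ode_back` on `[t0-4,t0-1]` (`u ≥ 1 ↔ w ≤ 0`): `Wm (t0-1) ≤ C5 := 3 C4 + 1/(c3 δ)`.
3. `dg_ode_fwd` on `[t0-1,t0]`: with `a' = Wm (t0-1) + C4`: `vol {q ∈ Q+ | a' + s < w q} ≤ 1/(c3 s)`,
   `Q+ = dg_Cyl (t0-1) t0 x0 1 = dg_Q t0 x0 1`.
4. `dg_layer_half` with `h = w - a'`, `V = v1`, `C = 1/c3`: `∫_{Q+} (max (w - a') 0)^{1/2} ≤ v1 + 1/c3`.
5. `dg_softplus` with `κ0 = exp (-a')`: `vbar = 1 + log (1 + exp(-a')/u) = 1 + log (1 + exp (w - a'))` is a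
   positive subsolution with constants `(lam, Lam')`.  Elementary: for real `y`,
   `y ≤ log (1 + exp y) ≤ max y 0 + log 2`.  So `vbar^{1/2} ≤ 2 + (max (w-a') 0)^{1/2}`
   (`sqrt (a+b) ≤ sqrt a + sqrt b`, `1 + log 2 ≤ 4`), `∫_{Q+} vbar^{1/2} ≤ 3 v1 + 1/c3`.
6. `dg_sup_Lp` with `p = 1/2` (constants `lam, Lam'`): `vbar ≤ C6 := Cp (3 v1 + 1/c3)^2` on `dg_Q t0 x0 (1/2)`.
7. `w - a' ≤ vbar ≤ C6`, so `w ≤ C5 + C4 + C6` and `u = exp (-w) ≥ c0 := exp (-(C4 + C5 + C6))`.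
-/

set_option autoImplicit false
set_option linter.unusedSectionVars false

open Set Filter MeasureTheory Metric
open scoped Topology ContDiff

namespace Claimed.Agent.Lib.Dgnm

variable {W : Type*} [NormedAddCommGroup W] [InnerProductSpace ℝ W] [FiniteDimensional ℝ W]
  [MeasurableSpace W] [BorelSpace W]

/-- `y ≤ log (1 + exp y)`. -/
theorem dg_dens_le_softplus (y : ℝ) : y ≤ Real.log (1 + Real.exp y) := by
  have h : Real.exp y ≤ 1 + Real.exp y := by linarith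
  calc y = Real.log (Real.exp y) := (Real.log_exp y).symm
    _ ≤ Real.log (1 + Real.exp y) := Real.log_le_log (Real.exp_pos y) h

/-- `log (1 + exp y) ≤ max y 0 + log 2`. -/
theorem dg_dens_softplus_le (y : ℝ) : Real.log (1 + Real.exp y) ≤ max y 0 + Real.log 2 := by
  have h1 : 1 + Real.exp y ≤ 2 * Real.exp (max y 0) := by
    have ha : Real.exp y ≤ Real.exp (max y 0) := Real.exp_le_exp.mpr (le_max_left _ _)
    have hb : (1 : ℝ) ≤ Real.exp (max y 0) := by
      have := Real.exp_le_exp.mpr (le_max_right y 0)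
      rwa [Real.exp_zero] at this
    linarith
  have hpos : 0 < 1 + Real.exp y := by positivity
  calc Real.log (1 + Real.exp y) ≤ Real.log (2 * Real.exp (max y 0)) := Real.log_le_log hpos h1
    _ = max y 0 + Real.log 2 := by
      rw [Real.log_mul (by norm_num) (Real.exp_pos _).ne', Real.log_exp]; ring

/-- `(1 + log (1 + exp y))^(1/2) ≤ 2 + (max y 0)^(1/2)`. -/
theorem dg_dens_sqrt_le (y : ℝ) :
    (1 + Real.log (1 + Real.exp y)) ^ (1 / 2 : ℝ) ≤ 2 + (max y 0) ^ (1 / 2 : ℝ) := by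
  have hz : 0 ≤ max y 0 := le_max_right _ _
  have hlog2 : Real.log 2 ≤ 1 := by
    have := Real.log_two_lt_d9; linarith
  have h0 : 0 ≤ Real.log (1 + Real.exp y) :=
    Real.log_nonneg (by have := Real.exp_pos y; linarith)
  have h1 : 1 + Real.log (1 + Real.exp y) ≤ 4 + max y 0 := by
    have := dg_dens_softplus_le y; linarith
  rw [← Real.sqrt_eq_rpow, ← Real.sqrt_eq_rpow]
  have h2 : Real.sqrt (4 + max y 0) ≤ 2 + Real.sqrt (max y 0) := by
    rw [Real.sqrt_le_left (by positivity)]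
    have hs := Real.sq_sqrt hz
    have hs0 := Real.sqrt_nonneg (max y 0)
    nlinarith
  exact (Real.sqrt_le_sqrt h1).trans h2

variable (W) in
theorem dg_density (hm : 2 ≤ Module.finrank ℝ W) (lam Lam : ℝ) (hl : 0 < lam) (hL : lam ≤ Lam)
    (δ : ℝ) (hδ : 0 < δ) :
    ∃ c0 : ℝ, 0 < c0 ∧ c0 ≤ 1 ∧
    ∀ (I : Set ℝ) (S : Set W) (K : dg_Coef W) (u ut : ℝ → W → ℝ), dg_PosSuper I S lam Lam K u ut →
    ∀ (t0 : ℝ) (x0 : W), Icc (t0 - 4) t0 ⊆ I → closedBall x0 2 ⊆ S →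
      ENNReal.ofReal δ ≤ volume {q : ℝ × W | q ∈ dg_Cyl (t0 - 4) (t0 - 1) x0 1 ∧ 1 ≤ u q.1 q.2} →
      ∀ q ∈ dg_Q t0 x0 (1 / 2), c0 ≤ u q.1 q.2 := by
  obtain ⟨c3, C4, hc3, hC4, hlog⟩ := dg_log_mean W (by omega) lam Lam hl hL
  obtain ⟨Lam', hLL', hsp⟩ := dg_softplus W lam Lam hl hL
  obtain ⟨Cp, hCp, hsup⟩ :=
    dg_sup_Lp W hm lam Lam' hl (hL.trans hLL') (1 / 2) (by norm_num) (by norm_num)
  set v1 : ℝ := (volume (closedBall (0 : W) 1)).toReal with hv1
  have hv1nn : 0 ≤ v1 := ENNReal.toReal_nonneg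
  set C5 : ℝ := C4 * 3 + 1 / (c3 * δ) with hC5
  set C6 : ℝ := Cp * (3 * v1 + 1 / c3) ^ (1 / (1 / 2 : ℝ)) with hC6
  have hC5pos : 0 < C5 := by positivity
  have hC6nn : 0 ≤ C6 := by positivity
  refine ⟨Real.exp (-(C4 + C5 + C6)), Real.exp_pos _, ?_, ?_⟩
  · rw [Real.exp_le_one_iff]; linarith
  intro I S K u ut hsuper t0 x0 hI hS hmeas q hq
  obtain ⟨Wm, Wd, hode⟩ := hlog I S K u ut hsuper x0 (t0 - 4) t0 (by linarith) hI hS
  -- step 2
  have hback : Wm (t0 - 1) ≤ C5 := by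
    have h := dg_ode_back (α := t0 - 4) (β := t0 - 1) (by linarith) hc3 hC4.le
      (hode.mono le_rfl (by linarith)) hδ (hmeas.trans (measure_mono ?_))
    · have e : t0 - 1 - (t0 - 4) = 3 := by ring
      rw [e] at h; exact h
    · rintro p ⟨hp, hp1⟩
      refine ⟨hp, ?_⟩
      have := Real.log_nonneg hp1
      simp only [Left.neg_nonpos_iff]; exact this
  -- step 3
  set a' : ℝ := Wm (t0 - 1) + C4 with ha'
  have hfwd : ∀ s : ℝ, 0 < s →
      volume {p : ℝ × W | p ∈ dg_Cyl (t0 - 1) t0 x0 1 ∧ s < -Real.log (u p.1 p.2) - a'}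
        ≤ ENNReal.ofReal ((1 / c3) / s) := by
    intro s hs
    have h := dg_ode_fwd (α := t0 - 1) (β := t0) (by linarith) hc3 hC4.le
      (hode.mono (by linarith) le_rfl) hs
    have e : t0 - (t0 - 1) = 1 := by ring
    rw [e, mul_one] at h
    have e2 : (1 / c3) / s = 1 / (c3 * s) := by field_simp
    rw [e2]
    refine (measure_mono ?_).trans h
    rintro p ⟨hp, hp1⟩
    exact ⟨hp, by linarith⟩
  -- the cylinder `Q+`
  have hIp : Icc (t0 - 1) t0 ⊆ I := (Icc_subset_Icc (by linarith) le_rfl).trans hI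
  have hSp : closedBall x0 1 ⊆ S := (closedBall_subset_closedBall (by norm_num)).trans hS
  have hQsub : dg_Cyl (t0 - 1) t0 x0 1 ⊆ I ×ˢ S := dg_cyl_subset hIp hSp
  have hvolb : volume (closedBall x0 1) = ENNReal.ofReal v1 := by
    rw [hv1, ENNReal.ofReal_toReal (measure_closedBall_lt_top).ne]
    rw [Measure.addHaar_closedBall_center]
  have hvolQ : volume (dg_Cyl (t0 - 1) t0 x0 1) = ENNReal.ofReal v1 := by
    rw [dg_volume_cyl (by linarith)]
    have e : t0 - (t0 - 1) = 1 := by ring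
    rw [e, ENNReal.ofReal_one, one_mul, hvolb]
  have hucont : ContinuousOn (fun p : ℝ × W => u p.1 p.2) (dg_Cyl (t0 - 1) t0 x0 1) :=
    hsuper.reg.cont0.mono hQsub
  have hupos : ∀ p ∈ dg_Cyl (t0 - 1) t0 x0 1, 0 < u p.1 p.2 := fun p hp =>
    hsuper.pos p.1 (hQsub hp).1 p.2 (hQsub hp).2
  have hhcont : ContinuousOn (fun p : ℝ × W => -Real.log (u p.1 p.2) - a')
      (dg_Cyl (t0 - 1) t0 x0 1) :=
    ((hucont.log (fun p hp => (hupos p hp).ne')).neg).sub continuousOn_const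
  -- step 4
  have hlayer := dg_layer_half (dg_measurableSet_cyl (t0 - 1) t0 x0 1) hv1nn
    (by positivity : (0 : ℝ) ≤ 1 / c3) hvolQ.le hhcont hfwd
  -- step 5
  obtain ⟨K', hsub⟩ := hsp I S K u ut hsuper (Real.exp (-a')) (Real.exp_pos _)
  have hkey : ∀ p : ℝ × W, 0 < u p.1 p.2 →
      Real.exp (-a') / u p.1 p.2 = Real.exp (-Real.log (u p.1 p.2) - a') := by
    intro p hp
    rw [sub_eq_add_neg, Real.exp_add, Real.exp_neg (Real.log _), Real.exp_log hp]
    field_simp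
  have hQ1 : dg_Q t0 x0 1 = dg_Cyl (t0 - 1) t0 x0 1 := by
    unfold dg_Q; norm_num
  have hb := hsup I S K' _ _ hsub t0 x0 hIp hSp q hq
  rw [hQ1] at hb
  have hint : ∫ p in dg_Cyl (t0 - 1) t0 x0 1,
      (1 + Real.log (1 + Real.exp (-a') / u p.1 p.2)) ^ (1 / 2 : ℝ) ≤ 3 * v1 + 1 / c3 := by
    have hvc : ContinuousOn (fun p : ℝ × W =>
        (1 + Real.log (1 + Real.exp (-a') / u p.1 p.2)) ^ (1 / 2 : ℝ))
        (dg_Cyl (t0 - 1) t0 x0 1) := by
      refine ContinuousOn.rpow_const ?_ (fun p _ => Or.inr (by norm_num))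
      refine continuousOn_const.add (ContinuousOn.log ?_ ?_)
      · exact continuousOn_const.add (continuousOn_const.div hucont (fun p hp => (hupos p hp).ne'))
      · intro p hp
        have : 0 < Real.exp (-a') / u p.1 p.2 := div_pos (Real.exp_pos _) (hupos p hp)
        linarith
    have hmc : ContinuousOn (fun p : ℝ × W =>
        2 + (max (-Real.log (u p.1 p.2) - a') 0) ^ (1 / 2 : ℝ)) (dg_Cyl (t0 - 1) t0 x0 1) := by
      refine continuousOn_const.add (ContinuousOn.rpow_const ?_ (fun p _ => Or.inr (by norm_num)))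
      exact hhcont.sup continuousOn_const
    have hcpt := dg_isCompact_cyl (t0 - 1) t0 x0 1
    have hi1 := hvc.integrableOn_compact (μ := volume) hcpt
    have hi2 := hmc.integrableOn_compact (μ := volume) hcpt
    have hmc' : ContinuousOn (fun p : ℝ × W =>
        (max (-Real.log (u p.1 p.2) - a') 0) ^ (1 / 2 : ℝ)) (dg_Cyl (t0 - 1) t0 x0 1) :=
      ContinuousOn.rpow_const (hhcont.sup continuousOn_const) (fun p _ => Or.inr (by norm_num))
    have hi3 := hmc'.integrableOn_compact (μ := volume) hcpt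
    calc ∫ p in dg_Cyl (t0 - 1) t0 x0 1,
          (1 + Real.log (1 + Real.exp (-a') / u p.1 p.2)) ^ (1 / 2 : ℝ)
        ≤ ∫ p in dg_Cyl (t0 - 1) t0 x0 1,
          (2 + (max (-Real.log (u p.1 p.2) - a') 0) ^ (1 / 2 : ℝ)) := by
          refine setIntegral_mono_on hi1 hi2 (dg_measurableSet_cyl _ _ _ _) ?_
          intro p hp
          rw [hkey p (hupos p hp)]
          exact dg_dens_sqrt_le _
      _ = 2 * v1 + ∫ p in dg_Cyl (t0 - 1) t0 x0 1,
          (max (-Real.log (u p.1 p.2) - a') 0) ^ (1 / 2 : ℝ) := by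
          have hic : IntegrableOn (fun _ : ℝ × W => (2 : ℝ)) (dg_Cyl (t0 - 1) t0 x0 1) volume :=
            integrableOn_const (by rw [hvolQ]; exact ENNReal.ofReal_ne_top)
          rw [integral_add hic hi3]
          rw [setIntegral_const]
          congr 1
          simp only [Measure.real, hvolQ, ENNReal.toReal_ofReal hv1nn, smul_eq_mul]
          ring
      _ ≤ 3 * v1 + 1 / c3 := by linarith
  -- step 6
  have hqI : q.1 ∈ I := by
    have h1 := hq.1
    apply hI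
    constructor
    · have := h1.1; norm_num at this; linarith
    · exact h1.2
  have hqS : q.2 ∈ S := hS (closedBall_subset_closedBall (by norm_num) hq.2)
  have huq : 0 < u q.1 q.2 := hsuper.pos q.1 hqI q.2 hqS
  have hint0 : 0 ≤ ∫ p in dg_Cyl (t0 - 1) t0 x0 1,
      (1 + Real.log (1 + Real.exp (-a') / u p.1 p.2)) ^ (1 / 2 : ℝ) := by
    refine setIntegral_nonneg (dg_measurableSet_cyl _ _ _ _) ?_
    intro p hp
    apply Real.rpow_nonneg
    have : 0 < Real.exp (-a') / u p.1 p.2 := div_pos (Real.exp_pos _) (hupos p hp)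
    have := Real.log_nonneg (by linarith : (1 : ℝ) ≤ 1 + Real.exp (-a') / u p.1 p.2)
    linarith
  have hb2 : 1 + Real.log (1 + Real.exp (-a') / u q.1 q.2) ≤ C6 := by
    refine hb.trans ?_
    rw [hC6]
    exact mul_le_mul_of_nonneg_left (Real.rpow_le_rpow hint0 hint (by norm_num)) hCp.le
  -- step 7
  rw [hkey q huq] at hb2
  have h7 := dg_dens_le_softplus (-Real.log (u q.1 q.2) - a')
  have h8 : -(C4 + C5 + C6) ≤ Real.log (u q.1 q.2) := by
    rw [ha'] at h7 hb2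
    linarith
  calc Real.exp (-(C4 + C5 + C6)) ≤ Real.exp (Real.log (u q.1 q.2)) := Real.exp_le_exp.mpr h8
    _ = u q.1 q.2 := Real.exp_log huq

end Claimed.Agent.Lib.Dgnm
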