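import Claimed.Agent.Lib.Dgnm.OscR

/-!
# Lib/Dgnm/Holder : interior Hölder estimate (leaf DG-HOLD)

## `dg_holder` (leaf DG-HOLD)  API STATEMENT A3 (= DG2 of row316, parabolic GT 8.24).
0. Restrict to `I0 = Icc (t0 - r^2) t0`, `S0 = ball x0 r` (`.mono`), absorb `q f`, `c q` (`dg_Coef.absorb`):
   `kF' = kF + Lam M0`, `kg' = kg + Lam M0`.
1. `ϑ := max (1 - θ) (1/2)`, `α := log (1/ϑ) / log 6 ∈ (0,1)`, so `ϑ = 6^{-α}`.
2. Fix `P1 = (t1,x1)`, `P2 = (t2,x2)` in `dg_Q t0 x0 (r/2)`, w.l.o.g. `t2 ≤ t1`.  `ρ_j = (r/2) 6^{-j}`.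
   `I_{ρ_0}(P1) × S_{ρ_0}(P1) ⊆ I0 × S0`.  By induction on `j` (`dg_osc_scaled`) there are `m_j ≤ q ≤ M_j` on
   `I_{ρ_j} × S_{ρ_j}` with `M_j - m_j ≤ ϑ^j (2 M0 + 4 k0)`, `k0 = r kF' + r^2 kg'`:
   step: `M_{j+1} - m_{j+1} ≤ ϑ (M_j - m_j) + k_j`, `k_j = (ρ_j/3) kF' + (ρ_j/3)^2 kg' ≤ 6^{-j} k0 ≤ ϑ^j 2^{-j}.. `
   (use `6^{-j} ≤ (ϑ/3)^j`, as `ϑ ≥ 1/2`; then `ϑ^{j+1}(2M0 + 4k0 (1 - 3^{-j}..))`; any bookkeeping that closes
   the induction is fine, e.g. prove `M_j - m_j ≤ ϑ^j (2 M0) + 2 j.. `; recommended invariant: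
   `M_j - m_j ≤ ϑ^j (2 M0 + (4 - 4 * 3^{-j}) k0)`:  `ϑ ϑ^j (..) + ϑ^j 3^{-j} k0 ≤ ϑ^{j+1}(.. + 2 * 3^{-j} k0)` and
   `4 - 4*3^{-j} + 2*3^{-j} ≤ 4 - 4*3^{-(j+1)}` since `2*3^{-j} ≥ (4/3) 3^{-j}`.)
3. `d = ‖x1 - x2‖ + |t1 - t2|^{1/2}`.  If `d = 0` trivial.  If `d ≥ r/2`: `|Δq| ≤ 2 M0 ≤ 2 M0 (2d/r)^α`.
   Otherwise let `j` be maximal with `d < ρ_j` (exists: `ρ_j → 0`): `P2 ∈ I_{ρ_j} × S_{ρ_j}`, `ρ_{j+1} ≤ d`,
   `|Δq| ≤ M_j - m_j ≤ ϑ^j (..) = (ρ_j/ρ_0)^α (..) = (6 ρ_{j+1}/ρ_0)^α (..) ≤ (12 d/r)^α (2 M0 + 4 k0)`.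
4. `k0 ≤ r kF + r^2 kg + 2 Lam M0`.  `C = 12 (2 + 8 Lam + 4)`.
-/

set_option autoImplicit false
set_option linter.unusedSectionVars false

open Set Filter MeasureTheory Metric
open scoped Topology ContDiff

namespace Claimed.Agent.Lib.Dgnm

variable {W : Type*} [NormedAddCommGroup W] [InnerProductSpace ℝ W] [FiniteDimensional ℝ W]
  [MeasurableSpace W] [BorelSpace W]

theorem dg_holder_alpha {ϑ : ℝ} (h1 : 1 / 2 ≤ ϑ) (h2 : ϑ < 1) :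
    0 < Real.log (1 / ϑ) / Real.log 6 ∧ Real.log (1 / ϑ) / Real.log 6 < 1 ∧
      (1 / 6 : ℝ) ^ (Real.log (1 / ϑ) / Real.log 6) = ϑ := by
  have hϑ0 : 0 < ϑ := by linarith
  have hl6 : 0 < Real.log 6 := Real.log_pos (by norm_num)
  have h3 : 0 < Real.log (1 / ϑ) := Real.log_pos (by rw [lt_div_iff₀ hϑ0]; linarith)
  have h4 : Real.log (1 / ϑ) < Real.log 6 :=
    Real.log_lt_log (by positivity) (by rw [div_lt_iff₀ hϑ0]; linarith)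
  refine ⟨by positivity, by rw [div_lt_one hl6]; exact h4, ?_⟩
  rw [Real.rpow_def_of_pos (by norm_num)]
  have : Real.log (1 / 6) * (Real.log (1 / ϑ) / Real.log 6) = Real.log ϑ := by
    rw [one_div, one_div, Real.log_inv, Real.log_inv]; field_simp
  rw [this, Real.exp_log hϑ0]

theorem dg_holder_step {θ ϑ r kF' kg' M0 D D' : ℝ} (hϑ : ϑ = max (1 - θ) (1 / 2)) (hr : 0 < r)
    (hkF : 0 ≤ kF') (hkg : 0 ≤ kg') (j : ℕ) (hD0 : 0 ≤ D)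
    (hD : D ≤ ϑ ^ j * (2 * M0 + (4 - 4 * (1 / 3) ^ j) * (r * kF' + r ^ 2 * kg')))
    (hD' : D' ≤ (1 - θ) * D
      + (r / 2 * (1 / 6) ^ j / 3 * kF' + (r / 2 * (1 / 6) ^ j / 3) ^ 2 * kg')) :
    D' ≤ ϑ ^ (j + 1) * (2 * M0 + (4 - 4 * (1 / 3) ^ (j + 1)) * (r * kF' + r ^ 2 * kg')) := by
  have hϑ1 : 1 - θ ≤ ϑ := hϑ ▸ le_max_left _ _
  have hϑ2 : 1 / 2 ≤ ϑ := hϑ ▸ le_max_right _ _
  have hϑ0 : 0 < ϑ := by linarith
  set k0 : ℝ := r * kF' + r ^ 2 * kg' with hk0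
  have hk00 : 0 ≤ k0 := by positivity
  set e : ℝ := (1 / 6 : ℝ) ^ j with he
  set a : ℝ := ϑ ^ j with ha
  set b : ℝ := (1 / 3 : ℝ) ^ j with hb
  have he0 : 0 < e := by positivity
  have he1 : e ≤ 1 := pow_le_one₀ (by norm_num) (by norm_num)
  have ha0 : 0 < a := by positivity
  have hb0 : 0 < b := by positivity
  have heab : e ≤ a * b := by
    rw [he, ha, hb, ← mul_pow]
    exact pow_le_pow_left₀ (by norm_num) (by linarith) j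
  have hkj : r / 2 * e / 3 * kF' + (r / 2 * e / 3) ^ 2 * kg' ≤ e * k0 := by
    have h1 : r / 2 * e / 3 * kF' ≤ e * (r * kF') := by
      have : 0 ≤ e * (r * kF') := by positivity
      nlinarith
    have h2 : (r / 2 * e / 3) ^ 2 * kg' ≤ e * (r ^ 2 * kg') := by
      have h3 : 0 ≤ r ^ 2 * kg' := by positivity
      have h4 : e ^ 2 ≤ e := by nlinarith
      have e1 : (r / 2 * e / 3) ^ 2 * kg' = e ^ 2 / 36 * (r ^ 2 * kg') := by ring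
      rw [e1]
      exact mul_le_mul_of_nonneg_right (by linarith) h3
    rw [hk0]; linarith
  have s1 : (1 - θ) * D ≤ ϑ * D := mul_le_mul_of_nonneg_right hϑ1 hD0
  have s2 : ϑ * D ≤ ϑ * (a * (2 * M0 + (4 - 4 * b) * k0)) := mul_le_mul_of_nonneg_left hD hϑ0.le
  have s3 : e * k0 ≤ a * b * k0 := mul_le_mul_of_nonneg_right heab hk00
  have s4 : a * b * k0 ≤ 2 * ϑ * (a * b * k0) := by
    have : 0 ≤ a * b * k0 := by positivity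
    nlinarith
  have e1 : ϑ ^ (j + 1) = ϑ * a := by rw [pow_succ, ha]; ring
  have e2 : (1 / 3 : ℝ) ^ (j + 1) = b / 3 := by rw [pow_succ, hb]; ring
  rw [e1, e2]
  have s5 : 0 ≤ ϑ * a * (b * k0) := by positivity
  nlinarith

theorem dg_holder_iter {θ r kF' kg' M0 : ℝ} (hr : 0 < r) (hkF : 0 ≤ kF') (hkg : 0 ≤ kg')
    (Bd : ℝ → ℝ → ℝ → Prop) (hBd : ∀ ρ m M, 0 < ρ → Bd ρ m M → m ≤ M) (h0 : Bd (r / 2) (-M0) M0)
    (hstep : ∀ ρ, 0 < ρ → ρ ≤ r / 2 → ∀ m M, Bd ρ m M → ∃ m' M', Bd (ρ / 6) m' M' ∧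
      M' - m' ≤ (1 - θ) * (M - m) + (ρ / 3 * kF' + (ρ / 3) ^ 2 * kg')) (j : ℕ) :
    ∃ m M, Bd (r / 2 * (1 / 6) ^ j) m M ∧
      M - m ≤ (max (1 - θ) (1 / 2)) ^ j *
        (2 * M0 + (4 - 4 * (1 / 3) ^ j) * (r * kF' + r ^ 2 * kg')) := by
  induction j with
  | zero => exact ⟨-M0, M0, by simpa using h0, by simp; linarith⟩
  | succ j ih =>
    obtain ⟨m, M, hb, hD⟩ := ih
    have hρ0 : 0 < r / 2 * (1 / 6) ^ j := by positivity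
    have hρ1 : r / 2 * (1 / 6) ^ j ≤ r / 2 :=
      mul_le_of_le_one_right (by positivity) (pow_le_one₀ (by norm_num) (by norm_num))
    obtain ⟨m', M', hb', hD'⟩ := hstep _ hρ0 hρ1 m M hb
    refine ⟨m', M', ?_, ?_⟩
    · have : r / 2 * (1 / 6) ^ (j + 1) = r / 2 * (1 / 6) ^ j / 6 := by rw [pow_succ]; ring
      rw [this]; exact hb'
    · exact dg_holder_step rfl hr hkF hkg j (sub_nonneg.2 (hBd _ m M hρ0 hb)) hD hD'

theorem dg_holder_pick {d r : ℝ} (hd : 0 < d) (hdr : d < r / 2) :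
    ∃ j : ℕ, r / 2 * (1 / 6) ^ (j + 1) ≤ d ∧ d < r / 2 * (1 / 6) ^ j := by
  have hr : 0 < r / 2 := hd.trans hdr
  have hex : ∃ n : ℕ, r / 2 * (1 / 6 : ℝ) ^ n ≤ d := by
    obtain ⟨n, hn⟩ := exists_pow_lt_of_lt_one (by positivity : 0 < d / (r / 2))
      (by norm_num : (1 / 6 : ℝ) < 1)
    refine ⟨n, ?_⟩
    rw [lt_div_iff₀ hr] at hn
    linarith
  classical
  have h0 : Nat.find hex ≠ 0 := by
    intro h
    have := Nat.find_spec hex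
    rw [h] at this
    simp at this
    linarith
  obtain ⟨j, hj⟩ := Nat.exists_eq_succ_of_ne_zero h0
  refine ⟨j, ?_, ?_⟩
  · have := Nat.find_spec hex
    rw [hj] at this
    exact this
  · have := Nat.find_min hex (m := j) (by omega)
    push Not at this
    exact this

set_option maxHeartbeats 1000000 in
/-- the case `P2.1 ≤ P1.1`. -/
theorem dg_holder_core {lam Lam θ : ℝ} (hl : 0 < lam) (hL : lam ≤ Lam) (hθ0 : 0 < θ)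
    (hosc : ∀ (K : dg_Coef W) (q qt : ℝ → W → ℝ) (kF kg : ℝ) (t1 : ℝ) (x1 : W) (ρ : ℝ), 0 < ρ →
      ρ ≤ 3 → K.Ok (Icc (t1 - ρ ^ 2) t1) (ball x1 ρ) lam Lam kF kg → (∀ t x, K.f t x = 0) →
      (∀ t x, K.c t x = 0) → dg_Reg (Icc (t1 - ρ ^ 2) t1) (ball x1 ρ) q qt →
      dg_Sol K (Icc (t1 - ρ ^ 2) t1) (ball x1 ρ) q qt →
      ∀ m M : ℝ, (∀ t ∈ Icc (t1 - ρ ^ 2) t1, ∀ x ∈ ball x1 ρ, m ≤ q t x ∧ q t x ≤ M) →
      ∃ m' M' : ℝ,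
        (∀ t ∈ Icc (t1 - (ρ / 6) ^ 2) t1, ∀ x ∈ ball x1 (ρ / 6), m' ≤ q t x ∧ q t x ≤ M') ∧
        M' - m' ≤ (1 - θ) * (M - m) + (ρ / 3 * kF + (ρ / 3) ^ 2 * kg))
    {I : Set ℝ} {S : Set W} {K : dg_Coef W} {q qt : ℝ → W → ℝ} {kF kg M0 : ℝ}
    (hK : K.Ok I S lam Lam kF kg) (hq : dg_Reg I S q qt) (hsol : dg_Sol K I S q qt)
    {t0 : ℝ} {x0 : W} {r : ℝ} (hr : 0 < r) (hr1 : r ≤ 1) (hI : Icc (t0 - r ^ 2) t0 ⊆ I)
    (hB : ball x0 r ⊆ S) (hM : ∀ t ∈ Icc (t0 - r ^ 2) t0, ∀ x ∈ ball x0 r, |q t x| ≤ M0)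
    {P1 P2 : ℝ × W} (hP1 : P1 ∈ dg_Q t0 x0 (r / 2)) (hP2 : P2 ∈ dg_Q t0 x0 (r / 2))
    (hle : P2.1 ≤ P1.1) :
    |q P1.1 P1.2 - q P2.1 P2.2| ≤
      12 * (6 + 8 * Lam) * ((‖P1.2 - P2.2‖ + |P1.1 - P2.1| ^ (1 / 2 : ℝ)) / r) ^
        (Real.log (1 / max (1 - θ) (1 / 2)) / Real.log 6) * (M0 + r * kF + r ^ 2 * kg) := by
  have hLam : 0 < Lam := lt_of_lt_of_le hl hL
  set ϑ : ℝ := max (1 - θ) (1 / 2) with hϑ
  have hϑ2 : 1 / 2 ≤ ϑ := le_max_right _ _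
  have hϑlt : ϑ < 1 := max_lt (by linarith) (by norm_num)
  have hϑ0 : 0 < ϑ := by linarith
  obtain ⟨hα0, hα1, hαeq⟩ := dg_holder_alpha hϑ2 hϑlt
  set α : ℝ := Real.log (1 / ϑ) / Real.log 6 with hα
  obtain ⟨t1, x1⟩ := P1
  obtain ⟨t2, x2⟩ := P2
  simp only at hle ⊢
  have ht1 : t1 ∈ Icc (t0 - (r / 2) ^ 2) t0 := hP1.1
  have hx1 : x1 ∈ closedBall x0 (r / 2) := hP1.2
  have ht2 : t2 ∈ Icc (t0 - (r / 2) ^ 2) t0 := hP2.1
  have hx2 : x2 ∈ closedBall x0 (r / 2) := hP2.2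
  have hQI : ∀ {t : ℝ}, t ∈ Icc (t0 - (r / 2) ^ 2) t0 → t ∈ Icc (t0 - r ^ 2) t0 := fun ht =>
    ⟨by nlinarith [ht.1, sq_nonneg r], ht.2⟩
  have hQS : ∀ {x : W}, x ∈ closedBall x0 (r / 2) → x ∈ ball x0 r := fun hx =>
    closedBall_subset_ball (by linarith) hx
  have hsubI : ∀ {ρ : ℝ}, 0 < ρ → ρ ≤ r / 2 → Icc (t1 - ρ ^ 2) t1 ⊆ Icc (t0 - r ^ 2) t0 := by
    intro ρ h0 h1 t ht
    have : ρ ^ 2 ≤ (r / 2) ^ 2 := pow_le_pow_left₀ h0.le h1 2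
    exact ⟨by nlinarith [ht.1, ht1.1], ht.2.trans ht1.2⟩
  have hsubS : ∀ {ρ : ℝ}, ρ ≤ r / 2 → ball x1 ρ ⊆ ball x0 r := by
    intro ρ h1 x hx
    rw [mem_ball] at hx ⊢
    rw [mem_closedBall] at hx1
    calc dist x x0 ≤ dist x x1 + dist x1 x0 := dist_triangle _ _ _
      _ < ρ + r / 2 := by linarith
      _ ≤ r := by linarith
  have hM1 := hM t1 (hQI ht1) x1 (hQS hx1)
  have hM2 := hM t2 (hQI ht2) x2 (hQS hx2)
  have hM00 : 0 ≤ M0 := (abs_nonneg _).trans hM1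
  have hkF : 0 ≤ kF := (norm_nonneg _).trans (hK.F_le t1 (hI (hQI ht1)) x1 (hB (hQS hx1)))
  have hkg : 0 ≤ kg := (abs_nonneg _).trans (hK.g_le t1 (hI (hQI ht1)) x1 (hB (hQS hx1)))
  set G : ℝ := M0 + r * kF + r ^ 2 * kg with hG
  have hG0 : 0 ≤ G := by positivity
  have hGM : M0 ≤ G := by
    have : 0 ≤ r * kF + r ^ 2 * kg := by positivity
    rw [hG]; linarith
  set s : ℝ := |t1 - t2| ^ (1 / 2 : ℝ) with hs
  have hs0 : 0 ≤ s := Real.rpow_nonneg (abs_nonneg _) _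
  have hs2 : s ^ 2 = t1 - t2 := by
    rw [hs, ← Real.rpow_natCast, ← Real.rpow_mul (abs_nonneg _)]
    norm_num
    linarith
  set d : ℝ := ‖x1 - x2‖ + s with hd
  have hd0 : 0 ≤ d := by positivity
  have hΔ : |q t1 x1 - q t2 x2| ≤ 2 * M0 := by
    have := abs_sub (q t1 x1) (q t2 x2)
    linarith
  rcases le_or_gt (r / 2) d with hcase | hcase
  · -- far apart
    have h1 : (1 / 2 : ℝ) ≤ (d / r) ^ α := by
      calc (1 / 2 : ℝ) = (1 / 2 : ℝ) ^ (1 : ℝ) := (Real.rpow_one _).symm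
        _ ≤ (1 / 2 : ℝ) ^ α :=
          Real.rpow_le_rpow_of_exponent_ge (by norm_num) (by norm_num) hα1.le
        _ ≤ (d / r) ^ α := by
          refine Real.rpow_le_rpow (by norm_num) ?_ hα0.le
          rw [le_div_iff₀ hr]; linarith
    calc |q t1 x1 - q t2 x2| ≤ 2 * M0 := hΔ
      _ ≤ 12 * (6 + 8 * Lam) * (1 / 2) * G := by nlinarith [mul_nonneg hLam.le hG0]
      _ ≤ 12 * (6 + 8 * Lam) * (d / r) ^ α * G := by gcongr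
  rcases hd0.eq_or_lt with hd00 | hdpos
  · -- the same point
    have hn : ‖x1 - x2‖ = 0 := by
      have := norm_nonneg (x1 - x2); linarith
    have hs00 : s = 0 := by
      have := norm_nonneg (x1 - x2); linarith
    have ex : x1 = x2 := sub_eq_zero.1 (norm_eq_zero.1 hn)
    have et : t1 = t2 := by
      rw [hs00] at hs2; nlinarith
    rw [ex, et, sub_self, abs_zero]
    positivity
  -- the main case
  set kF' : ℝ := kF + Lam * M0 with hkF'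
  set kg' : ℝ := kg + Lam * M0 with hkg'
  have hkF'0 : 0 ≤ kF' := by positivity
  have hkg'0 : 0 ≤ kg' := by positivity
  have hK0 := ((hK.mono hI hB le_rfl le_rfl le_rfl).absorb isOpen_ball (hq.mono hI hB) hLam.le hM)
  have hsol0 := (hsol.mono hI hB).absorb
  have hq0 := hq.mono hI hB
  set Bd : ℝ → ℝ → ℝ → Prop := fun ρ m M =>
    ∀ t ∈ Icc (t1 - ρ ^ 2) t1, ∀ x ∈ ball x1 ρ, m ≤ q t x ∧ q t x ≤ M with hBd
  have hiter := dg_holder_iter (θ := θ) (M0 := M0) hr hkF'0 hkg'0 Bd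
    (fun ρ m M hρ hb => by
      have := hb t1 ⟨by nlinarith [sq_nonneg ρ], le_rfl⟩ x1 (mem_ball_self hρ)
      linarith)
    (fun t ht x hx => abs_le.1 (hM t (hsubI (by positivity) le_rfl ht) x (hsubS le_rfl hx)))
    (fun ρ hρ0 hρ1 m M hb =>
      hosc (K.absorb q) q qt kF' kg' t1 x1 ρ hρ0 (by linarith)
        (hK0.mono (hsubI hρ0 hρ1) (hsubS hρ1) le_rfl le_rfl le_rfl) (fun _ _ => rfl)
        (fun _ _ => rfl) (hq0.mono (hsubI hρ0 hρ1) (hsubS hρ1))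
        (hsol0.mono (hsubI hρ0 hρ1) (hsubS hρ1)) m M hb)
  obtain ⟨j, hj1, hj2⟩ := dg_holder_pick hdpos hcase
  obtain ⟨m, M, hb, hD⟩ := hiter j
  rw [← hϑ] at hD
  set ρj : ℝ := r / 2 * (1 / 6) ^ j with hρj
  have hρj0 : 0 < ρj := by positivity
  have b1 := hb t1 ⟨by nlinarith [sq_nonneg ρj], le_rfl⟩ x1 (mem_ball_self hρj0)
  have b2 := hb t2 ⟨by
      have h1 : s ≤ d := by have := norm_nonneg (x1 - x2); linarith
      have h2 : s ^ 2 ≤ ρj ^ 2 := pow_le_pow_left₀ hs0 (h1.trans hj2.le) 2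
      linarith, hle⟩ x2 (by
      rw [mem_ball, dist_eq_norm, norm_sub_rev]
      linarith)
  have hΔ2 : |q t1 x1 - q t2 x2| ≤ M - m := by
    rw [abs_le]; constructor <;> linarith [b1.1, b1.2, b2.1, b2.2]
  set k0 : ℝ := r * kF' + r ^ 2 * kg' with hk0
  have hk00 : 0 ≤ k0 := by positivity
  have h3 : 2 * M0 + (4 - 4 * (1 / 3) ^ j) * k0 ≤ (6 + 8 * Lam) * G := by
    have a1 : 0 ≤ (1 / 3 : ℝ) ^ j * k0 := by positivity
    have a2 : k0 ≤ r * kF + r ^ 2 * kg + 2 * (Lam * M0) := by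
      have a3 : 0 ≤ Lam * M0 := by positivity
      have a4 : r ^ 2 ≤ 1 := by nlinarith
      rw [hk0, hkF', hkg']
      nlinarith
    have a5 : 0 ≤ r * kF + r ^ 2 * kg := by positivity
    have a6 : 0 ≤ Lam * (r * kF + r ^ 2 * kg) := by positivity
    rw [hG]
    nlinarith
  have h4 : ϑ ^ j ≤ 12 * (d / r) ^ α := by
    have e1 : ϑ ^ j = ((1 / 6 : ℝ) ^ j) ^ α := by
      rw [← hαeq, ← Real.rpow_natCast, ← Real.rpow_mul (by norm_num), mul_comm,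
        Real.rpow_mul (by norm_num), Real.rpow_natCast]
    have e2 : (1 / 6 : ℝ) ^ j ≤ 12 * (d / r) := by
      have : r / 2 * (1 / 6) ^ (j + 1) = r / 12 * (1 / 6) ^ j := by rw [pow_succ]; ring
      rw [this] at hj1
      have e3 : 12 * (d / r) = d / (r / 12) := by field_simp
      rw [e3, le_div_iff₀ (by positivity)]
      linarith
    rw [e1]
    calc ((1 / 6 : ℝ) ^ j) ^ α ≤ (12 * (d / r)) ^ α := Real.rpow_le_rpow (by positivity) e2 hα0.le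
      _ = (12 : ℝ) ^ α * (d / r) ^ α := Real.mul_rpow (by norm_num) (by positivity)
      _ ≤ (12 : ℝ) ^ (1 : ℝ) * (d / r) ^ α := by
          refine mul_le_mul_of_nonneg_right ?_ (Real.rpow_nonneg (by positivity) _)
          exact Real.rpow_le_rpow_of_exponent_le (by norm_num) hα1.le
      _ = 12 * (d / r) ^ α := by rw [Real.rpow_one]
  have hpos : 0 ≤ (6 + 8 * Lam) * G := by positivity
  calc |q t1 x1 - q t2 x2| ≤ M - m := hΔ2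
    _ ≤ ϑ ^ j * (2 * M0 + (4 - 4 * (1 / 3) ^ j) * k0) := hD
    _ ≤ ϑ ^ j * ((6 + 8 * Lam) * G) := mul_le_mul_of_nonneg_left h3 (by positivity)
    _ ≤ 12 * (d / r) ^ α * ((6 + 8 * Lam) * G) := mul_le_mul_of_nonneg_right h4 hpos
    _ = 12 * (6 + 8 * Lam) * (d / r) ^ α * G := by ring

variable (W) in
theorem dg_holder (hm : 2 ≤ Module.finrank ℝ W) (lam Lam : ℝ) (hl : 0 < lam) (hL : lam ≤ Lam) :
    ∃ α C : ℝ, 0 < α ∧ α < 1 ∧ 0 < C ∧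
    ∀ (I : Set ℝ) (S : Set W) (K : dg_Coef W) (q qt : ℝ → W → ℝ) (kF kg M0 : ℝ), IsOpen S →
      K.Ok I S lam Lam kF kg → dg_Reg I S q qt → dg_Sol K I S q qt →
    ∀ (t0 : ℝ) (x0 : W) (r : ℝ), 0 < r → r ≤ 1 → Icc (t0 - r ^ 2) t0 ⊆ I → ball x0 r ⊆ S →
      (∀ t ∈ Icc (t0 - r ^ 2) t0, ∀ x ∈ ball x0 r, |q t x| ≤ M0) →
      ∀ P1 ∈ dg_Q t0 x0 (r / 2), ∀ P2 ∈ dg_Q t0 x0 (r / 2),
        |q P1.1 P1.2 - q P2.1 P2.2| ≤
          C * ((‖P1.2 - P2.2‖ + |P1.1 - P2.1| ^ (1 / 2 : ℝ)) / r) ^ α *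
            (M0 + r * kF + r ^ 2 * kg) := by
  obtain ⟨θ, hθ0, hθ1, hosc⟩ := dg_osc_scaled W hm lam Lam hl hL
  have hLam : 0 < Lam := lt_of_lt_of_le hl hL
  have hϑ2 : 1 / 2 ≤ max (1 - θ) (1 / 2) := le_max_right _ _
  have hϑlt : max (1 - θ) (1 / 2) < 1 := max_lt (by linarith) (by norm_num)
  obtain ⟨hα0, hα1, -⟩ := dg_holder_alpha hϑ2 hϑlt
  refine ⟨_, 12 * (6 + 8 * Lam), hα0, hα1, by positivity, ?_⟩
  intro I S K q qt kF kg M0 _ hK hq hsol t0 x0 r hr hr1 hI hB hM P1 hP1 P2 hP2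
  rcases le_total P2.1 P1.1 with hle | hle
  · exact dg_holder_core hl hL hθ0 hosc hK hq hsol hr hr1 hI hB hM hP1 hP2 hle
  · have := dg_holder_core hl hL hθ0 hosc hK hq hsol hr hr1 hI hB hM hP2 hP1 hle
    rw [abs_sub_comm, norm_sub_rev, abs_sub_comm P1.1 P2.1]
    exact this

end Claimed.Agent.Lib.Dgnm
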