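import Claimed.Agent.Lib.Dgnm.BoundAbs
import Claimed.Agent.Lib.Dgnm.Holder

/-!
# Lib/Dgnm/Elliptic : the elliptic corollaries (leaf DG-ELL)

Equation `div (a du + u f + F) + du(b) + c u + g = 0` (`≥ 0` for subsolutions) on an open set `S ⊆ W`, weakly:
`∫ dg_eform E u φ = 0` (`≤ 0`).  GT Theorem 8.17 (local boundedness, `0 < p ≤ 2`) and GT Theorem 8.24
(Hölder estimate) as A PRIORI estimates for `C^1` functions, coefficients bounded measurable.
PROOF: `U t x = u x`, `Ut = 0`, `K = E.toCoef` (`mu = 1`, `mudt = 0`), `I = univ`: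
`dg_form E.toCoef U 0 φ t x = dg_eform E u φ x` (`rfl`/`simp`), `dg_Reg univ S U 0` (`dg_Reg.of_space`),
`E.toCoef.Ok univ S (min lam 1) (max Lam 1) kF kg`.  Apply `dg_local_bound`, `dg_local_bound_abs`, `dg_holder`
at `t0 = 0`; `∫_{dg_Q 0 x0 r} u^p = r^2 ∫_{closedBall x0 r} u^p` (`dg_setIntegral_cyl`),
`r^{-(m+2)} r^2 = r^{-m}`; in the Hölder estimate take `P1 = (0,x)`, `P2 = (0,y)`.
-/

set_option autoImplicit false
set_option linter.unusedSectionVars false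

open Set Filter MeasureTheory Metric
open scoped Topology ContDiff

namespace Claimed.Agent.Lib.Dgnm

variable {W : Type*} [NormedAddCommGroup W] [InnerProductSpace ℝ W] [FiniteDimensional ℝ W]
  [MeasurableSpace W] [BorelSpace W]

/-- coefficients of `div (a du + u f + F) + du(b) + c u + g = 0`. -/
structure dg_ECoef (W : Type*) [NormedAddCommGroup W] [InnerProductSpace ℝ W] where
  a : W → (W →L[ℝ] ℝ) →L[ℝ] W
  f : W → W
  b : W → W
  c : W → ℝ
  F : W → W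
  g : W → ℝ

/-- structure conditions. -/
structure dg_ECoef.Ok (E : dg_ECoef W) (S : Set W) (lam Lam kF kg : ℝ) : Prop where
  a_meas : AEStronglyMeasurable E.a (volume.restrict S)
  f_meas : AEStronglyMeasurable E.f (volume.restrict S)
  b_meas : AEStronglyMeasurable E.b (volume.restrict S)
  c_meas : AEStronglyMeasurable E.c (volume.restrict S)
  F_meas : AEStronglyMeasurable E.F (volume.restrict S)
  g_meas : AEStronglyMeasurable E.g (volume.restrict S)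
  a_lo : ∀ x ∈ S, ∀ ξ : W →L[ℝ] ℝ, lam * ‖ξ‖ ^ 2 ≤ ξ (E.a x ξ)
  a_hi : ∀ x ∈ S, ∀ ξ : W →L[ℝ] ℝ, ‖E.a x ξ‖ ≤ Lam * ‖ξ‖
  f_le : ∀ x ∈ S, ‖E.f x‖ ≤ Lam
  b_le : ∀ x ∈ S, ‖E.b x‖ ≤ Lam
  c_le : ∀ x ∈ S, |E.c x| ≤ Lam
  F_le : ∀ x ∈ S, ‖E.F x‖ ≤ kF
  g_le : ∀ x ∈ S, |E.g x| ≤ kg

/-- the time independent parabolic coefficients. -/
noncomputable def dg_ECoef.toCoef (E : dg_ECoef W) : dg_Coef W where
  mu := fun _ _ => 1
  mudt := fun _ _ => 0
  a := fun _ => E.a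
  f := fun _ => E.f
  b := fun _ => E.b
  c := fun _ => E.c
  F := fun _ => E.F
  g := fun _ => E.g

/-- integrand of the weak form. -/
noncomputable def dg_eform (E : dg_ECoef W) (u φ : W → ℝ) (x : W) : ℝ :=
  fderiv ℝ φ x (E.a x (fderiv ℝ u x) + u x • E.f x + E.F x)
    - (fderiv ℝ u x (E.b x) + E.c x * u x + E.g x) * φ x

/-- weak subsolution: `div (a du + u f + F) + du(b) + c u + g ≥ 0`. -/
def dg_ESub (E : dg_ECoef W) (S : Set W) (u : W → ℝ) : Prop :=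
  ∀ φ : W → ℝ, dg_Test S φ → (∀ x, 0 ≤ φ x) → ∫ x, dg_eform E u φ x ≤ 0

/-- weak solution. -/
def dg_ESol (E : dg_ECoef W) (S : Set W) (u : W → ℝ) : Prop :=
  ∀ φ : W → ℝ, dg_Test S φ → ∫ x, dg_eform E u φ x = 0

theorem dg_ECoef.Ok.toCoef {E : dg_ECoef W} {S : Set W} {lam Lam kF kg : ℝ}
    (h : E.Ok S lam Lam kF kg) : E.toCoef.Ok univ S (min lam 1) (max Lam 1) kF kg :=
  { mu_dt := fun t _ x _ => hasDerivWithinAt_const t univ (1 : ℝ)
    mu_cont := continuousOn_const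
    mudt_cont := continuousOn_const
    a_meas := fun _ _ => h.a_meas
    f_meas := fun _ _ => h.f_meas
    b_meas := fun _ _ => h.b_meas
    c_meas := fun _ _ => h.c_meas
    F_meas := fun _ _ => h.F_meas
    g_meas := fun _ _ => h.g_meas
    mu_lo := fun _ _ _ _ => min_le_right _ _
    mu_hi := fun _ _ _ _ => le_max_right _ _
    mudt_le := fun _ _ _ _ => by
      show |(0 : ℝ)| ≤ max Lam 1
      rw [abs_zero]
      exact zero_le_one.trans (le_max_right _ _)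
    a_lo := fun _ _ x hx ξ =>
      (mul_le_mul_of_nonneg_right (min_le_left _ _) (sq_nonneg _)).trans (h.a_lo x hx ξ)
    a_hi := fun _ _ x hx ξ =>
      (h.a_hi x hx ξ).trans (mul_le_mul_of_nonneg_right (le_max_left _ _) (norm_nonneg _))
    f_le := fun _ _ x hx => (h.f_le x hx).trans (le_max_left _ _)
    b_le := fun _ _ x hx => (h.b_le x hx).trans (le_max_left _ _)
    c_le := fun _ _ x hx => (h.c_le x hx).trans (le_max_left _ _)
    F_le := fun _ _ x hx => h.F_le x hx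
    g_le := fun _ _ x hx => h.g_le x hx }

theorem dg_form_toCoef (E : dg_ECoef W) (u φ : W → ℝ) (t : ℝ) (x : W) :
    dg_form E.toCoef (fun _ y => u y) (fun _ _ => 0) φ t x = dg_eform E u φ x := by
  simp only [dg_form, dg_eform, dg_ECoef.toCoef, mul_zero, zero_mul, zero_add]

theorem dg_ESub.toSub {E : dg_ECoef W} {S : Set W} {u : W → ℝ} (h : dg_ESub E S u) :
    dg_Sub E.toCoef univ S (fun _ y => u y) (fun _ _ => 0) := by
  intro t _ φ hφ h0
  simp only [dg_form_toCoef]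
  exact h φ hφ h0

theorem dg_ESol.toSol {E : dg_ECoef W} {S : Set W} {u : W → ℝ} (h : dg_ESol E S u) :
    dg_Sol E.toCoef univ S (fun _ y => u y) (fun _ _ => 0) := by
  intro t _ φ hφ
  simp only [dg_form_toCoef]
  exact h φ hφ

theorem dg_ell_mem_Q {x0 x : W} {r : ℝ} (hx : x ∈ closedBall x0 (r / 2)) :
    ((0 : ℝ), x) ∈ dg_Q 0 x0 (r / 2) :=
  ⟨⟨by nlinarith [sq_nonneg (r / 2)], le_rfl⟩, hx⟩

/-- the space-time integral of a time independent function. -/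
theorem dg_ell_integral {x0 : W} {r : ℝ} (hr : 0 < r) {H : W → ℝ}
    (hH : ContinuousOn H (closedBall x0 r)) :
    r ^ (-(dg_m W + 2)) * ∫ q in dg_Q (0 : ℝ) x0 r, H q.2
      = r ^ (-dg_m W) * ∫ y in closedBall x0 r, H y := by
  have h1 : ContinuousOn (fun q : ℝ × W => (fun (_ : ℝ) (y : W) => H y) q.1 q.2)
      (dg_Cyl (0 - r ^ 2) 0 x0 r) :=
    hH.comp continuous_snd.continuousOn (fun q hq => hq.2)
  have h2 := dg_setIntegral_cyl (H := fun _ y => H y) (s := 0 - r ^ 2) (t := 0)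
    (by nlinarith [sq_nonneg r]) h1
  rw [dg_Q, h2, intervalIntegral.integral_const, smul_eq_mul, ← mul_assoc]
  congr 1
  have e : (0 : ℝ) - (0 - r ^ 2) = r ^ (2 : ℝ) := by
    rw [Real.rpow_two]; ring
  rw [e, ← Real.rpow_add hr]
  congr 1
  ring

variable (W) in
/-- GT 8.17 for nonnegative subsolutions. -/
theorem dg_elliptic_bound (hm : 2 ≤ Module.finrank ℝ W) (lam Lam : ℝ) (hl : 0 < lam)
    (hL : lam ≤ Lam) (p : ℝ) (hp : 0 < p) (hp2 : p ≤ 2) :
    ∃ C : ℝ, 0 < C ∧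
    ∀ (S : Set W) (E : dg_ECoef W) (u : W → ℝ) (kF kg : ℝ), IsOpen S → E.Ok S lam Lam kF kg →
      ContDiffOn ℝ 1 u S → (∀ x ∈ S, 0 ≤ u x) → dg_ESub E S u →
    ∀ (x0 : W) (r : ℝ), 0 < r → r ≤ 1 → closedBall x0 r ⊆ S →
      ∀ x ∈ closedBall x0 (r / 2), u x ≤
        C * ((r ^ (-dg_m W) * ∫ y in closedBall x0 r, u y ^ p) ^ (1 / p) + r * kF + r ^ 2 * kg) := by
  obtain ⟨C, hC, hb⟩ := dg_local_bound W hm (min lam 1) (max Lam 1) (lt_min hl one_pos)
    ((min_le_right _ _).trans (le_max_right _ _)) p hp hp2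
  refine ⟨C, hC, ?_⟩
  intro S E u kF kg hS hE hu h0 hsub x0 r hr hr1 hB x hx
  have h1 := hb univ S E.toCoef (fun _ y => u y) (fun _ _ => 0) kF kg hS hE.toCoef
    (dg_Reg.of_space hS hu) (fun _ _ y hy => h0 y hy) hsub.toSub 0 x0 r hr hr1 (subset_univ _) hB
    (0, x) (dg_ell_mem_Q hx)
  have h2 := dg_ell_integral (W := W) (x0 := x0) hr (H := fun y => u y ^ p)
    ((hu.continuousOn.mono hB).rpow_const (fun _ _ => Or.inr hp.le))
  simp only at h1
  rw [h2] at h1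
  exact h1

variable (W) in
/-- GT 8.17 for solutions. -/
theorem dg_elliptic_bound_abs (hm : 2 ≤ Module.finrank ℝ W) (lam Lam : ℝ) (hl : 0 < lam)
    (hL : lam ≤ Lam) (p : ℝ) (hp : 0 < p) (hp2 : p ≤ 2) :
    ∃ C : ℝ, 0 < C ∧
    ∀ (S : Set W) (E : dg_ECoef W) (u : W → ℝ) (kF kg : ℝ), IsOpen S → E.Ok S lam Lam kF kg →
      ContDiffOn ℝ 1 u S → dg_ESol E S u →
    ∀ (x0 : W) (r : ℝ), 0 < r → r ≤ 1 → closedBall x0 r ⊆ S →
      ∀ x ∈ closedBall x0 (r / 2), |u x| ≤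
        C * ((r ^ (-dg_m W) * ∫ y in closedBall x0 r, |u y| ^ p) ^ (1 / p) + r * kF + r ^ 2 * kg) := by
  obtain ⟨C, hC, hb⟩ := dg_local_bound_abs W hm (min lam 1) (max Lam 1) (lt_min hl one_pos)
    ((min_le_right _ _).trans (le_max_right _ _)) p hp hp2
  refine ⟨C, hC, ?_⟩
  intro S E u kF kg hS hE hu hsol x0 r hr hr1 hB x hx
  have h1 := hb univ S E.toCoef (fun _ y => u y) (fun _ _ => 0) kF kg hS hE.toCoef
    (dg_Reg.of_space hS hu) hsol.toSol 0 x0 r hr hr1 (subset_univ _) hB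
    (0, x) (dg_ell_mem_Q hx)
  have h2 := dg_ell_integral (W := W) (x0 := x0) hr (H := fun y => |u y| ^ p)
    ((hu.continuousOn.mono hB).abs.rpow_const (fun _ _ => Or.inr hp.le))
  simp only at h1
  rw [h2] at h1
  exact h1

variable (W) in
/-- GT 8.24. -/
theorem dg_elliptic_holder (hm : 2 ≤ Module.finrank ℝ W) (lam Lam : ℝ) (hl : 0 < lam)
    (hL : lam ≤ Lam) :
    ∃ α C : ℝ, 0 < α ∧ α < 1 ∧ 0 < C ∧
    ∀ (S : Set W) (E : dg_ECoef W) (u : W → ℝ) (kF kg M0 : ℝ), IsOpen S → E.Ok S lam Lam kF kg →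
      ContDiffOn ℝ 1 u S → dg_ESol E S u →
    ∀ (x0 : W) (r : ℝ), 0 < r → r ≤ 1 → ball x0 r ⊆ S → (∀ x ∈ ball x0 r, |u x| ≤ M0) →
      ∀ x ∈ closedBall x0 (r / 2), ∀ y ∈ closedBall x0 (r / 2),
        |u x - u y| ≤ C * (‖x - y‖ / r) ^ α * (M0 + r * kF + r ^ 2 * kg) := by
  obtain ⟨α, C, hα, hα1, hC, hb⟩ := dg_holder W hm (min lam 1) (max Lam 1) (lt_min hl one_pos)
    ((min_le_right _ _).trans (le_max_right _ _))
  refine ⟨α, C, hα, hα1, hC, ?_⟩
  intro S E u kF kg M0 hS hE hu hsol x0 r hr hr1 hB hM x hx y hy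
  have h1 := hb univ S E.toCoef (fun _ y => u y) (fun _ _ => 0) kF kg M0 hS hE.toCoef
    (dg_Reg.of_space hS hu) hsol.toSol 0 x0 r hr hr1 (subset_univ _) hB (fun _ _ z hz => hM z hz)
    (0, x) (dg_ell_mem_Q hx) (0, y) (dg_ell_mem_Q hy)
  simp only [sub_self, abs_zero] at h1
  rw [Real.zero_rpow (by norm_num), add_zero] at h1
  exact h1

end Claimed.Agent.Lib.Dgnm
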