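import Claimed.Agent.Lib.Dgnm.Basic

/-!
# Lib/Dgnm/Time : spatial integrals as functions of time; Fubini on cylinders (leaf DG-TIME)

Pure infrastructure.  `ζ` is a continuous cutoff with compact support in the open set `S`.
* continuity: `continuousOn_integral_of_compact_support` (Mathlib) with `k = tsupport ζ` and
  `dg_continuousOn_mul`.
* derivative: `hasDerivAt_integral_of_dominated_loc_of_deriv_le` on a ball `(τ-ε, τ+ε) ⊆ Ioo s t`,
  the bound is `B * |ζ x|` (or `B` times the indicator of `tsupport ζ`) where `B` bounds `|Gt|` on the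
  COMPACT set `Icc s t ×ˢ tsupport ζ ⊆ I ×ˢ S`.
* FTC: `intervalIntegral.integral_eq_sub_of_hasDerivAt_of_le`.
* Fubini: `MeasureTheory.setIntegral_prod`, `Measure.volume_eq_prod`,
  `intervalIntegral.integral_of_le`, `integral_Icc_eq_integral_Ioc`; a continuous function on the
  compact set `dg_Cyl` is integrable on it (`ContinuousOn.integrableOn_compact`).
-/

set_option autoImplicit false
set_option linter.unusedSectionVars false

open Set Filter MeasureTheory Metric
open scoped Topology ContDiff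

namespace Claimed.Agent.Lib.Dgnm

variable {W : Type*} [NormedAddCommGroup W] [InnerProductSpace ℝ W] [FiniteDimensional ℝ W]
  [MeasurableSpace W] [BorelSpace W]

variable {I : Set ℝ} {S : Set W} {G Gt H : ℝ → W → ℝ} {ζ : W → ℝ}

theorem dg_integral_continuousOn (hS : IsOpen S) (hζ : Continuous ζ) (hk : HasCompactSupport ζ)
    (hs : tsupport ζ ⊆ S) (hH : ContinuousOn (fun q : ℝ × W => H q.1 q.2) (I ×ˢ S)) :
    ContinuousOn (fun t => ∫ x, ζ x * H t x) I := by
  apply continuousOn_integral_of_compact_support (f := fun t x => ζ x * H t x) hk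
  · exact dg_continuousOn_mul hS hζ hs hH
  · intro t x _ hx
    rw [image_eq_zero_of_notMem_tsupport hx, zero_mul]

/-- time slices of a function continuous on `I × S`. -/
theorem dg_slice_continuousOn (hH : ContinuousOn (fun q : ℝ × W => H q.1 q.2) (I ×ˢ S)) {t : ℝ}
    (ht : t ∈ I) : ContinuousOn (H t) S :=
  hH.comp (Continuous.prodMk_right t).continuousOn (fun _ hx => ⟨ht, hx⟩)

theorem dg_integral_hasDerivAt (hS : IsOpen S) (hζ : Continuous ζ) (hk : HasCompactSupport ζ)
    (hs : tsupport ζ ⊆ S) (hG : dg_RegT I S G Gt) {s t τ : ℝ} (hI : Icc s t ⊆ I)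
    (hτ : τ ∈ Ioo s t) :
    HasDerivAt (fun σ => ∫ x, ζ x * G σ x) (∫ x, ζ x * Gt τ x) τ := by
  have hIo : ∀ σ ∈ Ioo s t, σ ∈ I := fun σ hσ => hI (Ioo_subset_Icc_self hσ)
  have hKc : IsCompact (Icc s t ×ˢ tsupport ζ) := isCompact_Icc.prod hk
  obtain ⟨B, hB⟩ := hKc.exists_bound_of_continuousOn (hG.contt.mono (prod_mono hI hs))
  have hcont : ∀ {F : ℝ → W → ℝ}, ContinuousOn (fun q : ℝ × W => F q.1 q.2) (I ×ˢ S) →
      ∀ σ ∈ I, Continuous (fun x => ζ x * F σ x) := fun hF σ hσ =>
    dg_continuous_mul hS hζ hs (dg_slice_continuousOn hF hσ)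
  have hζi : Integrable (fun x => B * |ζ x|) := by
    apply Integrable.const_mul
    exact hζ.abs.integrable_of_hasCompactSupport (hk.comp_left (g := fun y : ℝ => |y|) abs_zero)
  refine (hasDerivAt_integral_of_dominated_loc_of_deriv_le (F := fun σ x => ζ x * G σ x)
    (F' := fun σ x => ζ x * Gt σ x) (bound := fun x => B * |ζ x|) (Ioo_mem_nhds hτ.1 hτ.2)
    ?_ ?_ ?_ ?_ hζi ?_).2
  · filter_upwards [Ioo_mem_nhds hτ.1 hτ.2] with σ hσ
    exact (hcont hG.cont0 σ (hIo σ hσ)).aestronglyMeasurable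
  · exact dg_integrable_mul hS hζ hk hs (dg_slice_continuousOn hG.cont0 (hIo τ hτ))
  · exact (hcont hG.contt τ (hIo τ hτ)).aestronglyMeasurable
  · refine ae_of_all _ (fun x σ hσ => ?_)
    by_cases hx : x ∈ tsupport ζ
    · have := hB (σ, x) ⟨Ioo_subset_Icc_self hσ, hx⟩
      rw [norm_mul, Real.norm_eq_abs, mul_comm]
      exact mul_le_mul_of_nonneg_right this (abs_nonneg _)
    · rw [image_eq_zero_of_notMem_tsupport hx]; simp
  · refine ae_of_all _ (fun x σ hσ => ?_)
    by_cases hx : x ∈ S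
    · exact (hG.hasDerivAt hI hσ hx).const_mul (ζ x)
    · have h0 : ζ x = 0 := image_eq_zero_of_notMem_tsupport (fun h => hx (hs h))
      simp only [h0, zero_mul]
      exact hasDerivAt_const σ (0:ℝ)

theorem dg_integral_ftc (hS : IsOpen S) (hζ : Continuous ζ) (hk : HasCompactSupport ζ)
    (hs : tsupport ζ ⊆ S) (hG : dg_RegT I S G Gt) {s t : ℝ} (hst : s ≤ t) (hI : Icc s t ⊆ I) :
    (∫ x, ζ x * G t x) - ∫ x, ζ x * G s x = ∫ σ in s..t, ∫ x, ζ x * Gt σ x := by
  symm
  apply intervalIntegral.integral_eq_sub_of_hasDerivAt_of_le hst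
    ((dg_integral_continuousOn hS hζ hk hs hG.cont0).mono hI)
    (fun τ hτ => dg_integral_hasDerivAt hS hζ hk hs hG hI hτ)
  have hc := (dg_integral_continuousOn hS hζ hk hs hG.contt).mono hI
  rw [← uIcc_of_le hst] at hc
  exact hc.intervalIntegrable

theorem dg_isCompact_cyl (s t : ℝ) (x0 : W) (R : ℝ) : IsCompact (dg_Cyl s t x0 R) :=
  isCompact_Icc.prod (isCompact_closedBall x0 R)

theorem dg_measurableSet_cyl (s t : ℝ) (x0 : W) (R : ℝ) : MeasurableSet (dg_Cyl s t x0 R) :=
  measurableSet_Icc.prod measurableSet_closedBall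

theorem dg_cyl_subset {s t : ℝ} {x0 : W} {R : ℝ} (hI : Icc s t ⊆ I) (hR : closedBall x0 R ⊆ S) :
    dg_Cyl s t x0 R ⊆ I ×ˢ S :=
  prod_mono hI hR

theorem dg_volume_cyl {s t : ℝ} (hst : s ≤ t) (x0 : W) (R : ℝ) :
    volume (dg_Cyl s t x0 R) = ENNReal.ofReal (t - s) * volume (closedBall x0 R) := by
  rw [dg_Cyl, Measure.volume_eq_prod, Measure.prod_prod, Real.volume_Icc]

theorem dg_integrableOn_cyl {s t : ℝ} {x0 : W} {R : ℝ}
    (hH : ContinuousOn (fun q : ℝ × W => H q.1 q.2) (dg_Cyl s t x0 R)) :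
    IntegrableOn (fun q : ℝ × W => H q.1 q.2) (dg_Cyl s t x0 R) :=
  hH.integrableOn_compact (dg_isCompact_cyl s t x0 R)

theorem dg_setIntegral_cyl {s t : ℝ} (hst : s ≤ t) {x0 : W} {R : ℝ}
    (hH : ContinuousOn (fun q : ℝ × W => H q.1 q.2) (dg_Cyl s t x0 R)) :
    ∫ q in dg_Cyl s t x0 R, H q.1 q.2 = ∫ σ in s..t, ∫ x in closedBall x0 R, H σ x := by
  have hi := dg_integrableOn_cyl hH
  rw [dg_Cyl, Measure.volume_eq_prod] at hi ⊢
  rw [setIntegral_prod _ hi, integral_Icc_eq_integral_Ioc, intervalIntegral.integral_of_le hst]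

/-- the inner integral over a closed ball is continuous in time. -/
theorem dg_setIntegral_ball_continuousOn {s t : ℝ} {x0 : W} {R : ℝ}
    (hH : ContinuousOn (fun q : ℝ × W => H q.1 q.2) (dg_Cyl s t x0 R)) :
    ContinuousOn (fun σ => ∫ x in closedBall x0 R, H σ x) (Icc s t) := by
  obtain ⟨B, hB⟩ := (dg_isCompact_cyl s t x0 R).exists_bound_of_continuousOn hH
  have hm : MeasurableSet (closedBall x0 R) := measurableSet_closedBall
  apply continuousOn_of_dominated (bound := fun _ => B)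
  · intro σ hσ
    have : ContinuousOn (H σ) (closedBall x0 R) :=
      hH.comp (Continuous.prodMk_right σ).continuousOn (fun _ hx => ⟨hσ, hx⟩)
    exact this.aestronglyMeasurable hm
  · intro σ hσ
    exact (ae_restrict_iff' hm).2 (ae_of_all _ (fun x hx => hB (σ, x) ⟨hσ, hx⟩))
  · exact integrableOn_const (isCompact_closedBall x0 R).measure_lt_top.ne
  · refine (ae_restrict_iff' hm).2 (ae_of_all _ (fun x hx => ?_))
    exact hH.comp (Continuous.prodMk_left x).continuousOn (fun _ hσ => ⟨hσ, hx⟩)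

/-- measure of a subset of a cylinder by slices. -/
theorem dg_volume_slices {s t : ℝ} {x0 : W} {R : ℝ} {A : Set (ℝ × W)} (hA : MeasurableSet A)
    (hsub : A ⊆ dg_Cyl s t x0 R) :
    volume A = ∫⁻ σ in Icc s t, volume {x | (σ, x) ∈ A} := by
  rw [Measure.volume_eq_prod, Measure.prod_apply hA, ← lintegral_indicator measurableSet_Icc]
  congr 1
  funext σ
  by_cases hσ : σ ∈ Icc s t
  · rw [indicator_of_mem hσ]; rfl
  · rw [indicator_of_notMem hσ]
    have : Prod.mk σ ⁻¹' A = ∅ := by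
      ext x
      simp only [mem_preimage, mem_empty_iff_false, iff_false]
      exact fun hx => hσ (hsub hx).1
    rw [this, measure_empty]

end Claimed.Agent.Lib.Dgnm
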