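import Claimed.Agent.Lib.Dgnm.SlicePow
import Claimed.Agent.Lib.Dgnm.Time

/-!
# Lib/Dgnm/Energy : the energy estimate for powers on cylinders (leaf DG-T1)

NO CUTOFF IN TIME.  Notation (all continuous on `Icc s t` by `dg_integral_continuousOn`):
`E τ = ∫ ζ^2 mu u^γ`, `D τ = ∫ ζ^2 (γ/2)^2 u^{γ-2} ‖du‖^2`, `N τ = ∫ (ζ^2 + ‖dζ‖^2) u^γ`.
`(mu u^γ, mudt u^γ + mu γ u^{γ-1} u_t)` is a `dg_RegT` pair (`dg_RegT.mul`, `dg_Coef.Ok.mu_regT`,
`dg_Reg.rpow`), so by `dg_integral_ftc` (cutoff `ζ^2`) for `σ ≤ τ` in `Icc s t`: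
`E τ - E σ = ∫_σ^τ ∫ ζ^2 (mudt u^γ + mu γ u^{γ-1} u_t)`.
With `dg_slice_pow` and `|mudt| ≤ Lam`:  `E τ - E σ + lam ∫_σ^τ D ≤ (C0 γ^2 + Lam) ∫_σ^τ N`.
For `σ ∈ [s,s']`, `τ ∈ [s',t]`:  `E τ + lam ∫_{s'}^τ D ≤ E σ + (C0 γ^2 + Lam) ∫_s^t N`.
INTEGRATE OVER `σ ∈ [s,s']`, divide by `s' - s`, use `E σ ≤ Lam N σ` and `E τ ≥ lam ∫ ζ^2 u^γ`:
`lam (∫ ζ^2 u^γ(τ) + ∫_{s'}^τ D) ≤ (Lam/(s'-s) + C0 γ^2 + Lam) ∫_s^t N`.
-/

set_option autoImplicit false
set_option linter.unusedSectionVars false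

open Set Filter MeasureTheory Metric
open scoped Topology ContDiff

namespace Claimed.Agent.Lib.Dgnm

variable {W : Type*} [NormedAddCommGroup W] [InnerProductSpace ℝ W] [FiniteDimensional ℝ W]
  [MeasurableSpace W] [BorelSpace W]

variable (W) in
theorem dg_energy (lam Lam : ℝ) (hl : 0 < lam) (hL : lam ≤ Lam) : ∃ C : ℝ, 1 ≤ C ∧
    ∀ (I : Set ℝ) (S : Set W) (K : dg_Coef W) (u ut : ℝ → W → ℝ), dg_PosSub I S lam Lam K u ut →
    ∀ γ : ℝ, 2 ≤ γ → ∀ ζ : W → ℝ, dg_Test S ζ → ∀ s s' t : ℝ, s < s' → s' ≤ t → Icc s t ⊆ I →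
    ∀ τ ∈ Icc s' t,
      (∫ x, ζ x ^ 2 * u τ x ^ γ)
        + ∫ σ in s'..τ, ∫ x, ζ x ^ 2 * ((γ / 2) ^ 2 * u σ x ^ (γ - 2) * ‖fderiv ℝ (u σ) x‖ ^ 2)
      ≤ C * (γ ^ 2 + 1 / (s' - s)) *
          ∫ σ in s..t, ∫ x, (ζ x ^ 2 + ‖fderiv ℝ ζ x‖ ^ 2) * u σ x ^ γ := by
  obtain ⟨C0, hC0, hslice⟩ := dg_slice_pow W lam Lam hl hL
  have hLam : 0 < Lam := lt_of_lt_of_le hl hL
  refine ⟨(C0 + Lam) / lam + 1, by have : 0 ≤ (C0 + Lam) / lam := by positivity
                                   linarith, ?_⟩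
  intro I S K u ut h γ hγ ζ hζ s s' t hss' hs't hI τ hτ
  have hS := h.isOpen
  have hz2 := hζ.sq
  have cpow : ∀ β : ℝ, ContinuousOn (fun q : ℝ × W => u q.1 q.2 ^ β) (I ×ˢ S) := fun β =>
    h.reg.cont0.rpow_const (fun q hq => Or.inl (h.pos _ hq.1 _ hq.2).ne')
  set E : ℝ → ℝ := fun r => ∫ x, ζ x ^ 2 * (K.mu r x * u r x ^ γ) with hE
  set D : ℝ → ℝ := fun r =>
    ∫ x, ζ x ^ 2 * ((γ / 2) ^ 2 * u r x ^ (γ - 2) * ‖fderiv ℝ (u r) x‖ ^ 2) with hD
  set N : ℝ → ℝ := fun r => ∫ x, (ζ x ^ 2 + ‖fderiv ℝ ζ x‖ ^ 2) * u r x ^ γ with hN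
  set M : ℝ → ℝ := fun r => ∫ x, ζ x ^ 2 * u r x ^ γ with hM
  set P : ℝ → ℝ := fun r => ∫ x, ζ x ^ 2 *
    (K.mudt r x * u r x ^ γ + K.mu r x * (γ * u r x ^ (γ - 1) * ut r x)) with hP
  have cE : ContinuousOn E I := dg_integral_continuousOn hS hz2.smooth.continuous hz2.cpt hz2.supp
    (H := fun r x => K.mu r x * u r x ^ γ) (h.ok.mu_cont.mul (cpow γ))
  have cD : ContinuousOn D I := dg_integral_continuousOn hS hz2.smooth.continuous hz2.cpt hz2.supp
    (H := fun r x => (γ / 2) ^ 2 * u r x ^ (γ - 2) * ‖fderiv ℝ (u r) x‖ ^ 2)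
    ((continuousOn_const.mul (cpow _)).mul (h.reg.cont1.norm.pow 2))
  have cN : ContinuousOn N I := dg_integral_continuousOn hS hζ.cut2.1 hζ.cut2.2.1 hζ.cut2.2.2
    (H := fun r x => u r x ^ γ) (cpow γ)
  have cP : ContinuousOn P I := dg_integral_continuousOn hS hz2.smooth.continuous hz2.cpt hz2.supp
    (H := fun r x => K.mudt r x * u r x ^ γ + K.mu r x * (γ * u r x ^ (γ - 1) * ut r x))
    ((h.ok.mudt_cont.mul (cpow γ)).add
      (h.ok.mu_cont.mul ((continuousOn_const.mul (cpow _)).mul h.reg.contt)))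
  -- slices
  have spow : ∀ r ∈ I, ∀ β : ℝ, ContinuousOn (fun x => u r x ^ β) S := fun r hr β =>
    dg_continuousOn_slice (h := fun r x => u r x ^ β) (cpow β) hr
  have upos : ∀ r ∈ I, ∀ x ∈ S, ∀ β : ℝ, 0 < u r x ^ β := fun r hr x hx β =>
    Real.rpow_pos_of_pos (h.pos r hr x hx) β
  have iN : ∀ r ∈ I, Integrable (fun x => (ζ x ^ 2 + ‖fderiv ℝ ζ x‖ ^ 2) * u r x ^ γ) := fun r hr =>
    dg_integrable_mul hS hζ.cut2.1 hζ.cut2.2.1 hζ.cut2.2.2 (spow r hr γ)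
  have iM : ∀ r ∈ I, Integrable (fun x => ζ x ^ 2 * u r x ^ γ) := fun r hr =>
    dg_integrable_mul hS hz2.smooth.continuous hz2.cpt hz2.supp (spow r hr γ)
  have iE : ∀ r ∈ I, Integrable (fun x => ζ x ^ 2 * (K.mu r x * u r x ^ γ)) := fun r hr =>
    dg_integrable_mul hS hz2.smooth.continuous hz2.cpt hz2.supp
      ((dg_continuousOn_slice h.ok.mu_cont hr).mul (spow r hr γ))
  have N0 : ∀ r ∈ I, 0 ≤ N r := by
    intro r hr
    refine integral_nonneg fun x => ?_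
    by_cases hx : x ∈ S
    · have := (upos r hr x hx γ).le
      positivity
    · simp [hζ.eq_zero hx, hζ.fderiv_eq_zero hx]
  have D0 : ∀ r ∈ I, 0 ≤ D r := by
    intro r hr
    refine integral_nonneg fun x => ?_
    by_cases hx : x ∈ S
    · have := (upos r hr x hx (γ - 2)).le
      positivity
    · simp [hζ.eq_zero hx]
  have EN : ∀ r ∈ I, E r ≤ Lam * N r := by
    intro r hr
    rw [hE, hN]
    simp only
    rw [← integral_const_mul]
    refine integral_mono (iE r hr) ((iN r hr).const_mul _) fun x => ?_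
    by_cases hx : x ∈ S
    · have h1 := (upos r hr x hx γ).le
      have h2 := h.ok.mu_hi r hr x hx
      have h3 : K.mu r x * u r x ^ γ ≤ Lam * u r x ^ γ := mul_le_mul_of_nonneg_right h2 h1
      have h4 : ζ x ^ 2 * (K.mu r x * u r x ^ γ) ≤ ζ x ^ 2 * (Lam * u r x ^ γ) :=
        mul_le_mul_of_nonneg_left h3 (sq_nonneg _)
      have h5 : 0 ≤ Lam * (‖fderiv ℝ ζ x‖ ^ 2 * u r x ^ γ) := by positivity
      simp only
      nlinarith
    · simp [hζ.eq_zero hx, hζ.fderiv_eq_zero hx]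
  have EM : ∀ r ∈ I, lam * M r ≤ E r := by
    intro r hr
    rw [hE, hM]
    simp only
    rw [← integral_const_mul]
    refine integral_mono ((iM r hr).const_mul _) (iE r hr) fun x => ?_
    by_cases hx : x ∈ S
    · have h1 := (upos r hr x hx γ).le
      have h2 := h.ok.mu_lo r hr x hx
      have h3 : lam * u r x ^ γ ≤ K.mu r x * u r x ^ γ := mul_le_mul_of_nonneg_right h2 h1
      have h4 : ζ x ^ 2 * (lam * u r x ^ γ) ≤ ζ x ^ 2 * (K.mu r x * u r x ^ γ) :=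
        mul_le_mul_of_nonneg_left h3 (sq_nonneg _)
      simp only
      linarith
    · simp [hζ.eq_zero hx]
  have PN : ∀ r ∈ I, P r ≤ (C0 * γ ^ 2 + Lam) * N r - lam * D r := by
    intro r hr
    have i1 : Integrable (fun x => ζ x ^ 2 * (K.mudt r x * u r x ^ γ)) :=
      dg_integrable_mul hS hz2.smooth.continuous hz2.cpt hz2.supp
        ((dg_continuousOn_slice h.ok.mudt_cont hr).mul (spow r hr γ))
    have i2 : Integrable (fun x => ζ x ^ 2 * (K.mu r x * (γ * u r x ^ (γ - 1) * ut r x))) :=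
      dg_integrable_mul hS hz2.smooth.continuous hz2.cpt hz2.supp
        ((dg_continuousOn_slice h.ok.mu_cont hr).mul
          ((continuousOn_const.mul (spow r hr _)).mul (dg_continuousOn_slice h.reg.contt hr)))
    have e : P r = (∫ x, ζ x ^ 2 * (K.mudt r x * u r x ^ γ))
        + ∫ x, ζ x ^ 2 * (K.mu r x * (γ * u r x ^ (γ - 1) * ut r x)) := by
      rw [← integral_add i1 i2]
      exact integral_congr_ae (ae_of_all _ fun x => by ring)
    have h1 : (∫ x, ζ x ^ 2 * (K.mudt r x * u r x ^ γ)) ≤ Lam * N r := by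
      rw [hN]
      simp only
      rw [← integral_const_mul]
      refine integral_mono i1 ((iN r hr).const_mul _) fun x => ?_
      by_cases hx : x ∈ S
      · have h1 := (upos r hr x hx γ).le
        have h2 := (abs_le.1 (h.ok.mudt_le r hr x hx)).2
        have h3 : K.mudt r x * u r x ^ γ ≤ Lam * u r x ^ γ := mul_le_mul_of_nonneg_right h2 h1
        have h4 : ζ x ^ 2 * (K.mudt r x * u r x ^ γ) ≤ ζ x ^ 2 * (Lam * u r x ^ γ) :=
          mul_le_mul_of_nonneg_left h3 (sq_nonneg _)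
        have h5 : 0 ≤ Lam * (‖fderiv ℝ ζ x‖ ^ 2 * u r x ^ γ) := by positivity
        simp only
        nlinarith
      · simp [hζ.eq_zero hx, hζ.fderiv_eq_zero hx]
    have h2 := hslice I S K u ut h γ hγ r hr ζ hζ
    rw [e]
    simp only [hN, hD] at h1 ⊢
    linarith
  -- FTC
  have hreg : dg_RegT I S (fun r x => K.mu r x * u r x ^ γ)
      (fun r x => K.mudt r x * u r x ^ γ + K.mu r x * (γ * u r x ^ (γ - 1) * ut r x)) :=
    h.ok.mu_regT.mul (h.reg.rpow hS h.pos γ).regT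
  have hsτ : s ≤ τ := hss'.le.trans hτ.1
  have sub1 : ∀ {a b : ℝ}, s ≤ a → b ≤ t → Icc a b ⊆ I := fun ha hb =>
    (Icc_subset_Icc ha hb).trans hI
  have ii : ∀ {f : ℝ → ℝ}, ContinuousOn f I → ∀ {a b : ℝ}, s ≤ a → a ≤ b → b ≤ t →
      IntervalIntegrable f volume a b := fun hf _ _ ha hab hb =>
    (hf.mono (sub1 ha hb)).intervalIntegrable_of_Icc hab
  set NN : ℝ := ∫ σ in s..t, N σ with hNN
  have hst : s ≤ t := hsτ.trans hτ.2
  have NN0 : 0 ≤ NN := intervalIntegral.integral_nonneg hst fun r hr => N0 r (hI hr)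
  have aeN : 0 ≤ᵐ[volume.restrict (Ioc s t)] N :=
    (ae_restrict_iff' measurableSet_Ioc).2 (ae_of_all _ fun r hr => N0 r (hI (Ioc_subset_Icc_self hr)))
  have step : ∀ σ ∈ Icc s s', E τ + lam * (∫ r in s'..τ, D r) ≤ E σ + (C0 * γ ^ 2 + Lam) * NN := by
    intro σ hσ
    have hστ : σ ≤ τ := hσ.2.trans hτ.1
    have hftc := dg_integral_ftc hS hz2.smooth.continuous hz2.cpt hz2.supp hreg hστ
      (sub1 hσ.1 hτ.2)
    have h1 : (∫ r in σ..τ, P r) ≤ ∫ r in σ..τ, ((C0 * γ ^ 2 + Lam) * N r - lam * D r) :=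
      intervalIntegral.integral_mono_on hστ (ii cP hσ.1 hστ hτ.2)
        (((ii cN hσ.1 hστ hτ.2).const_mul _).sub ((ii cD hσ.1 hστ hτ.2).const_mul _))
        fun r hr => PN r (sub1 hσ.1 hτ.2 hr)
    rw [intervalIntegral.integral_sub ((ii cN hσ.1 hστ hτ.2).const_mul _)
      ((ii cD hσ.1 hστ hτ.2).const_mul _), intervalIntegral.integral_const_mul,
      intervalIntegral.integral_const_mul] at h1
    have h2 : (∫ r in σ..τ, N r) ≤ NN :=
      intervalIntegral.integral_mono_interval hσ.1 hστ hτ.2 aeN (ii cN le_rfl hst le_rfl)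
    have h3 : (∫ r in s'..τ, D r) ≤ ∫ r in σ..τ, D r :=
      intervalIntegral.integral_mono_interval hσ.2 hτ.1 le_rfl
        ((ae_restrict_iff' measurableSet_Ioc).2 (ae_of_all _ fun r hr =>
          D0 r (sub1 hσ.1 hτ.2 (Ioc_subset_Icc_self hr)))) (ii cD hσ.1 hστ hτ.2)
    have h4 : (C0 * γ ^ 2 + Lam) * (∫ r in σ..τ, N r) ≤ (C0 * γ ^ 2 + Lam) * NN :=
      mul_le_mul_of_nonneg_left h2 (by positivity)
    have h5 : lam * (∫ r in s'..τ, D r) ≤ lam * ∫ r in σ..τ, D r :=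
      mul_le_mul_of_nonneg_left h3 hl.le
    have h6 : E τ - E σ = ∫ r in σ..τ, P r := hftc
    linarith
  -- integrate over σ
  have hd : 0 < s' - s := by linarith
  have hs'_t : s' ≤ t := hs't
  have avg : (s' - s) * (E τ + lam * (∫ r in s'..τ, D r))
      ≤ Lam * NN + (s' - s) * ((C0 * γ ^ 2 + Lam) * NN) := by
    have h1 : (∫ _σ in s..s', (E τ + lam * (∫ r in s'..τ, D r)))
        ≤ ∫ σ in s..s', (E σ + (C0 * γ ^ 2 + Lam) * NN) :=
      intervalIntegral.integral_mono_on hss'.le intervalIntegrable_const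
        ((ii cE le_rfl hss'.le hs'_t).add intervalIntegrable_const) step
    rw [intervalIntegral.integral_const, intervalIntegral.integral_add
      (ii cE le_rfl hss'.le hs'_t) intervalIntegrable_const, intervalIntegral.integral_const,
      smul_eq_mul, smul_eq_mul] at h1
    have h2 : (∫ σ in s..s', E σ) ≤ ∫ σ in s..s', Lam * N σ :=
      intervalIntegral.integral_mono_on hss'.le (ii cE le_rfl hss'.le hs'_t)
        ((ii cN le_rfl hss'.le hs'_t).const_mul _) fun r hr => EN r (sub1 le_rfl hs'_t hr)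
    rw [intervalIntegral.integral_const_mul] at h2
    have h3 : (∫ σ in s..s', N σ) ≤ NN :=
      intervalIntegral.integral_mono_interval le_rfl hss'.le hs'_t aeN (ii cN le_rfl hst le_rfl)
    have h4 : Lam * (∫ σ in s..s', N σ) ≤ Lam * NN := mul_le_mul_of_nonneg_left h3 hLam.le
    linarith
  have hτI : τ ∈ I := hI ⟨hsτ, hτ.2⟩
  have hEM := EM τ hτI
  set DD : ℝ := ∫ r in s'..τ, D r with hDD
  -- final arithmetic
  have h7 : E τ + lam * DD ≤ (Lam / (s' - s) + (C0 * γ ^ 2 + Lam)) * NN := by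
    have : E τ + lam * DD ≤ (Lam * NN + (s' - s) * ((C0 * γ ^ 2 + Lam) * NN)) / (s' - s) := by
      rw [le_div_iff₀ hd]; linarith
    calc E τ + lam * DD ≤ _ := this
      _ = _ := by field_simp
  have h8 : lam * (M τ + DD) ≤ (Lam / (s' - s) + (C0 * γ ^ 2 + Lam)) * NN := by linarith
  have h9 : (Lam / (s' - s) + (C0 * γ ^ 2 + Lam))
      ≤ lam * (((C0 + Lam) / lam + 1) * (γ ^ 2 + 1 / (s' - s))) := by
    have e : lam * (((C0 + Lam) / lam + 1) * (γ ^ 2 + 1 / (s' - s)))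
        = (C0 + Lam + lam) * (γ ^ 2 + 1 / (s' - s)) := by field_simp
    rw [e]
    have hg : 1 ≤ γ ^ 2 := by nlinarith
    have hi : 0 < 1 / (s' - s) := by positivity
    have e2 : Lam / (s' - s) = Lam * (1 / (s' - s)) := by ring
    rw [e2]
    nlinarith [mul_pos hC0 hi, mul_pos hl hi, mul_nonneg hLam.le (by linarith : 0 ≤ γ ^ 2 - 1),
      mul_pos hl (by linarith : 0 < γ ^ 2)]
  have h10 : lam * (M τ + DD) ≤ lam * ((((C0 + Lam) / lam + 1) * (γ ^ 2 + 1 / (s' - s))) * NN) := by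
    calc lam * (M τ + DD) ≤ _ := h8
      _ ≤ (lam * (((C0 + Lam) / lam + 1) * (γ ^ 2 + 1 / (s' - s)))) * NN :=
        mul_le_mul_of_nonneg_right h9 NN0
      _ = _ := by ring
  exact le_of_mul_le_mul_left h10 hl

end Claimed.Agent.Lib.Dgnm
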