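import Claimed.Agent.Lib.Dgnm.Defs

/-!
# Lib/Dgnm/IterSeq : three abstract real-analysis lemmas for the iterations (leaf DG-SEQ)

No PDE.  (1) `dg_iter_seq`: with `L j = J j ^ (1/κ^j)`: `L (j+1) ≤ (A B^j)^(1/κ^j) L j`, hence
`L j ≤ A^(∑_{i<j} κ^{-i}) B^(∑_{i<j} i κ^{-i}) J 0`, and `∑ κ^{-i} ≤ κ/(κ-1)`,
`∑ i κ^{-i} ≤ κ/(κ-1)^2` (`tsum_geometric_of_lt_one`, `tsum_coe_mul_geometric_of_norm_lt_one`, or
prove the partial sum bounds by induction), `A, B ≥ 1`.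
(2) see `LqSup.lean`.
(3) `dg_radius_iter` (Giaquinta's lemma, GT Lemma 8.?): `τ := (3/4)^(1/α)`, `ρ_i = r0 + (1-τ^i)(r1-r0)`;
`M ρ_0 ≤ 2^{-k} M ρ_k + A (1-τ)^{-α} (r1-r0)^{-α} ∑_{i<k} (2 τ^α)^{-i}`, `(2τ^α)^{-1} = 2/3`;
let `k → ∞` using boundedness of `M`.  `C = 3 (1-τ)^{-α}`.
(4) `dg_young_pow`: Young's inequality in the form used for `L^p`, `p < 2`.
-/

set_option autoImplicit false
set_option linter.unusedSectionVars false

open Set Filter MeasureTheory Metric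
open scoped Topology ContDiff

namespace Claimed.Agent.Lib.Dgnm

variable {W : Type*} [NormedAddCommGroup W] [InnerProductSpace ℝ W] [FiniteDimensional ℝ W]
  [MeasurableSpace W] [BorelSpace W]

theorem dg_is_sum_geom {κ : ℝ} (hκ : 1 < κ) (j : ℕ) :
    ∑ i ∈ Finset.range j, (1 / κ) ^ i ≤ κ / (κ - 1) := by
  have h0 : 0 ≤ 1 / κ := by positivity
  have h1 : 1 / κ < 1 := by rw [div_lt_one (by linarith)]; exact hκ
  have h2 := Summable.sum_le_tsum (Finset.range j) (fun i _ => pow_nonneg h0 i)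
    (summable_geometric_of_lt_one h0 h1)
  rw [tsum_geometric_of_lt_one h0 h1] at h2
  have h3 : (1 - 1 / κ)⁻¹ = κ / (κ - 1) := by
    have : κ - 1 ≠ 0 := by linarith
    have : κ ≠ 0 := by linarith
    field_simp
  rwa [h3] at h2

theorem dg_is_sum_geom' {κ : ℝ} (hκ : 1 < κ) (j : ℕ) :
    ∑ i ∈ Finset.range j, (i : ℝ) * (1 / κ) ^ i ≤ κ / (κ - 1) ^ 2 := by
  have h0 : 0 ≤ 1 / κ := by positivity
  have h1 : 1 / κ < 1 := by rw [div_lt_one (by linarith)]; exact hκ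
  have hn : ‖1 / κ‖ < 1 := by rwa [Real.norm_of_nonneg h0]
  have hs : Summable (fun i : ℕ => (i : ℝ) * (1 / κ) ^ i) := by
    simpa using summable_pow_mul_geometric_of_norm_lt_one 1 hn
  have h2 := Summable.sum_le_tsum (Finset.range j)
    (fun i _ => mul_nonneg (Nat.cast_nonneg i) (pow_nonneg h0 i)) hs
  rw [tsum_coe_mul_geometric_of_norm_lt_one hn] at h2
  have h3 : 1 / κ / (1 - 1 / κ) ^ 2 = κ / (κ - 1) ^ 2 := by
    have : κ - 1 ≠ 0 := by linarith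
    have : κ ≠ 0 := by linarith
    field_simp
  rwa [h3] at h2

theorem dg_iter_seq {κ A B : ℝ} (hκ : 1 < κ) (hA : 1 ≤ A) (hB : 1 ≤ B) {J : ℕ → ℝ}
    (hJ : ∀ j, 0 ≤ J j) (hstep : ∀ j, J (j + 1) ≤ (A * B ^ j * J j) ^ κ) (j : ℕ) :
    J j ^ (1 / κ ^ j) ≤ A ^ (κ / (κ - 1)) * B ^ (κ / (κ - 1) ^ 2) * J 0 := by
  have hκ0 : 0 < κ := by linarith
  have hA0 : 0 < A := by linarith
  have hB0 : 0 < B := by linarith
  have key : ∀ j, J j ^ (1 / κ ^ j) ≤ A ^ (∑ i ∈ Finset.range j, (1 / κ) ^ i) *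
      B ^ (∑ i ∈ Finset.range j, (i : ℝ) * (1 / κ) ^ i) * J 0 := by
    intro j
    induction j with
    | zero => simp
    | succ j ih =>
      set s : ℝ := (1 / κ) ^ j with hs
      have hs0 : 0 ≤ s := by positivity
      have hs' : 1 / κ ^ j = s := by rw [hs, div_pow, one_pow]
      have he : κ * (1 / κ ^ (j + 1)) = s := by
        rw [hs, div_pow, one_pow, pow_succ]; field_simp
      have hbase : 0 ≤ A * B ^ j * J j := by have := hJ j; positivity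
      calc J (j + 1) ^ (1 / κ ^ (j + 1))
          ≤ ((A * B ^ j * J j) ^ κ) ^ (1 / κ ^ (j + 1)) :=
            Real.rpow_le_rpow (hJ _) (hstep j) (by positivity)
        _ = (A * B ^ j * J j) ^ s := by rw [← Real.rpow_mul hbase, he]
        _ = A ^ s * B ^ ((j : ℝ) * s) * J j ^ s := by
            rw [Real.mul_rpow (by positivity) (hJ j), Real.mul_rpow hA0.le (by positivity),
              ← Real.rpow_natCast B j, ← Real.rpow_mul hB0.le]
        _ ≤ A ^ s * B ^ ((j : ℝ) * s) * (A ^ (∑ i ∈ Finset.range j, (1 / κ) ^ i) *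
              B ^ (∑ i ∈ Finset.range j, (i : ℝ) * (1 / κ) ^ i) * J 0) := by
            rw [hs'] at ih
            gcongr
        _ = _ := by
            rw [Finset.sum_range_succ, Finset.sum_range_succ, Real.rpow_add hA0,
              Real.rpow_add hB0]
            ring
  refine (key j).trans ?_
  have := hJ 0
  gcongr
  · exact dg_is_sum_geom hκ j
  · exact dg_is_sum_geom' hκ j

theorem dg_radius_iter (α : ℝ) (hα : 0 < α) : ∃ C : ℝ, 0 < C ∧ ∀ (r0 r1 A : ℝ) (M : ℝ → ℝ),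
    r0 < r1 → 0 ≤ A → (∃ B, ∀ r ∈ Icc r0 r1, M r ≤ B) →
    (∀ ρ R, r0 ≤ ρ → ρ < R → R ≤ r1 → M ρ ≤ (1 / 2) * M R + A / (R - ρ) ^ α) →
    M r0 ≤ C * A / (r1 - r0) ^ α := by
  set τ : ℝ := (3 / 4 : ℝ) ^ (1 / α) with hτ
  have hτ0 : 0 < τ := by positivity
  have hτ1 : τ < 1 := Real.rpow_lt_one (by norm_num) (by norm_num) (by positivity)
  have hτα : τ ^ α = 3 / 4 := by
    rw [hτ, ← Real.rpow_mul (by norm_num)]
    have : 1 / α * α = 1 := by field_simp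
    rw [this, Real.rpow_one]
  have h1τ : 0 < 1 - τ := by linarith
  refine ⟨3 * ((1 - τ) ^ α)⁻¹, by positivity, ?_⟩
  rintro r0 r1 A M hr hA ⟨B, hB⟩ hM
  set d := r1 - r0 with hd
  have hd0 : 0 < d := by rw [hd]; linarith
  set ρ : ℕ → ℝ := fun i => r0 + (1 - τ ^ i) * d with hρ
  set D : ℝ := A / ((1 - τ) * d) ^ α with hD
  have hD0 : 0 ≤ D := by positivity
  have hρ0 : ρ 0 = r0 := by simp [ρ]
  have hτi : ∀ i : ℕ, 0 < τ ^ i ∧ τ ^ i ≤ 1 := fun i =>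
    ⟨pow_pos hτ0 i, pow_le_one₀ hτ0.le hτ1.le⟩
  have hρmem : ∀ i, ρ i ∈ Icc r0 r1 := by
    intro i
    obtain ⟨h1, h2⟩ := hτi i
    constructor
    · have : 0 ≤ (1 - τ ^ i) * d := mul_nonneg (by linarith) hd0.le
      simp only [hρ]; linarith
    · have : (1 - τ ^ i) * d ≤ 1 * d := mul_le_mul_of_nonneg_right (by linarith) hd0.le
      simp only [hρ]; rw [hd] at this ⊢; linarith
  have hstep : ∀ i, M (ρ i) ≤ 1 / 2 * M (ρ (i + 1)) + D * (4 / 3) ^ i := by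
    intro i
    have e : ρ (i + 1) - ρ i = τ ^ i * ((1 - τ) * d) := by simp only [hρ]; ring
    have hpos : 0 < τ ^ i * ((1 - τ) * d) := mul_pos (hτi i).1 (mul_pos h1τ hd0)
    have h := hM (ρ i) (ρ (i + 1)) (hρmem i).1 (by linarith) (hρmem (i + 1)).2
    have e2 : (τ ^ i) ^ α = (3 / 4) ^ i := by
      rw [← Real.rpow_natCast τ i, ← Real.rpow_mul hτ0.le, mul_comm (i : ℝ) α,
        Real.rpow_mul hτ0.le, hτα, Real.rpow_natCast]
    rw [e, Real.mul_rpow (hτi i).1.le (mul_pos h1τ hd0).le, e2] at h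
    have e3 : A / ((3 / 4) ^ i * ((1 - τ) * d) ^ α) = D * (4 / 3) ^ i := by
      rw [hD]
      have : ((4:ℝ) / 3) ^ i = ((3 / 4 : ℝ) ^ i)⁻¹ := by rw [← inv_pow]; norm_num
      rw [this]
      have h5 : (0:ℝ) < ((1 - τ) * d) ^ α := by positivity
      field_simp
    rwa [e3] at h
  have hind : ∀ k : ℕ, M r0 ≤ (1 / 2) ^ k * M (ρ k) + D * ∑ i ∈ Finset.range k, (2 / 3 : ℝ) ^ i := by
    intro k
    induction k with
    | zero => simp [hρ0]
    | succ k ih =>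
      have h1 : (1 / 2 : ℝ) ^ k * M (ρ k) ≤
          (1 / 2 : ℝ) ^ k * (1 / 2 * M (ρ (k + 1)) + D * (4 / 3) ^ k) :=
        mul_le_mul_of_nonneg_left (hstep k) (by positivity)
      have h2 : (1 / 2 : ℝ) ^ k * (4 / 3) ^ k = (2 / 3) ^ k := by rw [← mul_pow]; norm_num
      rw [Finset.sum_range_succ, ← h2]
      calc M r0 ≤ _ := ih
        _ ≤ (1 / 2 : ℝ) ^ k * (1 / 2 * M (ρ (k + 1)) + D * (4 / 3) ^ k)
              + D * ∑ i ∈ Finset.range k, (2 / 3 : ℝ) ^ i := by linarith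
        _ = _ := by ring
  have hsum : ∀ k : ℕ, ∑ i ∈ Finset.range k, (2 / 3 : ℝ) ^ i ≤ 3 := by
    intro k
    have h2 := Summable.sum_le_tsum (Finset.range k)
      (fun i _ => pow_nonneg (by norm_num : (0:ℝ) ≤ 2 / 3) i)
      (summable_geometric_of_lt_one (by norm_num) (by norm_num))
    rw [tsum_geometric_of_lt_one (by norm_num) (by norm_num)] at h2
    norm_num at h2 ⊢
    exact h2
  have hk : ∀ k : ℕ, M r0 ≤ (1 / 2) ^ k * B + D * 3 := by
    intro k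
    calc M r0 ≤ _ := hind k
      _ ≤ (1 / 2) ^ k * B + D * 3 := by
        have := hB _ (hρmem k)
        have := hsum k
        gcongr
  have hlim : Tendsto (fun k : ℕ => (1 / 2 : ℝ) ^ k * B + D * 3) atTop (𝓝 (0 * B + D * 3)) :=
    ((tendsto_pow_atTop_nhds_zero_of_lt_one (by norm_num) (by norm_num)).mul_const B).add_const _
  have hfin : M r0 ≤ 0 * B + D * 3 := ge_of_tendsto' hlim hk
  have e4 : 0 * B + D * 3 = 3 * ((1 - τ) ^ α)⁻¹ * A / d ^ α := by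
    rw [hD, Real.mul_rpow h1τ.le hd0.le]
    have h5 : (0:ℝ) < (1 - τ) ^ α := by positivity
    have h6 : (0:ℝ) < d ^ α := by positivity
    field_simp
    ring
  rwa [e4] at hfin

/-- `x^(1-p/2) y ≤ x/2 + C y^(2/p)` for `0 < p < 2`... also true (trivially) for `p = 2`. -/
theorem dg_young_pow (p : ℝ) (hp : 0 < p) (hp2 : p ≤ 2) : ∃ C : ℝ, 0 < C ∧ ∀ x y : ℝ, 0 ≤ x → 0 ≤ y →
    x ^ (1 - p / 2) * y ≤ (1 / 2) * x + C * y ^ (2 / p) := by
  set w1 : ℝ := 1 - p / 2 with hw1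
  have hw10 : 0 ≤ w1 := by rw [hw1]; linarith
  have hw11 : w1 ≤ 1 := by rw [hw1]; linarith
  refine ⟨((2:ℝ) ^ w1) ^ (2 / p), by positivity, ?_⟩
  intro x y hx hy
  have h := Real.geom_mean_le_arith_mean2_weighted hw10 (by positivity : (0:ℝ) ≤ p / 2)
    (by positivity : (0:ℝ) ≤ x / 2) (by positivity : (0:ℝ) ≤ ((2:ℝ) ^ w1 * y) ^ (2 / p))
    (by rw [hw1]; ring)
  have e1 : (((2:ℝ) ^ w1 * y) ^ (2 / p)) ^ (p / 2) = (2:ℝ) ^ w1 * y := by
    rw [← Real.rpow_mul (by positivity)]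
    have : 2 / p * (p / 2) = 1 := by field_simp
    rw [this, Real.rpow_one]
  have e2 : (x / 2) ^ w1 * ((2:ℝ) ^ w1 * y) = x ^ w1 * y := by
    rw [Real.div_rpow hx (by norm_num)]
    have : (0:ℝ) < (2:ℝ) ^ w1 := by positivity
    field_simp
  rw [e1, e2] at h
  have e3 : ((2:ℝ) ^ w1 * y) ^ (2 / p) = ((2:ℝ) ^ w1) ^ (2 / p) * y ^ (2 / p) :=
    Real.mul_rpow (by positivity) hy
  have h4 : 0 ≤ ((2:ℝ) ^ w1) ^ (2 / p) * y ^ (2 / p) := by positivity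
  rw [e3] at h
  calc x ^ w1 * y ≤ w1 * (x / 2) + p / 2 * (((2:ℝ) ^ w1) ^ (2 / p) * y ^ (2 / p)) := h
    _ ≤ 1 * (x / 2) + 1 * (((2:ℝ) ^ w1) ^ (2 / p) * y ^ (2 / p)) := by
        gcongr
        linarith
    _ = _ := by ring

end Claimed.Agent.Lib.Dgnm
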