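import Claimed.Agent.Lib.Dgnm.Time

/-!
# Lib/Dgnm/Ode : Moser's ODE argument for the weighted mean of `w = -log u` (leaf DG-ODE)

No PDE.  `dg_MeanOde α β x0 c3 C4 w Wm Wd`: `w` continuous on `Cyl = [α,β] × closedBall x0 1`, `Wm` is `C^1`
with derivative `Wd`, and  `Wd t + c3 ∫_{B1} (w t x - Wm t)^2 dx ≤ C4`.

NORMALISATION.  For a reference time `t*` put `Wn t = Wm t - C4 (t - t*)`, `wn t x = w t x - C4 (t - t*)`;
`wn - Wn = w - Wm`, so `Wn' + c3 ∫_{B1} (wn - Wn)^2 ≤ 0`; in particular `Wn` is nonincreasing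
(`antitoneOn_of_deriv_nonpos`).

## `dg_ode_back` (DG-ODE-A), `t* = β`.
`A = {q ∈ Cyl | w q ≤ 0}` is closed in the compact cylinder, hence measurable; `mA t = vol {x | (t,x) ∈ A}`
(finite, measurable in `t`: `measurable_measure_prodMk_left`), `vol A = ∫⁻_{[α,β]} mA` (`dg_volume_slices`).
On `A`: `wn ≤ C4 (β - t) ≤ L := C4 (β - α)`.  Suppose `Wm β = Wn β > L + h`, `h = 1/(c3 δ)`.  Then
`Z t := Wn t - L ≥ Z β > h > 0` on `[α,β]`, and `∫_{B1} (wn - Wn)^2 ≥ mA t * Z t^2` (on the slice of `A`: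
`Wn - wn ≥ Z > 0`), so `Z' ≤ - c3 mA Z^2`, i.e. `(1/Z)' = -Z'/Z^2 ≥ c3 mA`.  Integrate
(`intervalIntegral.integral_eq_sub_of_hasDerivAt_of_le` for `1/Z`, whose derivative `-Wn'/Z^2` is
continuous on `[α,β]`; `intervalIntegral.integral_mono_on`): `1/Z β ≥ 1/Z α + c3 ∫ mA ≥ c3 δ`, so
`Z β ≤ h`: contradiction.

## `dg_ode_fwd` (DG-ODE-B), `t* = α`.
`a = Wm α = Wn α`, `E = {q ∈ Cyl | a + C4 (β-α) + s < w q}` (relatively open in the cylinder: measurable),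
`mE t` its slices.  On `E`: `wn > a + s`.  `Wn t ≤ a`, `Y t := a + s - Wn t ≥ s > 0`, and on the slice
`wn - Wn ≥ Y`, so `Wn' ≤ - c3 mE Y^2`, `(1/Y)' = Wn'/Y^2 ≤ - c3 mE`.  Integrate:
`c3 ∫ mE ≤ 1/Y α - 1/Y β ≤ 1/s`.
-/

set_option autoImplicit false
set_option linter.unusedSectionVars false

open Set Filter MeasureTheory Metric
open scoped Topology ContDiff

namespace Claimed.Agent.Lib.Dgnm

variable {W : Type*} [NormedAddCommGroup W] [InnerProductSpace ℝ W] [FiniteDimensional ℝ W]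
  [MeasurableSpace W] [BorelSpace W]

/-- the differential inequality for the weighted mean `Wm` of `w`. -/
structure dg_MeanOde (α β : ℝ) (x0 : W) (c3 C4 : ℝ) (w : ℝ → W → ℝ) (Wm Wd : ℝ → ℝ) : Prop where
  w_cont : ContinuousOn (fun q : ℝ × W => w q.1 q.2) (dg_Cyl α β x0 1)
  cont : ContinuousOn Wm (Icc α β)
  contd : ContinuousOn Wd (Icc α β)
  deriv : ∀ t ∈ Ioo α β, HasDerivAt Wm (Wd t) t
  ineq : ∀ t ∈ Icc α β, Wd t + c3 * ∫ x in closedBall x0 1, (w t x - Wm t) ^ 2 ≤ C4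

theorem dg_MeanOde.mono {α β α' β' : ℝ} {x0 : W} {c3 C4 : ℝ} {w : ℝ → W → ℝ} {Wm Wd : ℝ → ℝ}
    (h : dg_MeanOde α β x0 c3 C4 w Wm Wd) (hα : α ≤ α') (hβ : β' ≤ β) :
    dg_MeanOde α' β' x0 c3 C4 w Wm Wd := by
  have hsub : Icc α' β' ⊆ Icc α β := Icc_subset_Icc hα hβ
  refine ⟨h.w_cont.mono ?_, h.cont.mono hsub, h.contd.mono hsub,
    fun t ht => h.deriv t ⟨lt_of_le_of_lt hα ht.1, lt_of_lt_of_le ht.2 hβ⟩,
    fun t ht => h.ineq t (hsub ht)⟩
  exact prod_mono hsub subset_rfl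

/-- integration of a differential inequality against a slice measure. -/
theorem dg_ode_core {α β c : ℝ} (hαβ : α ≤ β) {V Vd : ℝ → ℝ} {m : ℝ → ENNReal}
    (hV : ContinuousOn V (Icc α β)) (hVd : ContinuousOn Vd (Icc α β))
    (hder : ∀ t ∈ Ioo α β, HasDerivAt V (Vd t) t)
    (h0 : ∀ t ∈ Icc α β, 0 ≤ Vd t)
    (hm : ∀ t ∈ Icc α β, ENNReal.ofReal c * m t ≤ ENNReal.ofReal (Vd t)) :
    ENNReal.ofReal c * ∫⁻ t in Icc α β, m t ≤ ENNReal.ofReal (V β - V α) := by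
  have hint : IntegrableOn Vd (Icc α β) := hVd.integrableOn_compact isCompact_Icc
  have hftc : ∫ t in α..β, Vd t = V β - V α :=
    intervalIntegral.integral_eq_sub_of_hasDerivAt_of_le hαβ hV hder
      (hVd.intervalIntegrable_of_Icc hαβ)
  rw [← hftc, intervalIntegral.integral_of_le hαβ, ← integral_Icc_eq_integral_Ioc,
    ofReal_integral_eq_lintegral_ofReal hint
      ((ae_restrict_iff' measurableSet_Icc).2 (ae_of_all _ h0)),
    ← lintegral_const_mul' _ _ ENNReal.ofReal_ne_top]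
  exact setLIntegral_mono' measurableSet_Icc hm

theorem dg_ode_slice {α β : ℝ} {x0 : W} {c3 C4 : ℝ} {w : ℝ → W → ℝ} {Wm Wd : ℝ → ℝ}
    (h : dg_MeanOde α β x0 c3 C4 w Wm Wd) {t : ℝ} (ht : t ∈ Icc α β) {T : Set W}
    (hT : MeasurableSet T) (hsub : T ⊆ closedBall x0 1) {z : ℝ} (hz : 0 ≤ z)
    (hw : ∀ x ∈ T, z ≤ |w t x - Wm t|) :
    (volume T).toReal * z ^ 2 ≤ ∫ x in closedBall x0 1, (w t x - Wm t) ^ 2 := by
  have hc : ContinuousOn (fun x => (w t x - Wm t) ^ 2) (closedBall x0 1) := by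
    have h1 : ContinuousOn (fun x : W => w t x) (closedBall x0 1) :=
      h.w_cont.comp (f := fun x : W => ((t, x) : ℝ × W))
        (continuous_const.prodMk continuous_id).continuousOn (fun x hx => ⟨ht, hx⟩)
    exact (h1.sub continuousOn_const).pow 2
  have hi : IntegrableOn (fun x => (w t x - Wm t) ^ 2) (closedBall x0 1) :=
    hc.integrableOn_compact (isCompact_closedBall x0 1)
  have hfin : volume T ≠ ⊤ :=
    ((measure_mono hsub).trans_lt (isCompact_closedBall x0 1).measure_lt_top).ne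
  calc (volume T).toReal * z ^ 2 = ∫ _x in T, z ^ 2 := by
        rw [setIntegral_const]; simp [Measure.real, smul_eq_mul]
    _ ≤ ∫ x in T, (w t x - Wm t) ^ 2 := by
        refine setIntegral_mono_on (integrableOn_const hfin) (hi.mono_set hsub) hT
          (fun x hx => ?_)
        have := hw x hx
        rw [← sq_abs (w t x - Wm t)]
        gcongr
    _ ≤ ∫ x in closedBall x0 1, (w t x - Wm t) ^ 2 :=
        setIntegral_mono_set hi (ae_of_all _ (fun x => sq_nonneg _)) hsub.eventuallyLE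

theorem dg_ode_int_nonneg {x0 : W} {w : ℝ → W → ℝ} {Wm : ℝ → ℝ} (t : ℝ) :
    0 ≤ ∫ x in closedBall x0 1, (w t x - Wm t) ^ 2 :=
  integral_nonneg (fun _ => sq_nonneg _)

theorem dg_ode_Z_deriv {α C4 : ℝ} {Wm : ℝ → ℝ} {d t : ℝ} (h : HasDerivAt Wm d t) :
    HasDerivAt (fun t => Wm t - C4 * (t - α)) (d - C4) t := by
  have h1 : HasDerivAt (fun t : ℝ => C4 * (t - α)) (C4 * 1) t :=
    ((hasDerivAt_id t).sub_const α).const_mul C4
  have h2 := h.fun_sub h1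
  rwa [mul_one] at h2

/-- `Z t = Wm t - C4 (t - α)` is nonincreasing. -/
theorem dg_ode_antitone {α β : ℝ} {x0 : W} {c3 C4 : ℝ} {w : ℝ → W → ℝ} {Wm Wd : ℝ → ℝ}
    (hc : 0 < c3) (h : dg_MeanOde α β x0 c3 C4 w Wm Wd) :
    AntitoneOn (fun t => Wm t - C4 * (t - α)) (Icc α β) := by
  have hder : ∀ t ∈ Ioo α β, HasDerivAt (fun t => Wm t - C4 * (t - α)) (Wd t - C4) t :=
    fun t ht => dg_ode_Z_deriv (h.deriv t ht)
  refine antitoneOn_of_deriv_nonpos (convex_Icc α β) ?_ ?_ ?_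
  · exact h.cont.sub (by fun_prop)
  · rw [interior_Icc]
    exact fun t ht => (hder t ht).differentiableAt.differentiableWithinAt
  · rw [interior_Icc]
    intro t ht
    rw [(hder t ht).deriv]
    have h1 := h.ineq t (Ioo_subset_Icc_self ht)
    have h2 := dg_ode_int_nonneg (x0 := x0) (w := w) (Wm := Wm) t
    nlinarith

/-- the pointwise differential inequality in `ENNReal` form. -/
theorem dg_ode_pointwise {α β : ℝ} {x0 : W} {c3 C4 : ℝ} {w : ℝ → W → ℝ} {Wm Wd : ℝ → ℝ}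
    (hc : 0 < c3) (h : dg_MeanOde α β x0 c3 C4 w Wm Wd) {A : Set (ℝ × W)} (hA : MeasurableSet A)
    (hsub : A ⊆ dg_Cyl α β x0 1) {D : ℝ → ℝ} (hD : ∀ t ∈ Icc α β, 0 < D t)
    (hw : ∀ q ∈ A, D q.1 ≤ |w q.1 q.2 - Wm q.1|) {t : ℝ} (ht : t ∈ Icc α β) :
    0 ≤ -(Wd t - C4) / D t ^ 2 ∧
    ENNReal.ofReal c3 * volume {x | (t, x) ∈ A} ≤ ENNReal.ofReal (-(Wd t - C4) / D t ^ 2) := by
  have hT : MeasurableSet {x | (t, x) ∈ A} := measurable_prodMk_left hA
  have hTs : {x | (t, x) ∈ A} ⊆ closedBall x0 1 := fun x hx => (hsub hx).2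
  have hfin : volume {x | (t, x) ∈ A} ≠ ⊤ :=
    ((measure_mono hTs).trans_lt (isCompact_closedBall x0 1).measure_lt_top).ne
  have h1 := dg_ode_slice h ht hT hTs (hD t ht).le (fun x hx => hw (t, x) hx)
  have h2 := h.ineq t ht
  have hD2 : 0 < D t ^ 2 := pow_pos (hD t ht) 2
  have h3 : c3 * (volume {x | (t, x) ∈ A}).toReal ≤ -(Wd t - C4) / D t ^ 2 := by
    rw [le_div_iff₀ hD2]
    nlinarith
  refine ⟨le_trans (by positivity) h3, ?_⟩
  calc ENNReal.ofReal c3 * volume {x | (t, x) ∈ A}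
      = ENNReal.ofReal (c3 * (volume {x | (t, x) ∈ A}).toReal) := by
        rw [ENNReal.ofReal_mul hc.le, ENNReal.ofReal_toReal hfin]
    _ ≤ _ := ENNReal.ofReal_le_ofReal h3

theorem dg_ode_back {α β : ℝ} {x0 : W} {c3 C4 : ℝ} {w : ℝ → W → ℝ} {Wm Wd : ℝ → ℝ} (hαβ : α ≤ β)
    (hc : 0 < c3) (hC : 0 ≤ C4) (h : dg_MeanOde α β x0 c3 C4 w Wm Wd) {δ : ℝ} (hδ : 0 < δ)
    (hmeas : ENNReal.ofReal δ ≤ volume {q : ℝ × W | q ∈ dg_Cyl α β x0 1 ∧ w q.1 q.2 ≤ 0}) :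
    Wm β ≤ C4 * (β - α) + 1 / (c3 * δ) := by
  by_contra hcon
  push Not at hcon
  set A : Set (ℝ × W) := {q : ℝ × W | q ∈ dg_Cyl α β x0 1 ∧ w q.1 q.2 ≤ 0} with hAdef
  have hAcl : IsClosed A :=
    h.w_cont.preimage_isClosed_of_isClosed (dg_isCompact_cyl α β x0 1).isClosed isClosed_Iic
  have hA : MeasurableSet A := hAcl.measurableSet
  have hsub : A ⊆ dg_Cyl α β x0 1 := fun q hq => hq.1
  set Z : ℝ → ℝ := fun t => Wm t - C4 * (t - α) with hZ
  have hanti := dg_ode_antitone hc h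
  have hh : 0 < 1 / (c3 * δ) := by positivity
  have hZβ : 1 / (c3 * δ) < Z β := by simp only [hZ]; linarith
  have hZpos : ∀ t ∈ Icc α β, 0 < Z t := fun t ht =>
    lt_of_lt_of_le (hh.trans hZβ) (hanti ht (right_mem_Icc.2 hαβ) ht.2)
  have hw : ∀ q ∈ A, Z q.1 ≤ |w q.1 q.2 - Wm q.1| := by
    intro q hq
    have h1 : α ≤ q.1 := hq.1.1.1
    have h2 : 0 ≤ C4 * (q.1 - α) := mul_nonneg hC (by linarith)
    have h3 := hq.2
    rw [abs_sub_comm]
    refine le_trans ?_ (le_abs_self _)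
    simp only [hZ]; linarith
  have hpt := fun t ht => dg_ode_pointwise hc h hA hsub hZpos hw (t := t) ht
  have hZc : ContinuousOn Z (Icc α β) := h.cont.sub (by fun_prop)
  have hder : ∀ t ∈ Ioo α β, HasDerivAt (fun t => (Z t)⁻¹) (-(Wd t - C4) / Z t ^ 2) t := by
    intro t ht
    have h2 : HasDerivAt Z (Wd t - C4) t := dg_ode_Z_deriv (h.deriv t ht)
    exact h2.fun_inv (hZpos t (Ioo_subset_Icc_self ht)).ne'
  have hcore := dg_ode_core (c := c3) hαβ (V := fun t => (Z t)⁻¹)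
    (Vd := fun t => -(Wd t - C4) / Z t ^ 2) (m := fun t => volume {x | (t, x) ∈ A})
    (hZc.inv₀ (fun t ht => (hZpos t ht).ne'))
    (((h.contd.sub continuousOn_const).neg).div (hZc.pow 2)
      (fun t ht => (pow_pos (hZpos t ht) 2).ne'))
    hder (fun t ht => (hpt t ht).1) (fun t ht => (hpt t ht).2)
  rw [← dg_volume_slices hA hsub] at hcore
  have h5 : ENNReal.ofReal (c3 * δ) ≤ ENNReal.ofReal ((Z β)⁻¹ - (Z α)⁻¹) := by
    rw [ENNReal.ofReal_mul hc.le]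
    exact le_trans (by gcongr) hcore
  have hZα : 0 < (Z α)⁻¹ := inv_pos.2 (hZpos α (left_mem_Icc.2 hαβ))
  have hZβ' : 0 < Z β := hZpos β (right_mem_Icc.2 hαβ)
  have h6 : c3 * δ ≤ (Z β)⁻¹ - (Z α)⁻¹ := by
    by_contra h7
    push Not at h7
    have h8 : 0 < c3 * δ := by positivity
    have := (ENNReal.ofReal_le_ofReal_iff' ).1 h5
    rcases this with h9 | h9
    · linarith
    · linarith
  have h7 : c3 * δ < (Z β)⁻¹ := by linarith
  have h8 : Z β < 1 / (c3 * δ) := by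
    rw [lt_div_iff₀ (by positivity)]
    have := mul_lt_mul_of_pos_left h7 hZβ'
    rwa [mul_inv_cancel₀ hZβ'.ne'] at this
  linarith

theorem dg_ode_fwd {α β : ℝ} {x0 : W} {c3 C4 : ℝ} {w : ℝ → W → ℝ} {Wm Wd : ℝ → ℝ} (hαβ : α ≤ β)
    (hc : 0 < c3) (hC : 0 ≤ C4) (h : dg_MeanOde α β x0 c3 C4 w Wm Wd) {s : ℝ} (hs : 0 < s) :
    volume {q : ℝ × W | q ∈ dg_Cyl α β x0 1 ∧ Wm α + C4 * (β - α) + s < w q.1 q.2}
      ≤ ENNReal.ofReal (1 / (c3 * s)) := by
  set E : Set (ℝ × W) :=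
    {q : ℝ × W | q ∈ dg_Cyl α β x0 1 ∧ Wm α + C4 * (β - α) + s < w q.1 q.2} with hEdef
  have hcyl := (dg_isCompact_cyl α β x0 1).isClosed
  have hE : MeasurableSet E := by
    have h1 : IsClosed (dg_Cyl α β x0 1 ∩
        (fun q : ℝ × W => w q.1 q.2) ⁻¹' Iic (Wm α + C4 * (β - α) + s)) :=
      h.w_cont.preimage_isClosed_of_isClosed hcyl isClosed_Iic
    have h2 : E = dg_Cyl α β x0 1 \ (dg_Cyl α β x0 1 ∩
        (fun q : ℝ × W => w q.1 q.2) ⁻¹' Iic (Wm α + C4 * (β - α) + s)) := by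
      ext q
      simp only [hEdef, mem_ofPred_eq, Set.mem_sdiff, mem_inter_iff, mem_preimage, mem_Iic, not_and,
        not_le]
      constructor
      · rintro ⟨h1, h2⟩; exact ⟨h1, fun _ => h2⟩
      · rintro ⟨h1, h2⟩; exact ⟨h1, h2 h1⟩
    rw [h2]
    exact hcyl.measurableSet.diff h1.measurableSet
  have hsub : E ⊆ dg_Cyl α β x0 1 := fun q hq => hq.1
  set Z : ℝ → ℝ := fun t => Wm t - C4 * (t - α) with hZ
  have hanti := dg_ode_antitone hc h
  have hZα : Z α = Wm α := by simp [hZ]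
  set Y : ℝ → ℝ := fun t => Wm α + s - Z t with hY
  have hYs : ∀ t ∈ Icc α β, s ≤ Y t := fun t ht => by
    have := hanti (left_mem_Icc.2 hαβ) ht ht.1
    simp only [hY]
    have h2 : Z t ≤ Z α := this
    linarith
  have hYpos : ∀ t ∈ Icc α β, 0 < Y t := fun t ht => hs.trans_le (hYs t ht)
  have hw : ∀ q ∈ E, Y q.1 ≤ |w q.1 q.2 - Wm q.1| := by
    intro q hq
    have h1 : q.1 ≤ β := hq.1.1.2
    have h2 : C4 * (q.1 - α) ≤ C4 * (β - α) := mul_le_mul_of_nonneg_left (by linarith) hC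
    have h3 := hq.2
    refine le_trans ?_ (le_abs_self _)
    simp only [hY, hZ]; linarith
  have hpt := fun t ht => dg_ode_pointwise hc h hE hsub hYpos hw (t := t) ht
  have hZc : ContinuousOn Z (Icc α β) := h.cont.sub (by fun_prop)
  have hYc : ContinuousOn Y (Icc α β) := continuousOn_const.sub hZc
  have hder : ∀ t ∈ Ioo α β, HasDerivAt (fun t => -(Y t)⁻¹) (-(Wd t - C4) / Y t ^ 2) t := by
    intro t ht
    have h2 : HasDerivAt Z (Wd t - C4) t := dg_ode_Z_deriv (h.deriv t ht)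
    have h3 : HasDerivAt Y (-(Wd t - C4)) t := by simpa using h2.const_sub (Wm α + s)
    have h4 := (h3.fun_inv (hYpos t (Ioo_subset_Icc_self ht)).ne').fun_neg
    rw [neg_neg, ← neg_div] at h4
    exact h4
  have hcore := dg_ode_core (c := c3) hαβ (V := fun t => -(Y t)⁻¹)
    (Vd := fun t => -(Wd t - C4) / Y t ^ 2) (m := fun t => volume {x | (t, x) ∈ E})
    (hYc.inv₀ (fun t ht => (hYpos t ht).ne')).neg
    (((h.contd.sub continuousOn_const).neg).div (hYc.pow 2)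
      (fun t ht => (pow_pos (hYpos t ht) 2).ne'))
    hder (fun t ht => (hpt t ht).1) (fun t ht => (hpt t ht).2)
  rw [← dg_volume_slices hE hsub] at hcore
  have hYα : Y α = s := by simp [hY, hZα]
  have hYβ : 0 < (Y β)⁻¹ := inv_pos.2 (hYpos β (right_mem_Icc.2 hαβ))
  have h5 : ENNReal.ofReal c3 * volume E ≤ ENNReal.ofReal (1 / s) := by
    refine hcore.trans (ENNReal.ofReal_le_ofReal ?_)
    rw [hYα]
    have : (1 : ℝ) / s = s⁻¹ := one_div s
    linarith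
  have h6 : ENNReal.ofReal c3⁻¹ * ENNReal.ofReal c3 = 1 := by
    rw [← ENNReal.ofReal_mul (inv_nonneg.2 hc.le), inv_mul_cancel₀ hc.ne', ENNReal.ofReal_one]
  calc volume E = ENNReal.ofReal c3⁻¹ * (ENNReal.ofReal c3 * volume E) := by
        rw [← mul_assoc, h6, one_mul]
    _ ≤ ENNReal.ofReal c3⁻¹ * ENNReal.ofReal (1 / s) := by gcongr
    _ = ENNReal.ofReal (1 / (c3 * s)) := by
        rw [← ENNReal.ofReal_mul (inv_nonneg.2 hc.le)]
        congr 1
        field_simp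

end Claimed.Agent.Lib.Dgnm
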