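import Claimed.Agent.Lib.Dgnm.PoincareA

/-!
# Lib/Dgnm/Poincare : weighted Poincaré inequality around a weighted mean (leaf DG-POIN-B)

## `dg_poincare` (leaf DG-POIN-B)
`ν` continuous with `lam ψ ≤ ν ≤ Lam ψ`, `Mν = ∫ ν ≥ lam vol(closedBall x0 1) > 0`, `Wν = (∫ ν w)/Mν`.
VARIANCE IDENTITY: `∫∫ ν x ν y (w x - w y)^2 = 2 Mν ∫ ν (w - Wν)^2` (expand the square; every function
`ν w^k` is continuous with compact support).  Hence
`lam ∫ ψ (w - Wν)^2 ≤ ∫ ν (w - Wν)^2 = (2 Mν)^{-1} ∫∫ ν ν (w x - w y)^2 ≤ Lam^2 (2 Mν)^{-1} ∫∫ ψ ψ (..)^2`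
and `dg_poincare_double`.
-/

set_option autoImplicit false
set_option linter.unusedSectionVars false

open Set Filter MeasureTheory Metric
open scoped Topology ContDiff

namespace Claimed.Agent.Lib.Dgnm

variable {W : Type*} [NormedAddCommGroup W] [InnerProductSpace ℝ W] [FiniteDimensional ℝ W]
  [MeasurableSpace W] [BorelSpace W]

theorem dg_pb_integrable {ρ w : W → ℝ} (h0 : Integrable ρ) (h1 : Integrable (fun x => ρ x * w x))
    (h2 : Integrable (fun x => ρ x * w x ^ 2)) (c : ℝ) :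
    Integrable (fun x => ρ x * (w x - c) ^ 2) := by
  have : (fun x => ρ x * (w x - c) ^ 2) =
      fun x => ρ x * w x ^ 2 - 2 * c * (ρ x * w x) + c ^ 2 * ρ x := by
    funext x; ring
  rw [this]
  exact (h2.sub (h1.const_mul _)).add (h0.const_mul _)

theorem dg_pb_expand {ρ w : W → ℝ} (h0 : Integrable ρ) (h1 : Integrable (fun x => ρ x * w x))
    (h2 : Integrable (fun x => ρ x * w x ^ 2)) (c : ℝ) :
    ∫ x, ρ x * (w x - c) ^ 2 =
      (∫ x, ρ x * w x ^ 2) - 2 * c * (∫ x, ρ x * w x) + c ^ 2 * ∫ x, ρ x := by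
  have : (fun x => ρ x * (w x - c) ^ 2) =
      fun x => ρ x * w x ^ 2 - 2 * c * (ρ x * w x) + c ^ 2 * ρ x := by
    funext x; ring
  have hs : Integrable (fun x => ρ x * w x ^ 2 - 2 * c * (ρ x * w x)) := h2.sub (h1.const_mul _)
  rw [this, integral_add hs (h0.const_mul _),
    integral_sub h2 (h1.const_mul _), integral_const_mul, integral_const_mul]

theorem dg_pb_double {ρ w : W → ℝ} (h0 : Integrable ρ) (h1 : Integrable (fun x => ρ x * w x))
    (h2 : Integrable (fun x => ρ x * w x ^ 2)) :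
    ∫ x, ∫ y, ρ x * ρ y * (w x - w y) ^ 2 =
      2 * (∫ x, ρ x) * (∫ x, ρ x * w x ^ 2) - 2 * (∫ x, ρ x * w x) ^ 2 := by
  have hin : ∀ x, ∫ y, ρ x * ρ y * (w x - w y) ^ 2 =
      (ρ x * w x ^ 2) * (∫ y, ρ y) - 2 * (ρ x * w x) * (∫ y, ρ y * w y)
        + ρ x * ∫ y, ρ y * w y ^ 2 := by
    intro x
    have : (fun y => ρ x * ρ y * (w x - w y) ^ 2) = fun y =>
        (ρ x * w x ^ 2) * ρ y - 2 * (ρ x * w x) * (ρ y * w y) + ρ x * (ρ y * w y ^ 2) := by
      funext y; ring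
    have hs : Integrable (fun y => (ρ x * w x ^ 2) * ρ y - 2 * (ρ x * w x) * (ρ y * w y)) :=
      (h0.const_mul _).sub (h1.const_mul _)
    rw [this, integral_add hs (h2.const_mul _),
      integral_sub (h0.const_mul _) (h1.const_mul _), integral_const_mul, integral_const_mul,
      integral_const_mul]
  simp_rw [hin]
  have hs : Integrable (fun x => (ρ x * w x ^ 2) * (∫ y, ρ y)
      - 2 * (ρ x * w x) * (∫ y, ρ y * w y)) :=
    (h2.mul_const _).sub ((h1.const_mul _).mul_const _)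
  rw [integral_add hs (h0.mul_const _),
    integral_sub (h2.mul_const _) ((h1.const_mul _).mul_const _), integral_mul_const,
    integral_mul_const, integral_mul_const, integral_const_mul]
  ring

variable (W) in
theorem dg_poincare (lam Lam : ℝ) (hl : 0 < lam) (hL : lam ≤ Lam) : ∃ C : ℝ, 0 < C ∧
    ∀ (x0 : W) (S : Set W) (w ψ ν : W → ℝ), IsOpen S → closedBall x0 2 ⊆ S → ContDiffOn ℝ 1 w S →
    dg_IsWeight x0 ψ → Continuous ν → (∀ x, lam * ψ x ≤ ν x) → (∀ x, ν x ≤ Lam * ψ x) →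
    ∫ x, ψ x * (w x - (∫ y, ν y * w y) / ∫ y, ν y) ^ 2 ≤ C * ∫ x, ψ x * ‖fderiv ℝ w x‖ ^ 2 := by
  obtain ⟨C0, hC0, hD⟩ := dg_poincare_double W
  set V : ℝ := (volume (closedBall (0:W) 1)).toReal with hVdef
  have hV : 0 < V :=
    ENNReal.toReal_pos (measure_closedBall_pos _ _ one_pos).ne' measure_closedBall_lt_top.ne
  have hLam : 0 < Lam := hl.trans_le hL
  refine ⟨Lam * C0 / (2 * lam * V), by positivity, ?_⟩
  intro x0 S w ψ ν hS hBS hw hψ hνc hν1 hν2
  have h0 : ∀ x, x ∉ closedBall x0 2 → ψ x = 0 := by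
    intro x hx
    apply hψ.eq_zero
    simp only [mem_closedBall, dist_eq_norm, not_le] at hx
    exact hx.le
  have h0ν : ∀ x, x ∉ closedBall x0 2 → ν x = 0 := by
    intro x hx
    have h1 := hν1 x
    have h2 := hν2 x
    rw [h0 x hx] at h1 h2
    linarith
  -- integrability of `ρ w^k`
  have key : ∀ (ρ u : W → ℝ), Continuous ρ → (∀ x, x ∉ closedBall x0 2 → ρ x = 0) →
      ContinuousOn u S → Integrable (fun x => ρ x * u x) := by
    intro ρ u hρ hρ0 hu
    apply (dg_pa_cont_mul hS isClosed_closedBall hBS hρ hρ0 hu).integrable_of_hasCompactSupport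
    exact HasCompactSupport.intro (isCompact_closedBall x0 2) (fun z hz => by simp [hρ0 z hz])
  have p0 : Integrable ψ := by simpa using key ψ (fun _ => 1) hψ.cont h0 continuousOn_const
  have p1 : Integrable (fun x => ψ x * w x) := key ψ w hψ.cont h0 hw.continuousOn
  have p2 : Integrable (fun x => ψ x * w x ^ 2) := key ψ _ hψ.cont h0 (hw.continuousOn.pow 2)
  have n0 : Integrable ν := by simpa using key ν (fun _ => 1) hνc h0ν continuousOn_const
  have n1 : Integrable (fun x => ν x * w x) := key ν w hνc h0ν hw.continuousOn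
  have n2 : Integrable (fun x => ν x * w x ^ 2) := key ν _ hνc h0ν (hw.continuousOn.pow 2)
  set P0 := ∫ x, ψ x with hP0
  set P1 := ∫ x, ψ x * w x with hP1
  set P2 := ∫ x, ψ x * w x ^ 2 with hP2
  set N0 := ∫ x, ν x with hN0
  set N1 := ∫ x, ν x * w x with hN1
  set N2 := ∫ x, ν x * w x ^ 2 with hN2
  set Ig := ∫ x, ψ x * ‖fderiv ℝ w x‖ ^ 2 with hIg
  have hIg0 : 0 ≤ Ig := integral_nonneg (fun x => mul_nonneg (hψ.nonneg x) (sq_nonneg _))
  -- `V ≤ P0`
  have hVP : V ≤ P0 := by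
    have e1 : ∫ x in closedBall x0 1, ψ x = V := by
      rw [setIntegral_congr_fun measurableSet_closedBall (fun x hx => hψ.eq_one x hx),
        setIntegral_const, smul_eq_mul, mul_one, hVdef, measureReal_def,
        Measure.addHaar_closedBall_center]
    rw [← e1]
    exact setIntegral_le_integral p0 (ae_of_all _ hψ.nonneg)
  have hP0pos : 0 < P0 := hV.trans_le hVP
  have hN0pos : 0 < N0 := by
    have : lam * P0 ≤ N0 := by
      rw [hP0, ← integral_const_mul]
      exact integral_mono (p0.const_mul _) n0 hν1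
    exact (mul_pos hl hP0pos).trans_le this
  set c := N1 / N0 with hc
  set c' := P1 / P0 with hc'
  -- chain of inequalities
  have s1 : lam * ∫ x, ψ x * (w x - c) ^ 2 ≤ ∫ x, ν x * (w x - c) ^ 2 := by
    rw [← integral_const_mul]
    apply integral_mono ((dg_pb_integrable p0 p1 p2 c).const_mul _) (dg_pb_integrable n0 n1 n2 c)
    intro x
    have := mul_le_mul_of_nonneg_right (hν1 x) (sq_nonneg (w x - c))
    simpa [mul_assoc] using this
  have s2 : ∫ x, ν x * (w x - c) ^ 2 ≤ ∫ x, ν x * (w x - c') ^ 2 := by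
    have E : ∀ d, ∫ x, ν x * (w x - d) ^ 2 = N2 - 2 * d * N1 + d ^ 2 * N0 :=
      dg_pb_expand n0 n1 n2
    rw [E c, E c']
    have e : N1 = c * N0 := by rw [hc]; field_simp
    rw [e]
    nlinarith [mul_nonneg hN0pos.le (sq_nonneg (c - c'))]
  have s3 : ∫ x, ν x * (w x - c') ^ 2 ≤ Lam * ∫ x, ψ x * (w x - c') ^ 2 := by
    rw [← integral_const_mul]
    apply integral_mono (dg_pb_integrable n0 n1 n2 c') ((dg_pb_integrable p0 p1 p2 c').const_mul _)
    intro x
    have := mul_le_mul_of_nonneg_right (hν2 x) (sq_nonneg (w x - c'))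
    simpa [mul_assoc] using this
  have s4 : 2 * P0 * ∫ x, ψ x * (w x - c') ^ 2 = ∫ x, ∫ y, ψ x * ψ y * (w x - w y) ^ 2 := by
    have E : ∫ x, ψ x * (w x - c') ^ 2 = P2 - 2 * c' * P1 + c' ^ 2 * P0 :=
      dg_pb_expand p0 p1 p2 c'
    have E2 : ∫ x, ∫ y, ψ x * ψ y * (w x - w y) ^ 2 = 2 * P0 * P2 - 2 * P1 ^ 2 :=
      dg_pb_double p0 p1 p2
    rw [E, E2]
    have e : P1 = c' * P0 := by rw [hc']; field_simp
    rw [e]
    ring
  have s5 := hD x0 S w ψ hS hBS hw hψ
  rw [← s4] at s5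
  set X := ∫ x, ψ x * (w x - c) ^ 2 with hX
  set Y := ∫ x, ψ x * (w x - c') ^ 2 with hY
  have hY0 : 0 ≤ Y := integral_nonneg (fun x => mul_nonneg (hψ.nonneg x) (sq_nonneg _))
  have s6 : lam * X ≤ Lam * Y := s1.trans (s2.trans s3)
  have s7 : 2 * V * Y ≤ C0 * Ig := le_trans (by gcongr) s5
  rw [div_mul_eq_mul_div, le_div_iff₀ (by positivity)]
  calc X * (2 * lam * V) = 2 * V * (lam * X) := by ring
    _ ≤ 2 * V * (Lam * Y) := by gcongr
    _ = Lam * (2 * V * Y) := by ring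
    _ ≤ Lam * (C0 * Ig) := by gcongr
    _ = _ := by ring

end Claimed.Agent.Lib.Dgnm
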