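import Claimed.Agent.Lib.Dgnm.SliceLog
import Claimed.Agent.Lib.Dgnm.Poincare
import Claimed.Agent.Lib.Dgnm.Cutoff
import Claimed.Agent.Lib.Dgnm.Ode

/-!
# Lib/Dgnm/LogMean : the differential inequality for the weighted mean of `-log u` (leaf DG-LOG2)

`u > 0` supersolution (homogeneous) on `I × S`, `Icc α β ⊆ I`, `closedBall x0 2 ⊆ S`.
`η` := cutoff from `dg_cutoff_exists` with `ρ = 1`, `R = 2` (constant `Cc`, so `‖dη‖ ≤ Cc`), `ψ = η^2`
(`dg_IsWeight x0 ψ`).  `w = -log u`, `w_t = -u_t/u` (`dg_Reg.log`, `.neg`), `‖dw‖^2 = ‖du‖^2/u^2`.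
`Mm t = ∫ η^2 mu`, `Y t = ∫ η^2 (mu w)`, `Wm = Y/Mm`.  `lam v1 ≤ Mm ≤ Lam v2`, `v1 = vol(closedBall x0 1)`,
`v2 = vol(closedBall x0 2)` (real numbers independent of `x0`: `Measure.addHaar_closedBall`).
By `dg_integral_hasDerivAt` (cutoff `η^2`, pairs `(mu, mudt)`, `(mu w, mudt w + mu w_t)`):
`Mm' = ∫ η^2 mudt`, `Y' = ∫ η^2 (mudt w + mu w_t)`,
`Wd := (Y' - Wm Mm')/Mm = (1/Mm) [ ∫ η^2 mudt (w - Wm) + ∫ η^2 mu w_t ]`, continuous on `Icc α β`
(`dg_integral_continuousOn`).
* `dg_slice_log`: `∫ η^2 mu w_t + (lam/2) ∫ η^2 ‖dw‖^2 ≤ C1 ∫ (η^2 + ‖dη‖^2) ≤ C1 (1 + Cc^2) v2`.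
* `dg_poincare` with `ν = η^2 mu(t,·)` (continuous by `dg_continuous_mul`), `X := ∫ η^2 (w - Wm)^2 ≤ CP ∫ η^2 ‖dw‖^2`.
* `|∫ η^2 mudt (w - Wm)| ≤ Lam ∫ η^2 |w - Wm| ≤ Lam (ε X + v2/(4ε))`, `ε = lam/(4 CP Lam)`.
So `Mm Wd + (lam/(4 CP)) X ≤ C' := C1 (1 + Cc^2) v2 + Lam v2/(4ε)`; divide by `Mm ∈ [lam v1, Lam v2]`:
`Wd + c3 X ≤ C4`, `c3 = lam/(4 CP Lam v2)`, `C4 = C'/(lam v1)`; finally `X ≥ ∫_{closedBall x0 1} (w - Wm)^2`.
-/

set_option autoImplicit false
set_option linter.unusedSectionVars false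

open Set Filter MeasureTheory Metric
open scoped Topology ContDiff

namespace Claimed.Agent.Lib.Dgnm

variable {W : Type*} [NormedAddCommGroup W] [InnerProductSpace ℝ W] [FiniteDimensional ℝ W]
  [MeasurableSpace W] [BorelSpace W]

theorem dg_IsWeight.lm_tsupport {x0 : W} {ψ : W → ℝ} (h : dg_IsWeight x0 ψ) :
    tsupport ψ ⊆ closedBall x0 2 := by
  apply closure_minimal _ isClosed_closedBall
  intro x hx
  by_contra hx2
  apply hx
  apply h.eq_zero
  simp only [mem_closedBall, dist_eq_norm, not_le] at hx2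
  exact hx2.le

theorem dg_IsWeight.lm_cpt {x0 : W} {ψ : W → ℝ} (h : dg_IsWeight x0 ψ) : HasCompactSupport ψ :=
  (isCompact_closedBall x0 2).of_isClosed_subset (isClosed_tsupport ψ) h.lm_tsupport

theorem dg_IsWeight.lm_zero {x0 : W} {ψ : W → ℝ} (h : dg_IsWeight x0 ψ) {S : Set W}
    (hB : closedBall x0 2 ⊆ S) {x : W} (hx : x ∉ S) : ψ x = 0 := by
  apply h.eq_zero
  have : x ∉ closedBall x0 2 := fun h' => hx (hB h')
  simp only [mem_closedBall, dist_eq_norm, not_le] at this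
  exact this.le

/-- `vol(closedBall 1) ≤ ∫ ψ ≤ vol(closedBall 2)`. -/
theorem dg_IsWeight.lm_mass {x0 : W} {ψ : W → ℝ} (h : dg_IsWeight x0 ψ) :
    (volume (closedBall (0:W) 1)).toReal ≤ ∫ x, ψ x ∧
      ∫ x, ψ x ≤ (volume (closedBall (0:W) 2)).toReal := by
  have hi : Integrable ψ := h.cont.integrable_of_hasCompactSupport h.lm_cpt
  constructor
  · have e1 : ∫ x in closedBall x0 1, ψ x = (volume (closedBall (0:W) 1)).toReal := by
      rw [setIntegral_congr_fun measurableSet_closedBall (fun x hx => h.eq_one x hx),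
        setIntegral_const, smul_eq_mul, mul_one, measureReal_def,
        Measure.addHaar_closedBall_center]
    rw [← e1]
    exact setIntegral_le_integral hi (ae_of_all _ h.nonneg)
  · have e2 : ∫ x, ψ x = ∫ x in closedBall x0 2, ψ x := by
      symm
      apply setIntegral_eq_integral_of_forall_compl_eq_zero
      intro x hx
      exact h.lm_zero subset_rfl hx
    have e3 : ∫ _x in closedBall x0 2, (1:ℝ) = (volume (closedBall (0:W) 2)).toReal := by
      rw [setIntegral_const, smul_eq_mul, mul_one, measureReal_def,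
        Measure.addHaar_closedBall_center]
    rw [e2, ← e3]
    exact setIntegral_mono_on hi.integrableOn
      (integrableOn_const (isCompact_closedBall x0 2).measure_lt_top.ne) measurableSet_closedBall
      (fun x _ => h.le_one x)

theorem dg_lm_fixed {S : Set W} (hS : IsOpen S) {x0 : W} (hB : closedBall x0 2 ⊆ S) {ψ : W → ℝ}
    (hψ : dg_IsWeight x0 ψ) {m md w wt : W → ℝ} (hm : ContinuousOn m S) (hmd : ContinuousOn md S)
    (hw : ContinuousOn w S) (hwt : ContinuousOn wt S) {lam Lam : ℝ} (hl : 0 < lam) (hL : lam ≤ Lam)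
    (hm1 : ∀ x ∈ S, lam ≤ m x) (hm2 : ∀ x ∈ S, m x ≤ Lam) (hmd1 : ∀ x ∈ S, |md x| ≤ Lam)
    {CP B1 G v1 v2 Wm : ℝ} (hCP : 0 < CP) (hB1 : 0 ≤ B1)
    (hv1 : v1 = (volume (closedBall (0:W) 1)).toReal)
    (hv2 : v2 = (volume (closedBall (0:W) 2)).toReal)
    (h1 : (∫ x, ψ x * (m x * wt x)) + lam / 2 * G ≤ B1)
    (h2 : ∫ x, ψ x * (w x - Wm) ^ 2 ≤ CP * G) :
    ((∫ x, ψ x * (md x * w x + m x * wt x)) - Wm * ∫ x, ψ x * md x) / (∫ x, ψ x * m x)
      + lam / (4 * CP * Lam * v2) * ∫ x in closedBall x0 1, (w x - Wm) ^ 2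
      ≤ (B1 + Lam * v2 * (CP * Lam / lam)) / (lam * v1) := by
  have hLam : 0 < Lam := hl.trans_le hL
  have key : ∀ H : W → ℝ, ContinuousOn H S → Integrable (fun x => ψ x * H x) := fun H hH =>
    dg_integrable_mul hS hψ.cont hψ.lm_cpt (hψ.lm_tsupport.trans hB) hH
  have hz : ∀ x, x ∉ S → ψ x = 0 := fun x hx => hψ.lm_zero hB hx
  have hv1pos : 0 < v1 := by
    rw [hv1]
    exact ENNReal.toReal_pos (measure_closedBall_pos _ _ one_pos).ne' measure_closedBall_lt_top.ne
  obtain ⟨hP1, hP2⟩ := hψ.lm_mass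
  rw [← hv1] at hP1
  rw [← hv2] at hP2
  have hv2pos : 0 < v2 := hv1pos.trans_le (hP1.trans hP2)
  have i0 : Integrable ψ := by simpa using key (fun _ => 1) continuousOn_const
  set P0 := ∫ x, ψ x with hP0
  set Mm := ∫ x, ψ x * m x with hMm
  set X := ∫ x, ψ x * (w x - Wm) ^ 2 with hX
  have hwW : ContinuousOn (fun x => w x - Wm) S := hw.sub continuousOn_const
  have iX : Integrable (fun x => ψ x * (w x - Wm) ^ 2) := key _ (hwW.pow 2)
  have hX0 : 0 ≤ X := integral_nonneg (fun x => mul_nonneg (hψ.nonneg x) (sq_nonneg _))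
  -- bounds of `Mm`
  have hMlo : lam * v1 ≤ Mm := by
    have : lam * P0 ≤ Mm := by
      rw [hP0, ← integral_const_mul]
      refine integral_mono (i0.const_mul _) (key _ hm) (fun x => ?_)
      by_cases hx : x ∈ S
      · have := mul_le_mul_of_nonneg_left (hm1 x hx) (hψ.nonneg x)
        show lam * ψ x ≤ ψ x * m x
        linarith
      · show lam * ψ x ≤ ψ x * m x
        rw [hz x hx]; simp
    exact le_trans (mul_le_mul_of_nonneg_left hP1 hl.le) this
  have hMhi : Mm ≤ Lam * v2 := by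
    have : Mm ≤ Lam * P0 := by
      rw [hP0, ← integral_const_mul]
      refine integral_mono (key _ hm) (i0.const_mul _) (fun x => ?_)
      by_cases hx : x ∈ S
      · have := mul_le_mul_of_nonneg_left (hm2 x hx) (hψ.nonneg x)
        show ψ x * m x ≤ Lam * ψ x
        linarith
      · show ψ x * m x ≤ Lam * ψ x
        rw [hz x hx]; simp
    exact le_trans this (mul_le_mul_of_nonneg_left hP2 hLam.le)
  have hMpos : 0 < Mm := lt_of_lt_of_le (by positivity) hMlo
  -- the numerator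
  set T := ∫ x, ψ x * (md x * (w x - Wm)) with hT
  have iT : Integrable (fun x => ψ x * (md x * (w x - Wm))) := key _ (hmd.mul hwW)
  have i1 : Integrable (fun x => ψ x * (m x * wt x)) := key _ (hm.mul hwt)
  have i2 : Integrable (fun x => ψ x * md x) := key _ hmd
  have hnum : (∫ x, ψ x * (md x * w x + m x * wt x)) - Wm * ∫ x, ψ x * md x
      = T + ∫ x, ψ x * (m x * wt x) := by
    have i3 : Integrable (fun x => ψ x * (md x * w x + m x * wt x)) :=
      key (fun x => md x * w x + m x * wt x) ((hmd.mul hw).add (hm.mul hwt))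
    rw [hT, ← integral_const_mul, ← integral_add iT i1, ← integral_sub i3 (i2.const_mul _)]
    congr 1
    funext x
    ring
  set ε := lam / (4 * CP * Lam) with hε
  have hεpos : 0 < ε := by positivity
  have hTle : T ≤ Lam * ε * X + Lam * (CP * Lam / lam) * P0 := by
    rw [hX, hP0, ← integral_const_mul, ← integral_const_mul,
      ← integral_add (iX.const_mul _) (i0.const_mul _)]
    refine integral_mono iT ((iX.const_mul _).add (i0.const_mul _)) (fun x => ?_)
    show ψ x * (md x * (w x - Wm)) ≤ Lam * ε * (ψ x * (w x - Wm) ^ 2) + Lam * (CP * Lam / lam) * ψ x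
    by_cases hx : x ∈ S
    · set a := w x - Wm with ha
      have hq : CP * Lam / lam = 1 / (4 * ε) := by
        rw [hε]; field_simp
      have h3 : md x * a ≤ Lam * |a| := by
        calc md x * a ≤ |md x * a| := le_abs_self _
          _ = |md x| * |a| := abs_mul _ _
          _ ≤ Lam * |a| := mul_le_mul_of_nonneg_right (hmd1 x hx) (abs_nonneg _)
      have h4 : |a| ≤ ε * a ^ 2 + 1 / (4 * ε) := by
        have h5 : 0 ≤ (2 * ε * |a| - 1) ^ 2 := sq_nonneg _
        have h6 : |a| ^ 2 = a ^ 2 := sq_abs a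
        have h7 : ε * a ^ 2 + 1 / (4 * ε) - |a| = (2 * ε * |a| - 1) ^ 2 / (4 * ε) := by
          field_simp
          rw [← h6]; ring
        have h8 : 0 ≤ (2 * ε * |a| - 1) ^ 2 / (4 * ε) := by positivity
        linarith
      rw [hq]
      have h9 : md x * a ≤ Lam * (ε * a ^ 2 + 1 / (4 * ε)) :=
        h3.trans (mul_le_mul_of_nonneg_left h4 hLam.le)
      have := mul_le_mul_of_nonneg_left h9 (hψ.nonneg x)
      calc ψ x * (md x * a) ≤ ψ x * (Lam * (ε * a ^ 2 + 1 / (4 * ε))) := this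
        _ = _ := by ring
    · rw [hz x hx]; simp
  have hLε : Lam * ε = lam / (4 * CP) := by rw [hε]; field_simp
  have hG : X / CP ≤ G := by rw [div_le_iff₀ hCP]; linarith
  set N := (∫ x, ψ x * (md x * w x + m x * wt x)) - Wm * ∫ x, ψ x * md x with hN
  set C' := B1 + Lam * v2 * (CP * Lam / lam) with hC'
  have hC'0 : 0 ≤ C' := by positivity
  have hNle : N ≤ C' - lam / (4 * CP) * X := by
    rw [hnum]
    have h5 : Lam * (CP * Lam / lam) * P0 ≤ Lam * v2 * (CP * Lam / lam) := by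
      have : 0 ≤ Lam * (CP * Lam / lam) := by positivity
      nlinarith
    have h6 : lam / 2 * (X / CP) ≤ lam / 2 * G := mul_le_mul_of_nonneg_left hG (by positivity)
    have h7 : lam / 2 * (X / CP) = 2 * (lam / (4 * CP) * X) := by field_simp; ring
    rw [hLε] at hTle
    rw [hC']
    linarith
  -- the integral over the unit ball
  have hXB : ∫ x in closedBall x0 1, (w x - Wm) ^ 2 ≤ X := by
    have e : ∫ x in closedBall x0 1, (w x - Wm) ^ 2
        = ∫ x in closedBall x0 1, ψ x * (w x - Wm) ^ 2 := by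
      refine setIntegral_congr_fun measurableSet_closedBall (fun x hx => ?_)
      show (w x - Wm) ^ 2 = ψ x * (w x - Wm) ^ 2
      rw [hψ.eq_one x hx, one_mul]
    rw [e]
    exact setIntegral_le_integral iX
      (ae_of_all _ (fun x => mul_nonneg (hψ.nonneg x) (sq_nonneg _)))
  have hXB0 : 0 ≤ ∫ x in closedBall x0 1, (w x - Wm) ^ 2 := integral_nonneg (fun _ => sq_nonneg _)
  -- division
  have hd1 : N / Mm ≤ C' / Mm - lam / (4 * CP) * X / Mm := by
    rw [← sub_div]
    exact div_le_div_of_nonneg_right hNle hMpos.le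
  have hd2 : C' / Mm ≤ C' / (lam * v1) := div_le_div_of_nonneg_left hC'0 (by positivity) hMlo
  have hd3 : lam / (4 * CP) * X / (Lam * v2) ≤ lam / (4 * CP) * X / Mm :=
    div_le_div_of_nonneg_left (by positivity) hMpos hMhi
  have hd4 : lam / (4 * CP * Lam * v2) * ∫ x in closedBall x0 1, (w x - Wm) ^ 2
      ≤ lam / (4 * CP) * X / (Lam * v2) := by
    have e : lam / (4 * CP) * X / (Lam * v2) = lam / (4 * CP * Lam * v2) * X := by
      field_simp
    rw [e]
    exact mul_le_mul_of_nonneg_left hXB (by positivity)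
  linarith

theorem dg_IsCutoff.lm_weight {x0 : W} {C : ℝ} {η : W → ℝ} (h : dg_IsCutoff x0 1 2 C η) :
    dg_IsWeight x0 (fun x => η x ^ 2) where
  cont := (h.smooth.continuous).pow 2
  nonneg := fun x => sq_nonneg _
  le_one := fun x => pow_le_one₀ (h.nonneg x) (h.le_one x)
  eq_one := fun x hx => by rw [h.eq_one x hx]; norm_num
  eq_zero := fun x hx => by rw [h.eq_zero x hx]; norm_num
  radial := fun x y hxy => pow_le_pow_left₀ (h.nonneg y) (h.radial x y hxy) 2

/-- `∫ (η^2 + ‖dη‖^2) ≤ (1 + C^2) vol(closedBall 2)`. -/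
theorem dg_IsCutoff.lm_energy {x0 : W} {C : ℝ} {η : W → ℝ} (h : dg_IsCutoff x0 1 2 C η) :
    ∫ x, (η x ^ 2 + ‖fderiv ℝ η x‖ ^ 2) ≤ (1 + C ^ 2) * (volume (closedBall (0:W) 2)).toReal := by
  have ht : dg_Test (closedBall x0 2) η := h.test subset_rfl
  have e2 : ∫ x, (η x ^ 2 + ‖fderiv ℝ η x‖ ^ 2)
      = ∫ x in closedBall x0 2, (η x ^ 2 + ‖fderiv ℝ η x‖ ^ 2) := by
    symm
    apply setIntegral_eq_integral_of_forall_compl_eq_zero
    intro x hx
    rw [ht.eq_zero hx, ht.fderiv_eq_zero hx]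
    simp
  have e3 : ∫ _x in closedBall x0 2, (1 + C ^ 2)
      = (1 + C ^ 2) * (volume (closedBall (0:W) 2)).toReal := by
    rw [setIntegral_const, smul_eq_mul, measureReal_def, Measure.addHaar_closedBall_center,
      mul_comm]
  have hc : Continuous (fun x => η x ^ 2 + ‖fderiv ℝ η x‖ ^ 2) := by
    have h1 : Continuous (fderiv ℝ η) := h.smooth.continuous_fderiv (by simp)
    exact (h.smooth.continuous.pow 2).add (h1.norm.pow 2)
  rw [e2, ← e3]
  refine setIntegral_mono_on (hc.continuousOn.integrableOn_compact (isCompact_closedBall x0 2))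
    (integrableOn_const (isCompact_closedBall x0 2).measure_lt_top.ne) measurableSet_closedBall
    (fun x _ => ?_)
  have h1 : η x ^ 2 ≤ 1 := pow_le_one₀ (h.nonneg x) (h.le_one x)
  have h2 : ‖fderiv ℝ η x‖ ≤ C := by
    have := h.grad x
    norm_num at this
    exact this
  have h3 : ‖fderiv ℝ η x‖ ^ 2 ≤ C ^ 2 := pow_le_pow_left₀ (norm_nonneg _) h2 2
  linarith

variable (W) in
theorem dg_log_mean (hW : 0 < Module.finrank ℝ W) (lam Lam : ℝ) (hl : 0 < lam) (hL : lam ≤ Lam) :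
    ∃ c3 C4 : ℝ, 0 < c3 ∧ 0 < C4 ∧
    ∀ (I : Set ℝ) (S : Set W) (K : dg_Coef W) (u ut : ℝ → W → ℝ), dg_PosSuper I S lam Lam K u ut →
    ∀ (x0 : W) (α β : ℝ), α ≤ β → Icc α β ⊆ I → closedBall x0 2 ⊆ S →
      ∃ Wm Wd : ℝ → ℝ, dg_MeanOde α β x0 c3 C4 (fun t x => -Real.log (u t x)) Wm Wd := by
  obtain ⟨Cc, hCc, hcut⟩ := dg_cutoff_exists W
  obtain ⟨C1, hC1, hlog⟩ := dg_slice_log W lam Lam hl hL
  obtain ⟨CP, hCP, hpoin⟩ := dg_poincare W lam Lam hl hL
  have hLam : 0 < Lam := hl.trans_le hL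
  set v1 : ℝ := (volume (closedBall (0:W) 1)).toReal with hv1
  set v2 : ℝ := (volume (closedBall (0:W) 2)).toReal with hv2
  have hv1pos : 0 < v1 :=
    ENNReal.toReal_pos (measure_closedBall_pos _ _ one_pos).ne' measure_closedBall_lt_top.ne
  have hv2pos : 0 < v2 :=
    ENNReal.toReal_pos (measure_closedBall_pos _ _ two_pos).ne' measure_closedBall_lt_top.ne
  set B1 : ℝ := C1 * ((1 + Cc ^ 2) * v2) with hB1
  have hB1pos : 0 < B1 := by positivity
  refine ⟨lam / (4 * CP * Lam * v2), (B1 + Lam * v2 * (CP * Lam / lam)) / (lam * v1),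
    by positivity, by positivity, ?_⟩
  intro I S K u ut hP x0 α β hαβ hI hB
  obtain ⟨η, hη⟩ := hcut x0 1 2 one_pos one_lt_two
  have hS := hP.isOpen
  set ψ : W → ℝ := fun x => η x ^ 2 with hψdef
  have hψ : dg_IsWeight x0 ψ := hη.lm_weight
  have hψs : tsupport ψ ⊆ S := hψ.lm_tsupport.trans hB
  have hz : ∀ x, x ∉ S → ψ x = 0 := fun x hx => hψ.lm_zero hB hx
  set w : ℝ → W → ℝ := fun t x => -Real.log (u t x) with hw
  set wt : ℝ → W → ℝ := fun t x => -(ut t x / u t x) with hwt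
  have hwreg : dg_Reg I S w wt := (hP.reg.log hS hP.pos).neg
  have hmu : dg_RegT I S K.mu K.mudt := hP.ok.mu_regT
  have hmw := hmu.mul hwreg.regT
  -- the four integrals
  set Mm : ℝ → ℝ := fun t => ∫ x, ψ x * K.mu t x with hMm
  set Md : ℝ → ℝ := fun t => ∫ x, ψ x * K.mudt t x with hMd
  set Y : ℝ → ℝ := fun t => ∫ x, ψ x * (K.mu t x * w t x) with hY
  set Yd : ℝ → ℝ := fun t => ∫ x, ψ x * (K.mudt t x * w t x + K.mu t x * wt t x) with hYd
  have cMm : ContinuousOn Mm (Icc α β) :=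
    (dg_integral_continuousOn hS hψ.cont hψ.lm_cpt hψs hmu.cont0).mono hI
  have cMd : ContinuousOn Md (Icc α β) :=
    (dg_integral_continuousOn hS hψ.cont hψ.lm_cpt hψs hmu.contt).mono hI
  have cY : ContinuousOn Y (Icc α β) :=
    (dg_integral_continuousOn hS hψ.cont hψ.lm_cpt hψs hmw.cont0).mono hI
  have cYd : ContinuousOn Yd (Icc α β) :=
    (dg_integral_continuousOn hS hψ.cont hψ.lm_cpt hψs hmw.contt).mono hI
  -- slices are continuous
  have slice : ∀ {H : ℝ → W → ℝ}, ContinuousOn (fun q : ℝ × W => H q.1 q.2) (I ×ˢ S) →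
      ∀ t ∈ I, ContinuousOn (H t) S := by
    intro H hH t ht
    exact hH.comp (f := fun x : W => ((t, x) : ℝ × W))
      (continuous_const.prodMk continuous_id).continuousOn (fun x hx => ⟨ht, hx⟩)
  have key : ∀ H : W → ℝ, ContinuousOn H S → Integrable (fun x => ψ x * H x) := fun H hH =>
    dg_integrable_mul hS hψ.cont hψ.lm_cpt hψs hH
  have i0 : Integrable ψ := by simpa using key (fun _ => 1) continuousOn_const
  have hMpos : ∀ t ∈ Icc α β, 0 < Mm t := by
    intro t ht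
    have h1 : lam * ∫ x, ψ x ≤ Mm t := by
      rw [← integral_const_mul]
      refine integral_mono (i0.const_mul _) (key _ (slice hmu.cont0 t (hI ht))) (fun x => ?_)
      show lam * ψ x ≤ ψ x * K.mu t x
      by_cases hx : x ∈ S
      · have := mul_le_mul_of_nonneg_left (hP.ok.mu_lo t (hI ht) x hx) (hψ.nonneg x)
        linarith
      · rw [hz x hx]; simp
    have h2 := hψ.lm_mass.1
    have h3 : 0 < lam * ∫ x, ψ x := mul_pos hl (hv1pos.trans_le h2)
    linarith
  refine ⟨fun t => Y t / Mm t, fun t => (Yd t - Y t / Mm t * Md t) / Mm t, ?_, ?_, ?_, ?_, ?_⟩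
  · exact hwreg.cont0.mono (prod_mono hI ((closedBall_subset_closedBall one_le_two).trans hB))
  · exact cY.div cMm (fun t ht => (hMpos t ht).ne')
  · exact (cYd.sub ((cY.div cMm (fun t ht => (hMpos t ht).ne')).mul cMd)).div cMm
      (fun t ht => (hMpos t ht).ne')
  · intro t ht
    have d1 : HasDerivAt Mm (Md t) t := dg_integral_hasDerivAt hS hψ.cont hψ.lm_cpt hψs hmu hI ht
    have d2 : HasDerivAt Y (Yd t) t := dg_integral_hasDerivAt hS hψ.cont hψ.lm_cpt hψs hmw hI ht
    have hne := (hMpos t (Ioo_subset_Icc_self ht)).ne'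
    have d3 := d2.fun_div d1 hne
    have e : (Yd t - Y t / Mm t * Md t) / Mm t = (Yd t * Mm t - Y t * Md t) / Mm t ^ 2 := by
      generalize Mm t = a at hne
      field_simp
    rw [e]
    exact d3
  · intro t ht
    have htI := hI ht
    -- Poincare
    have hνc : Continuous (fun x => ψ x * K.mu t x) :=
      dg_continuous_mul hS hψ.cont hψs (slice hmu.cont0 t htI)
    have hν1 : ∀ x, lam * ψ x ≤ ψ x * K.mu t x := by
      intro x
      by_cases hx : x ∈ S
      · have := mul_le_mul_of_nonneg_left (hP.ok.mu_lo t htI x hx) (hψ.nonneg x)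
        linarith
      · rw [hz x hx]; simp
    have hν2 : ∀ x, ψ x * K.mu t x ≤ Lam * ψ x := by
      intro x
      by_cases hx : x ∈ S
      · have := mul_le_mul_of_nonneg_left (hP.ok.mu_hi t htI x hx) (hψ.nonneg x)
        linarith
      · rw [hz x hx]; simp
    have hp := hpoin x0 S (w t) ψ (fun x => ψ x * K.mu t x) hS hB (hwreg.c1 t htI) hψ hνc hν1 hν2
    simp only [mul_assoc] at hp
    -- the logarithmic estimate
    have hs := hlog I S K u ut hP t htI η (hη.test hB)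
    have hG : ∫ x, η x ^ 2 * (‖fderiv ℝ (u t) x‖ ^ 2 / u t x ^ 2)
        = ∫ x, ψ x * ‖fderiv ℝ (w t) x‖ ^ 2 := by
      congr 1
      funext x
      by_cases hx : x ∈ S
      · have e1 : fderiv ℝ (w t) x = -((u t x)⁻¹ • fderiv ℝ (u t) x) := by
          rw [← hP.reg.fderiv_log hS hP.pos htI hx]
          exact fderiv_fun_neg
        rw [e1, norm_neg, norm_smul, mul_pow, norm_inv, Real.norm_eq_abs, inv_pow, sq_abs]
        ring
      · have : η x ^ 2 = 0 := hz x hx
        rw [this]; simp [hψdef, this]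
    rw [hG] at hs
    have hs2 : (∫ x, ψ x * (K.mu t x * wt t x)) + lam / 2 * ∫ x, ψ x * ‖fderiv ℝ (w t) x‖ ^ 2
        ≤ B1 := by
      refine hs.trans ?_
      rw [hB1]
      exact mul_le_mul_of_nonneg_left hη.lm_energy hC1.le
    exact dg_lm_fixed hS hB hψ (slice hmu.cont0 t htI) (slice hmu.contt t htI)
      (slice hwreg.cont0 t htI) (slice hwreg.contt t htI) hl hL (hP.ok.mu_lo t htI)
      (hP.ok.mu_hi t htI) (hP.ok.mudt_le t htI) hCP hB1pos.le hv1 hv2 hs2 hp

end Claimed.Agent.Lib.Dgnm
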