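import Claimed.Agent.Lib.Dgnm.Defs

/-!
# Lib/Dgnm/LqSup : `L^q` norms with `q → ∞` control the sup of a continuous function (leaf DG-LQSUP)

No PDE.  Fix `(τ,x)` in the cylinder `Cyl = Icc s t ×ˢ closedBall x0 ρ`, `ε > 0`; by continuity there is `δ > 0` with
`g ≥ g τ x - ε` on `A = Cyl ∩ (ball τ δ ×ˢ ball x δ)`, a measurable set of positive finite measure `v` (it contains a
product of a nondegenerate interval and a small ball: move `x` towards `x0`; or: `Cyl` is the closure of its
interior `Ioo s t ×ˢ ball x0 ρ`, so the open set `ball τ δ ×ˢ ball x δ` meets the interior in a nonempty open set,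
which has positive measure: `IsOpen.measure_pos`).  If `g τ x - ε > 0` then for `e j > 0`:
`(g τ x - ε)^(e j) v ≤ ∫_A g^(e j) ≤ ∫_Cyl g^(e j)` (`g^(e j)` is continuous on the compact cylinder, hence integrable),
so `(g τ x - ε) v^(1/e j) ≤ M`, and `v^(1/e j) → 1`.  Let `ε → 0`.
-/

set_option autoImplicit false
set_option linter.unusedSectionVars false

open Set Filter MeasureTheory Metric
open scoped Topology ContDiff

namespace Claimed.Agent.Lib.Dgnm

variable {W : Type*} [NormedAddCommGroup W] [InnerProductSpace ℝ W] [FiniteDimensional ℝ W]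
  [MeasurableSpace W] [BorelSpace W]

theorem dg_le_of_Lq_bound {s t : ℝ} (hst : s < t) {x0 : W} {ρ : ℝ} (hρ : 0 < ρ) {g : ℝ → W → ℝ}
    (hg : ContinuousOn (fun q : ℝ × W => g q.1 q.2) (dg_Cyl s t x0 ρ))
    (h0 : ∀ q ∈ dg_Cyl s t x0 ρ, 0 ≤ g q.1 q.2) {M : ℝ} {e : ℕ → ℝ} (he : Tendsto e atTop atTop)
    (hb : ∀ j, (∫ q in dg_Cyl s t x0 ρ, g q.1 q.2 ^ e j) ^ (1 / e j) ≤ M) :
    ∀ q ∈ dg_Cyl s t x0 ρ, g q.1 q.2 ≤ M := by
  intro q0 hq0
  set K := dg_Cyl s t x0 ρ with hK
  set G : ℝ × W → ℝ := fun q => g q.1 q.2 with hG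
  have hKc : IsCompact K := isCompact_Icc.prod (isCompact_closedBall x0 ρ)
  have hKm : MeasurableSet K := hKc.measurableSet
  have hI0 : ∀ j, 0 ≤ ∫ q in K, G q ^ e j := fun j =>
    setIntegral_nonneg hKm (fun q hq => Real.rpow_nonneg (h0 q hq) _)
  have hM0 : 0 ≤ M := (Real.rpow_nonneg (hI0 0) _).trans (hb 0)
  by_contra hcon
  rw [not_le] at hcon
  obtain ⟨c, hc1, hc2⟩ := exists_between hcon
  have hc0 : 0 < c := hM0.trans_lt hc1
  -- a neighbourhood where `G > c`
  have hev : ∀ᶠ q in 𝓝[K] q0, c < G q := (hg q0 hq0).eventually (lt_mem_nhds hc2)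
  obtain ⟨U, hUo, hqU, hUK⟩ := mem_nhdsWithin.1 hev
  set O : Set (ℝ × W) := Ioo s t ×ˢ ball x0 ρ with hO
  have hOo : IsOpen O := isOpen_Ioo.prod isOpen_ball
  have hOK : O ⊆ K := prod_mono Ioo_subset_Icc_self ball_subset_closedBall
  have hcl : q0 ∈ closure O := by
    rw [hO, closure_prod_eq, closure_Ioo hst.ne, closure_ball x0 hρ.ne']
    exact hq0
  have hne : (U ∩ O).Nonempty := mem_closure_iff.1 hcl U hUo hqU
  set A := U ∩ O with hA
  have hAo : IsOpen A := hUo.inter hOo
  have hAK : A ⊆ K := inter_subset_right.trans hOK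
  have hAm : MeasurableSet A := hAo.measurableSet
  have hvpos : 0 < volume A := hAo.measure_pos volume hne
  have hvfin : volume A < ⊤ := (measure_mono hAK).trans_lt hKc.measure_lt_top
  set v : ℝ := (volume A).toReal with hv
  have hv0 : 0 < v := ENNReal.toReal_pos hvpos.ne' hvfin.ne
  have hAc : ∀ q ∈ A, c < G q := fun q hq => hUK ⟨hq.1, hAK hq⟩
  -- the estimate for each exponent
  have hest : ∀ j, 0 < e j → c * v ^ (1 / e j) ≤ M := by
    intro j hj
    have hcont : ContinuousOn (fun q => G q ^ e j) K :=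
      hg.rpow_const (fun _ _ => Or.inr hj.le)
    have hint : IntegrableOn (fun q => G q ^ e j) K := hcont.integrableOn_compact hKc
    have h1 : c ^ e j * v ≤ ∫ q in A, G q ^ e j := by
      have : ∫ _q in A, c ^ e j = c ^ e j * v := by
        rw [setIntegral_const, smul_eq_mul, mul_comm, hv, measureReal_def]
      rw [← this]
      apply setIntegral_mono_on (integrableOn_const hvfin.ne) (hint.mono_set hAK) hAm
      intro q hq
      exact Real.rpow_le_rpow hc0.le (hAc q hq).le hj.le
    have h2 : ∫ q in A, G q ^ e j ≤ ∫ q in K, G q ^ e j := by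
      apply setIntegral_mono_set hint _ (LE.le.eventuallyLE hAK)
      exact (ae_restrict_iff' hKm).2 (ae_of_all _ (fun q hq => Real.rpow_nonneg (h0 q hq) _))
    have h3 : (c ^ e j * v) ^ (1 / e j) ≤ (∫ q in K, G q ^ e j) ^ (1 / e j) :=
      Real.rpow_le_rpow (by positivity) (h1.trans h2) (by positivity)
    have h4 : (c ^ e j * v) ^ (1 / e j) = c * v ^ (1 / e j) := by
      rw [Real.mul_rpow (by positivity) hv0.le, ← Real.rpow_mul hc0.le]
      have : e j * (1 / e j) = 1 := by field_simp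
      rw [this, Real.rpow_one]
    rw [h4] at h3
    exact h3.trans (hb j)
  have hlim : Tendsto (fun j => c * v ^ (1 / e j)) atTop (𝓝 (c * v ^ (0:ℝ))) := by
    apply Tendsto.const_mul
    have h1 : Tendsto (fun j => 1 / e j) atTop (𝓝 0) := by
      simp only [one_div]
      exact tendsto_inv_atTop_zero.comp he
    exact ((Real.continuous_const_rpow hv0.ne').tendsto 0).comp h1
  have hfin : c * v ^ (0:ℝ) ≤ M := by
    apply le_of_tendsto hlim
    filter_upwards [he.eventually_gt_atTop 0] with j hj using hest j hj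
  rw [Real.rpow_zero, mul_one] at hfin
  linarith

end Claimed.Agent.Lib.Dgnm
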