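import Claimed.Agent.Lib.Dgnm.Density
import Claimed.Agent.Lib.Dgnm.Hom

/-!
# Lib/Dgnm/Osc : oscillation decay at unit scale (leaf DG-OSC)

`q` solution of `mu q_t = div (a dq + F) + dq(b) + g` (`f = 0`, `c = 0`), `‖F‖, |g| ≤ k`, on `I × S` with
`[t0-4,t0] ⊆ I`, `closedBall x0 2 ⊆ S`, and `m ≤ q ≤ M` ON ALL OF `I × S`.
`δ := (3/2) v1`, `v1 = (volume (closedBall x0 1)).toReal` (independent of `x0`, positive),
`c0` := constant of `dg_density` for `(lam, max Lam 1, δ)`, `θ := c0/4`.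
`ω = M - m`.  If `ω ≤ 0` take `m' = m`, `M' = M` (`k ≥ 0` from `F_le` at the point `(t0,x0)`).
Otherwise `Qm = dg_Cyl (t0-4) (t0-1) x0 1` has volume `3 v1` (`dg_volume_cyl`) and is the union of
`{q ≥ (m+M)/2}` and `{q ≤ (m+M)/2}`, so one of them has volume `≥ δ` (`measure_union_le`).
CASE 1 (`q ≥ (m+M)/2` often).  `A = 2/ω`, `u0 = A (q - m) ≥ 0` solves `K.scaleRhs A` (`dg_Sol.affine`), bounds
`A k`; `kk := A k + c0/2 > 0`; `ubar = u0 + kk` is a `dg_PosSuper I S lam (max Lam 1)` (`dg_PosSuper.of_super`,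
`dg_Sol.super`); `q ≥ (m+M)/2 → u0 ≥ 1 → ubar ≥ 1`.  `dg_density`: `ubar ≥ c0` on `dg_Q t0 x0 (1/2)`, i.e.
`q ≥ m + (ω/2)(c0 - kk) = m + c0 ω/4 - k`.  Take `m' = m + c0 ω/4 - k`, `M' = M`.
CASE 2: the same with `A = -2/ω`, `m0 = M`: `u0 = (2/ω)(M - q)`; `M' = M - c0 ω/4 + k`, `m' = m`.
-/

set_option autoImplicit false
set_option linter.unusedSectionVars false

open Set Filter MeasureTheory Metric
open scoped Topology ContDiff

namespace Claimed.Agent.Lib.Dgnm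

variable {W : Type*} [NormedAddCommGroup W] [InnerProductSpace ℝ W] [FiniteDimensional ℝ W]
  [MeasurableSpace W] [BorelSpace W]

/-- one of the two symmetric cases. -/
theorem dg_osc_core {lam Lam δ c0 : ℝ} (hc0 : 0 < c0)
    (hdens : ∀ (I : Set ℝ) (S : Set W) (K : dg_Coef W) (u ut : ℝ → W → ℝ),
      dg_PosSuper I S lam (max Lam 1) K u ut →
      ∀ (t0 : ℝ) (x0 : W), Icc (t0 - 4) t0 ⊆ I → closedBall x0 2 ⊆ S →
      ENNReal.ofReal δ ≤ volume {q : ℝ × W | q ∈ dg_Cyl (t0 - 4) (t0 - 1) x0 1 ∧ 1 ≤ u q.1 q.2} →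
      ∀ q ∈ dg_Q t0 x0 (1 / 2), c0 ≤ u q.1 q.2)
    {I : Set ℝ} {S : Set W} {K : dg_Coef W} {q qt : ℝ → W → ℝ} {k : ℝ} (hk0 : 0 ≤ k)
    (hSo : IsOpen S) (hK : K.Ok I S lam Lam k k) (hf : ∀ t x, K.f t x = 0)
    (hc : ∀ t x, K.c t x = 0) (hq : dg_Reg I S q qt) (hsol : dg_Sol K I S q qt) {t0 : ℝ} {x0 : W}
    (hI : Icc (t0 - 4) t0 ⊆ I) (hS : closedBall x0 2 ⊆ S) (A m0 : ℝ)
    (h0 : ∀ t ∈ I, ∀ x ∈ S, 0 ≤ A * (q t x - m0))
    (hmeas : ENNReal.ofReal δ ≤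
      volume {p : ℝ × W | p ∈ dg_Cyl (t0 - 4) (t0 - 1) x0 1 ∧ 1 ≤ A * (q p.1 p.2 - m0)}) :
    ∀ p ∈ dg_Q t0 x0 (1 / 2), c0 ≤ A * (q p.1 p.2 - m0) + (|A| * k + c0 / 2) := by
  have hK2 := hK.scaleRhs A
  have hreg := dg_Reg.affine hSo hq A m0
  have hsol2 := dg_Sol.affine hSo hq hf hc hsol A m0
  have hAk : 0 ≤ |A| * k := by positivity
  have hps := dg_PosSuper.of_super hSo hK2 hreg h0 (k := |A| * k + c0 / 2) (by linarith)
    (by linarith) (by linarith) hsol2.super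
  refine hdens I S _ _ _ hps t0 x0 hI hS (hmeas.trans (measure_mono ?_))
  rintro p ⟨hp, hp1⟩
  exact ⟨hp, by linarith⟩

variable (W) in
theorem dg_osc_unit (hm : 2 ≤ Module.finrank ℝ W) (lam Lam : ℝ) (hl : 0 < lam) (hL : lam ≤ Lam) :
    ∃ θ : ℝ, 0 < θ ∧ θ < 1 ∧
    ∀ (I : Set ℝ) (S : Set W) (K : dg_Coef W) (q qt : ℝ → W → ℝ) (k : ℝ), IsOpen S →
      K.Ok I S lam Lam k k → (∀ t x, K.f t x = 0) → (∀ t x, K.c t x = 0) → dg_Reg I S q qt →
      dg_Sol K I S q qt →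
    ∀ (t0 : ℝ) (x0 : W), Icc (t0 - 4) t0 ⊆ I → closedBall x0 2 ⊆ S →
    ∀ m M : ℝ, (∀ t ∈ I, ∀ x ∈ S, m ≤ q t x ∧ q t x ≤ M) →
      ∃ m' M' : ℝ, (∀ p ∈ dg_Q t0 x0 (1 / 2), m' ≤ q p.1 p.2 ∧ q p.1 p.2 ≤ M') ∧
        M' - m' ≤ (1 - θ) * (M - m) + k := by
  set v1 : ℝ := (volume (closedBall (0 : W) 1)).toReal with hv1
  have hv1pos : 0 < v1 :=
    ENNReal.toReal_pos (measure_closedBall_pos volume _ (by norm_num)).ne'
      (measure_closedBall_lt_top).ne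
  obtain ⟨c0, hc0, hc01, hdens⟩ := dg_density W hm lam (max Lam 1) hl (hL.trans (le_max_left _ _))
    (3 / 2 * v1) (by positivity)
  refine ⟨c0 / 4, by positivity, by linarith, ?_⟩
  intro I S K q qt k hSo hK hf hc hq hsol t0 x0 hI hS m M hb
  have ht0 : t0 ∈ I := hI ⟨by linarith, le_rfl⟩
  have hx0 : x0 ∈ S := hS (mem_closedBall_self (by norm_num))
  have hk0 : 0 ≤ k := (norm_nonneg _).trans (hK.F_le t0 ht0 x0 hx0)
  have hQI : ∀ p ∈ dg_Q t0 x0 (1 / 2), p.1 ∈ I ∧ p.2 ∈ S := by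
    intro p hp
    refine ⟨hI ⟨?_, hp.1.2⟩, hS (closedBall_subset_closedBall (by norm_num) hp.2)⟩
    have := hp.1.1; norm_num at this; linarith
  by_cases hω : M - m ≤ 0
  · refine ⟨m, M, fun p hp => hb p.1 (hQI p hp).1 p.2 (hQI p hp).2, ?_⟩
    nlinarith
  rw [not_le] at hω
  -- the measure dichotomy
  have hvolb : volume (closedBall x0 1) = ENNReal.ofReal v1 := by
    rw [hv1, ENNReal.ofReal_toReal (measure_closedBall_lt_top).ne]
    rw [Measure.addHaar_closedBall_center]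
  have hvolQ : volume (dg_Cyl (t0 - 4) (t0 - 1) x0 1) = ENNReal.ofReal (3 * v1) := by
    rw [dg_volume_cyl (by linarith)]
    have e : t0 - 1 - (t0 - 4) = 3 := by ring
    rw [e, hvolb, ← ENNReal.ofReal_mul (by norm_num)]
  have hdich : ENNReal.ofReal (3 / 2 * v1) ≤
        volume {p : ℝ × W | p ∈ dg_Cyl (t0 - 4) (t0 - 1) x0 1 ∧ (m + M) / 2 ≤ q p.1 p.2} ∨
      ENNReal.ofReal (3 / 2 * v1) ≤
        volume {p : ℝ × W | p ∈ dg_Cyl (t0 - 4) (t0 - 1) x0 1 ∧ q p.1 p.2 ≤ (m + M) / 2} := by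
    by_contra hcon
    rw [not_or, not_le, not_le] at hcon
    have hsub : dg_Cyl (t0 - 4) (t0 - 1) x0 1 ⊆
        {p : ℝ × W | p ∈ dg_Cyl (t0 - 4) (t0 - 1) x0 1 ∧ (m + M) / 2 ≤ q p.1 p.2} ∪
        {p : ℝ × W | p ∈ dg_Cyl (t0 - 4) (t0 - 1) x0 1 ∧ q p.1 p.2 ≤ (m + M) / 2} := by
      intro p hp
      rcases le_total ((m + M) / 2) (q p.1 p.2) with h | h
      · exact Or.inl ⟨hp, h⟩
      · exact Or.inr ⟨hp, h⟩
    have h1 := (measure_mono (μ := volume) hsub).trans (measure_union_le _ _)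
    have h2 := ENNReal.add_lt_add hcon.1 hcon.2
    rw [hvolQ] at h1
    rw [← ENNReal.ofReal_add (by positivity) (by positivity)] at h2
    have e : 3 / 2 * v1 + 3 / 2 * v1 = 3 * v1 := by ring
    rw [e] at h2
    exact absurd (h1.trans_lt h2) (lt_irrefl _)
  have hA : |2 / (M - m)| = 2 / (M - m) := abs_of_pos (by positivity)
  rcases hdich with h1 | h2
  · -- case 1
    have hcore := dg_osc_core hc0 hdens hk0 hSo hK hf hc hq hsol hI hS (2 / (M - m)) m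
      (fun t ht x hx => mul_nonneg (by positivity) (by linarith [(hb t ht x hx).1]))
      (h1.trans (measure_mono ?_))
    · refine ⟨m + c0 * (M - m) / 4 - k, M, fun p hp => ⟨?_, (hb p.1 (hQI p hp).1 p.2 (hQI p hp).2).2⟩,
        by nlinarith⟩
      have h := hcore p hp
      rw [hA] at h
      have h' : c0 / 2 * (M - m) ≤ 2 * (q p.1 p.2 - m) + 2 * k := by
        have e : 2 / (M - m) * (q p.1 p.2 - m) + (2 / (M - m) * k + c0 / 2)
            = (2 * (q p.1 p.2 - m) + 2 * k) / (M - m) + c0 / 2 := by field_simp; ring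
        rw [e] at h
        have h3 : c0 / 2 ≤ (2 * (q p.1 p.2 - m) + 2 * k) / (M - m) := by linarith
        rwa [le_div_iff₀ hω] at h3
      linarith
    · rintro p ⟨hp, hp1⟩
      refine ⟨hp, ?_⟩
      rw [div_mul_eq_mul_div, le_div_iff₀ hω]
      linarith
  · -- case 2
    have hcore := dg_osc_core hc0 hdens hk0 hSo hK hf hc hq hsol hI hS (-(2 / (M - m))) M
      (fun t ht x hx => by
        have : 0 ≤ 2 / (M - m) * (M - q t x) :=
          mul_nonneg (by positivity) (by linarith [(hb t ht x hx).2])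
        linarith)
      (h2.trans (measure_mono ?_))
    · refine ⟨m, M - c0 * (M - m) / 4 + k, fun p hp => ⟨(hb p.1 (hQI p hp).1 p.2 (hQI p hp).2).1, ?_⟩,
        by nlinarith⟩
      have h := hcore p hp
      rw [abs_neg, hA] at h
      have h' : c0 / 2 * (M - m) ≤ 2 * (M - q p.1 p.2) + 2 * k := by
        have e : -(2 / (M - m)) * (q p.1 p.2 - M) + (2 / (M - m) * k + c0 / 2)
            = (2 * (M - q p.1 p.2) + 2 * k) / (M - m) + c0 / 2 := by field_simp; ring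
        rw [e] at h
        have h3 : c0 / 2 ≤ (2 * (M - q p.1 p.2) + 2 * k) / (M - m) := by linarith
        rwa [le_div_iff₀ hω] at h3
      linarith
    · rintro p ⟨hp, hp1⟩
      refine ⟨hp, ?_⟩
      have e : -(2 / (M - m)) * (q p.1 p.2 - M) = 2 * (M - q p.1 p.2) / (M - m) := by
        field_simp; ring
      rw [e, le_div_iff₀ hω]
      linarith

end Claimed.Agent.Lib.Dgnm
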