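import Claimed.Agent.Lib.Dgnm.Osc
import Claimed.Agent.Lib.Dgnm.Scale

/-!
# Lib/Dgnm/OscR : oscillation decay at all scales (leaf DG-OSCR)

## `dg_osc_scaled` (leaf DG-OSCR): oscillation decay on the cylinders
`I_ρ × S_ρ = Icc (t1 - ρ^2) t1 × ball x1 ρ` (OPEN ball), ratio `6`.
Given `q` solving `K` (`f = c = 0`) on `I_ρ × S_ρ`, `ρ ≤ 3`, bounds `m ≤ q ≤ M` there.  Put `σ = ρ/3 ≤ 1`.
`dg_sc t1 x1 σ q` solves `K.sc t1 x1 σ` on `dg_scI .. = Icc (-9) 0`, `dg_scS .. = ball 0 3`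
(`dg_scI_Icc`, `dg_scS_ball`), bounds `(lam, Lam, σ kF, σ^2 kg)`, so `k = σ kF + σ^2 kg` works for both.
`dg_osc_unit` at `(0,0)` (`Icc (-4) 0 ⊆ Icc (-9) 0`, `closedBall 0 2 ⊆ ball 0 3`) gives bounds `m', M'` on
`dg_Q 0 0 (1/2)`, i.e. (`dg_mem_Q_sc`) for `q` on `dg_Q t1 x1 (σ/2) = dg_Q t1 x1 (ρ/6) ⊇ I_{ρ/6} × S_{ρ/6}`.
-/

set_option autoImplicit false
set_option linter.unusedSectionVars false

open Set Filter MeasureTheory Metric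
open scoped Topology ContDiff

namespace Claimed.Agent.Lib.Dgnm

variable {W : Type*} [NormedAddCommGroup W] [InnerProductSpace ℝ W] [FiniteDimensional ℝ W]
  [MeasurableSpace W] [BorelSpace W]

variable (W) in
theorem dg_osc_scaled (hm : 2 ≤ Module.finrank ℝ W) (lam Lam : ℝ) (hl : 0 < lam) (hL : lam ≤ Lam) :
    ∃ θ : ℝ, 0 < θ ∧ θ < 1 ∧
    ∀ (K : dg_Coef W) (q qt : ℝ → W → ℝ) (kF kg : ℝ) (t1 : ℝ) (x1 : W) (ρ : ℝ), 0 < ρ → ρ ≤ 3 →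
      K.Ok (Icc (t1 - ρ ^ 2) t1) (ball x1 ρ) lam Lam kF kg → (∀ t x, K.f t x = 0) →
      (∀ t x, K.c t x = 0) → dg_Reg (Icc (t1 - ρ ^ 2) t1) (ball x1 ρ) q qt →
      dg_Sol K (Icc (t1 - ρ ^ 2) t1) (ball x1 ρ) q qt →
    ∀ m M : ℝ, (∀ t ∈ Icc (t1 - ρ ^ 2) t1, ∀ x ∈ ball x1 ρ, m ≤ q t x ∧ q t x ≤ M) →
      ∃ m' M' : ℝ,
        (∀ t ∈ Icc (t1 - (ρ / 6) ^ 2) t1, ∀ x ∈ ball x1 (ρ / 6), m' ≤ q t x ∧ q t x ≤ M') ∧
        M' - m' ≤ (1 - θ) * (M - m) + (ρ / 3 * kF + (ρ / 3) ^ 2 * kg) := by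
  obtain ⟨θ, hθ0, hθ1, hunit⟩ := dg_osc_unit W hm lam Lam hl hL
  refine ⟨θ, hθ0, hθ1, ?_⟩
  intro K q qt kF kg t1 x1 ρ hρ hρ3 hK hf hc hq hsol m M hb
  set σ : ℝ := ρ / 3 with hσ
  have hσ0 : 0 < σ := by positivity
  have hσ1 : σ ≤ 1 := by rw [hσ]; linarith
  have ht1 : t1 ∈ Icc (t1 - ρ ^ 2) t1 := ⟨by nlinarith [sq_nonneg ρ], le_rfl⟩
  have hx1 : x1 ∈ ball x1 ρ := mem_ball_self hρ
  have hkF : 0 ≤ kF := (norm_nonneg _).trans (hK.F_le t1 ht1 x1 hx1)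
  have hkg : 0 ≤ kg := (abs_nonneg _).trans (hK.g_le t1 ht1 x1 hx1)
  set I' := dg_scI t1 σ (Icc (t1 - ρ ^ 2) t1) with hI'
  set S' := dg_scS x1 σ (ball x1 ρ) with hS'
  have hS'o : IsOpen S' := dg_scS_isOpen isOpen_ball x1 σ
  have hK' := (hK.sc hσ0 hσ1 isOpen_ball t1 x1).mono (I' := I') (S' := S') subset_rfl subset_rfl
    le_rfl (kF' := σ * kF + σ ^ 2 * kg) (kg' := σ * kF + σ ^ 2 * kg)
    (by nlinarith [mul_nonneg (sq_nonneg σ) hkg]) (by nlinarith [mul_nonneg hσ0.le hkF])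
  have hreg' := hq.sc hσ0 isOpen_ball t1 x1
  have hsol' := hsol.sc hσ0 isOpen_ball hq t1 x1
  have hII : Icc ((0 : ℝ) - 4) 0 ⊆ I' := by
    intro t ht
    have h1 : σ ^ 2 * 9 = ρ ^ 2 := by rw [hσ]; ring
    refine ⟨?_, ?_⟩
    · nlinarith [ht.1, sq_nonneg σ]
    · nlinarith [ht.2, sq_nonneg σ]
  have hSS : closedBall (0 : W) 2 ⊆ S' := by
    intro x hx
    rw [mem_closedBall_zero_iff] at hx
    show x1 + σ • x ∈ ball x1 ρ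
    rw [mem_ball, dist_eq_norm, add_sub_cancel_left, norm_smul, Real.norm_of_nonneg hσ0.le]
    have : σ * ‖x‖ ≤ σ * 2 := mul_le_mul_of_nonneg_left hx hσ0.le
    rw [hσ] at this ⊢
    linarith
  obtain ⟨m', M', hb', hosc⟩ := hunit I' S' (K.sc t1 x1 σ) _ _ _ hS'o hK'
    (fun t x => by simp [dg_Coef.sc, dg_sc, hf]) (fun t x => by simp [dg_Coef.sc, dg_sc, hc])
    hreg' hsol' 0 0 hII hSS m M (fun t ht x hx => hb _ ht _ hx)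
  refine ⟨m', M', ?_, hosc⟩
  intro t ht x hx
  set t' : ℝ := (t - t1) / σ ^ 2 with ht'
  set x' : W := σ⁻¹ • (x - x1) with hx'
  have e1 : t1 + σ ^ 2 * t' = t := by rw [ht']; field_simp; ring
  have e2 : x1 + σ • x' = x := by
    rw [hx', smul_smul, mul_inv_cancel₀ hσ0.ne', one_smul]; abel
  have hmem : (t', x') ∈ dg_Q (0 : ℝ) (0 : W) (1 / 2) := by
    rw [← dg_mem_Q_sc hσ0 t1 x1 (1 / 2) t' x', e1, e2]
    have : σ * (1 / 2) = ρ / 6 := by rw [hσ]; ring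
    rw [this]
    exact ⟨ht, ball_subset_closedBall hx⟩
  have := hb' (t', x') hmem
  simp only [dg_sc, e1, e2] at this
  exact this

end Claimed.Agent.Lib.Dgnm
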