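import Claimed.Agent.Lib.Dgnm.Defs

/-!
# Lib/Dgnm/PoincareA : weighted Poincaré inequality with a radial weight, double integral form (leaf DG-POIN-A)

Moser 1964, Lemma 3.  `ψ` continuous, `0 ≤ ψ ≤ 1`, radially nonincreasing around `x0`, `ψ = 0` outside
the ball of radius `2`.  `w` is `C^1` on an open set `S ⊇ closedBall x0 2`.

## `dg_poincare_double` (leaf DG-POIN-A)
For `x, y` in the open ball `B = ball x0 2` and `z_θ = x + θ (y - x)`, `θ ∈ [0,1]`:
(i) `‖z_θ - x0‖ ≤ max ‖x-x0‖ ‖y-x0‖` so `ψ x * ψ y ≤ min (ψ x) (ψ y) ≤ ψ z_θ`;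
(ii) `(w x - w y)^2 ≤ ‖x-y‖^2 ∫_0^1 ‖dw(z_θ)‖^2 dθ ≤ 16 ∫_0^1 ‖dw(z_θ)‖^2 dθ`
(FTC along the segment + Cauchy-Schwarz/Jensen).  With `g z = ψ z ‖dw z‖^2` (continuous with compact
support on `W` since `tsupport ψ ⊆ closedBall x0 2 ⊆ S`; `g ≥ 0`):
`ψ x ψ y (w x - w y)^2 ≤ 16 ∫_0^1 g(z_θ) dθ` for ALL `x, y` with `ψ x ψ y ≠ 0`.
Integrate over `x, y ∈ B`, Tonelli; for `θ ≥ 1/2` substitute `z = x + θ(y-x)` in the `y` integral
(`∫ g(x + θ(y - x)) dy = θ^{-m} ∫ g ≤ 2^m ∫ g`: `Measure.integral_comp_smul`, translation invariance)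
and integrate `x` over `B`; for `θ ≤ 1/2` substitute in the `x` integral (factor `(1-θ)^{-m} ≤ 2^m`).
Result: `C = 16 * 2^m * vol (ball x0 2)` (the volume does not depend on `x0`).
It is convenient to work with `lintegral` (Tonelli without integrability) and convert at the end:
both sides are integrals of continuous compactly supported functions.
-/

set_option autoImplicit false
set_option linter.unusedSectionVars false

open Set Filter MeasureTheory Metric
open scoped Topology ContDiff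

namespace Claimed.Agent.Lib.Dgnm

variable {W : Type*} [NormedAddCommGroup W] [InnerProductSpace ℝ W] [FiniteDimensional ℝ W]
  [MeasurableSpace W] [BorelSpace W]

/-- radial weights on the ball of radius `2`. -/
structure dg_IsWeight (x0 : W) (ψ : W → ℝ) : Prop where
  cont : Continuous ψ
  nonneg : ∀ x, 0 ≤ ψ x
  le_one : ∀ x, ψ x ≤ 1
  eq_one : ∀ x ∈ closedBall x0 1, ψ x = 1
  eq_zero : ∀ x, 2 ≤ ‖x - x0‖ → ψ x = 0
  radial : ∀ x y, ‖x - x0‖ ≤ ‖y - x0‖ → ψ y ≤ ψ x

/-- a continuous function vanishing off a closed set `K` times a function continuous on an open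
neighbourhood of `K` is continuous. -/
theorem dg_pa_cont_mul {X : Type*} [TopologicalSpace X] {S K : Set X} {ψ u : X → ℝ}
    (hS : IsOpen S) (hK : IsClosed K) (hKS : K ⊆ S) (hψ : Continuous ψ)
    (h0 : ∀ x, x ∉ K → ψ x = 0) (hu : ContinuousOn u S) :
    Continuous (fun x => ψ x * u x) := by
  rw [continuous_iff_continuousAt]
  intro x
  by_cases hx : x ∈ S
  · exact hψ.continuousAt.mul (hu.continuousAt (hS.mem_nhds hx))
  · have hxK : x ∈ Kᶜ := fun h => hx (hKS h)
    have : (fun x => ψ x * u x) =ᶠ[𝓝 x] fun _ => (0:ℝ) := by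
      filter_upwards [hK.isOpen_compl.mem_nhds hxK] with y hy
      rw [h0 y hy, zero_mul]
    exact continuousAt_const.congr this.symm

theorem dg_pa_sq_integral_le {p : ℝ → ℝ} (hp : ContinuousOn p (Icc 0 1)) :
    (∫ θ in (0:ℝ)..1, p θ) ^ 2 ≤ ∫ θ in (0:ℝ)..1, p θ ^ 2 := by
  have hu : uIcc (0:ℝ) 1 = Icc 0 1 := uIcc_of_le zero_le_one
  have h1 : IntervalIntegrable p volume 0 1 := (hu ▸ hp).intervalIntegrable
  have h2 : IntervalIntegrable (fun θ => p θ ^ 2) volume 0 1 :=
    ((hu ▸ hp).pow 2).intervalIntegrable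
  set c := ∫ θ in (0:ℝ)..1, p θ with hc
  have h3 : 0 ≤ ∫ θ in (0:ℝ)..1, (p θ - c) ^ 2 :=
    intervalIntegral.integral_nonneg zero_le_one (fun θ _ => sq_nonneg _)
  have h4 : ∫ θ in (0:ℝ)..1, (p θ - c) ^ 2 = (∫ θ in (0:ℝ)..1, p θ ^ 2) - 2 * c * c + c ^ 2 := by
    have : (fun θ => (p θ - c) ^ 2) = fun θ => p θ ^ 2 - 2 * c * p θ + c ^ 2 := by
      funext θ; ring
    rw [this, intervalIntegral.integral_add (h2.sub (h1.const_mul _)) intervalIntegrable_const,
      intervalIntegral.integral_sub h2 (h1.const_mul _), intervalIntegral.integral_const_mul,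
      intervalIntegral.integral_const]
    simp [hc]
  nlinarith

theorem dg_pa_lintegral_affine {G : W → ENNReal} (hG : Measurable G) (c : W) {r : ℝ}
    (hr : r ≠ 0) :
    ∫⁻ y, G (c + r • y) = ENNReal.ofReal (|(r ^ Module.finrank ℝ W)⁻¹|) * ∫⁻ z, G z := by
  have h1 : ∫⁻ y, G (c + r • y) = ∫⁻ z, G (c + z) ∂(Measure.map (fun y : W => r • y) volume) := by
    exact (lintegral_map (f := fun z => G (c + z)) (hG.comp (measurable_const_add c))
      (measurable_const_smul r)).symm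
  rw [h1, Measure.map_addHaar_smul volume hr, lintegral_smul_measure, lintegral_add_left_eq_self]
  rfl

theorem dg_pa_affine_le {G : W → ENNReal} (hG : Measurable G) (c : W) {r : ℝ}
    (hr : 1 / 2 ≤ r) :
    ∫⁻ y, G (c + r • y) ≤ ENNReal.ofReal (2 ^ Module.finrank ℝ W) * ∫⁻ z, G z := by
  have hr0 : 0 < r := by linarith
  rw [dg_pa_lintegral_affine hG c hr0.ne']
  gcongr
  rw [abs_of_nonneg (by positivity), ← inv_pow]
  gcongr
  rw [inv_le_comm₀ hr0 two_pos]
  linarith

theorem dg_pa_pointwise {x0 : W} {S : Set W} {w ψ : W → ℝ} (hS : IsOpen S)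
    (hBS : closedBall x0 2 ⊆ S) (hw : ContDiffOn ℝ 1 w S) (hψ : dg_IsWeight x0 ψ) {x y : W}
    (hx : x ∈ ball x0 2) (hy : y ∈ ball x0 2) :
    ψ x * ψ y * (w x - w y) ^ 2 ≤
      16 * ∫ θ in (0:ℝ)..1, ψ (x + θ • (y - x)) * ‖fderiv ℝ w (x + θ • (y - x))‖ ^ 2 := by
  set z : ℝ → W := fun θ => x + θ • (y - x) with hz
  have hzc : Continuous z := by fun_prop
  have hzB : ∀ θ ∈ Icc (0:ℝ) 1, z θ ∈ ball x0 2 := fun θ hθ =>
    (convex_ball x0 2).add_smul_sub_mem hx hy hθ
  have hzS : ∀ θ ∈ Icc (0:ℝ) 1, z θ ∈ S := fun θ hθ => hBS (ball_subset_closedBall (hzB θ hθ))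
  have hzd : ∀ θ, HasDerivAt z (y - x) θ := by
    intro θ
    have h := ((hasDerivAt_id θ).smul_const (y - x)).const_add x
    rw [one_smul] at h
    exact h
  have hu : uIcc (0:ℝ) 1 = Icc 0 1 := uIcc_of_le zero_le_one
  have hdc : ContinuousOn (fun θ => fderiv ℝ w (z θ)) (Icc 0 1) :=
    (hw.continuousOn_fderiv_of_isOpen hS le_rfl).comp hzc.continuousOn hzS
  set p : ℝ → ℝ := fun θ => fderiv ℝ w (z θ) (y - x) with hp
  have hpc : ContinuousOn p (Icc 0 1) := hdc.clm_apply continuousOn_const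
  have hder : ∀ θ ∈ uIcc (0:ℝ) 1, HasDerivAt (fun θ => w (z θ)) (p θ) θ := by
    intro θ hθ
    rw [hu] at hθ
    have hd : DifferentiableAt ℝ w (z θ) :=
      (hw.differentiableOn one_ne_zero).differentiableAt (hS.mem_nhds (hzS θ hθ))
    exact hd.hasFDerivAt.comp_hasDerivAt θ (hzd θ)
  have hftc : ∫ θ in (0:ℝ)..1, p θ = w y - w x := by
    rw [intervalIntegral.integral_eq_sub_of_hasDerivAt hder (hu ▸ hpc).intervalIntegrable]
    simp [z]
  have hJ := dg_pa_sq_integral_le hpc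
  rw [hftc] at hJ
  set a := ψ x * ψ y with ha
  have ha0 : 0 ≤ a := mul_nonneg (hψ.nonneg x) (hψ.nonneg y)
  have hxy : ‖y - x‖ ≤ 4 := by
    have h1 : ‖y - x0‖ < 2 := by simpa [dist_eq_norm] using hy
    have h2 : ‖x - x0‖ < 2 := by simpa [dist_eq_norm] using hx
    have h3 : y - x = (y - x0) - (x - x0) := by abel
    rw [h3]
    exact (norm_sub_le _ _).trans (by linarith)
  have haz : ∀ θ ∈ Icc (0:ℝ) 1, a ≤ ψ (z θ) := by
    intro θ hθ
    rcases le_total ‖x - x0‖ ‖y - x0‖ with h | h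
    · have hz1 : z θ ∈ closedBall x0 ‖y - x0‖ :=
        (convex_closedBall x0 _).add_smul_sub_mem (by simpa [dist_eq_norm] using h)
          (by simp [dist_eq_norm]) hθ
      have h2 : ψ y ≤ ψ (z θ) := hψ.radial _ _ (by simpa [dist_eq_norm] using hz1)
      calc a ≤ 1 * ψ y := mul_le_mul_of_nonneg_right (hψ.le_one x) (hψ.nonneg y)
        _ = ψ y := one_mul _
        _ ≤ _ := h2
    · have hz1 : z θ ∈ closedBall x0 ‖x - x0‖ :=
        (convex_closedBall x0 _).add_smul_sub_mem (by simp [dist_eq_norm])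
          (by simpa [dist_eq_norm] using h) hθ
      have h2 : ψ x ≤ ψ (z θ) := hψ.radial _ _ (by simpa [dist_eq_norm] using hz1)
      calc a ≤ ψ x * 1 := mul_le_mul_of_nonneg_left (hψ.le_one y) (hψ.nonneg x)
        _ = ψ x := mul_one _
        _ ≤ _ := h2
  have hmono : ∫ θ in (0:ℝ)..1, a * p θ ^ 2 ≤
      ∫ θ in (0:ℝ)..1, 16 * (ψ (z θ) * ‖fderiv ℝ w (z θ)‖ ^ 2) := by
    apply intervalIntegral.integral_mono_on zero_le_one
    · exact (hu ▸ (continuousOn_const.mul (hpc.pow 2))).intervalIntegrable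
    · exact (hu ▸ (continuousOn_const.mul
        ((hψ.cont.comp hzc).continuousOn.mul (hdc.norm.pow 2)))).intervalIntegrable
    · intro θ hθ
      have h1 : p θ ^ 2 ≤ 16 * ‖fderiv ℝ w (z θ)‖ ^ 2 := by
        have h2 : |p θ| ≤ ‖fderiv ℝ w (z θ)‖ * 4 :=
          ((fderiv ℝ w (z θ)).le_opNorm (y - x)).trans
            (mul_le_mul_of_nonneg_left hxy (norm_nonneg _))
        have h3 : p θ ^ 2 = |p θ| ^ 2 := (sq_abs _).symm
        rw [h3]
        calc |p θ| ^ 2 ≤ (‖fderiv ℝ w (z θ)‖ * 4) ^ 2 := by gcongr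
          _ = _ := by ring
      calc a * p θ ^ 2 ≤ ψ (z θ) * (16 * ‖fderiv ℝ w (z θ)‖ ^ 2) :=
            mul_le_mul (haz θ hθ) h1 (sq_nonneg _) (hψ.nonneg _)
        _ = _ := by ring
  calc ψ x * ψ y * (w x - w y) ^ 2 = a * (w y - w x) ^ 2 := by ring
    _ ≤ a * ∫ θ in (0:ℝ)..1, p θ ^ 2 := mul_le_mul_of_nonneg_left hJ ha0
    _ = ∫ θ in (0:ℝ)..1, a * p θ ^ 2 := (intervalIntegral.integral_const_mul _ _).symm
    _ ≤ _ := hmono
    _ = _ := intervalIntegral.integral_const_mul _ _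

theorem dg_pa_J_le {G : W → ENNReal} (hG : Measurable G) (B : Set W) (θ : ℝ) :
    ∫⁻ x in B, ∫⁻ y in B, G (x + θ • (y - x)) ≤
      ENNReal.ofReal (2 ^ Module.finrank ℝ W) * (∫⁻ z, G z) * volume B := by
  rcases le_total (1 / 2) θ with h | h
  · calc ∫⁻ x in B, ∫⁻ y in B, G (x + θ • (y - x))
        ≤ ∫⁻ _x in B, ENNReal.ofReal (2 ^ Module.finrank ℝ W) * (∫⁻ z, G z) := by
          apply lintegral_mono
          intro x
          calc ∫⁻ y in B, G (x + θ • (y - x)) ≤ ∫⁻ y, G (x + θ • (y - x)) :=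
                setLIntegral_le_lintegral _ _
            _ = ∫⁻ y, G ((x - θ • x) + θ • y) := by
                congr 1; funext y; congr 1; rw [smul_sub]; abel
            _ ≤ _ := dg_pa_affine_le hG _ h
      _ = _ := setLIntegral_const _ _
  · have hm : Measurable (fun p : W × W => G (p.1 + θ • (p.2 - p.1))) :=
      hG.comp (by fun_prop)
    rw [lintegral_lintegral_swap hm.aemeasurable]
    calc ∫⁻ y in B, ∫⁻ x in B, G (x + θ • (y - x))
        ≤ ∫⁻ _y in B, ENNReal.ofReal (2 ^ Module.finrank ℝ W) * (∫⁻ z, G z) := by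
          apply lintegral_mono
          intro y
          calc ∫⁻ x in B, G (x + θ • (y - x)) ≤ ∫⁻ x, G (x + θ • (y - x)) :=
                setLIntegral_le_lintegral _ _
            _ = ∫⁻ x, G (θ • y + (1 - θ) • x) := by
                congr 1; funext x; congr 1; rw [smul_sub, sub_smul, one_smul]; abel
            _ ≤ _ := dg_pa_affine_le hG _ (by linarith)
      _ = _ := setLIntegral_const _ _

variable (W) in
theorem dg_poincare_double : ∃ C : ℝ, 0 < C ∧ ∀ (x0 : W) (S : Set W) (w ψ : W → ℝ), IsOpen S →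
    closedBall x0 2 ⊆ S → ContDiffOn ℝ 1 w S → dg_IsWeight x0 ψ →
    ∫ x, ∫ y, ψ x * ψ y * (w x - w y) ^ 2 ≤ C * ∫ x, ψ x * ‖fderiv ℝ w x‖ ^ 2 := by
  set m := Module.finrank ℝ W with hm
  set V : ℝ := (volume (ball (0:W) 2)).toReal with hVdef
  have hV : 0 < V :=
    ENNReal.toReal_pos (measure_ball_pos _ _ two_pos).ne' measure_ball_lt_top.ne
  refine ⟨16 * (2 ^ m * V), by positivity, ?_⟩
  intro x0 S w ψ hS hBS hw hψ
  set B := ball x0 2 with hB
  have hBm : MeasurableSet B := measurableSet_ball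
  have hBV : volume B = ENNReal.ofReal V := by
    rw [hB, Measure.addHaar_ball_center, hVdef, ENNReal.ofReal_toReal measure_ball_lt_top.ne]
  have h0 : ∀ x, x ∉ closedBall x0 2 → ψ x = 0 := by
    intro x hx
    apply hψ.eq_zero
    simp only [mem_closedBall, dist_eq_norm, not_le] at hx
    exact hx.le
  have h0' : ∀ x, x ∉ B → ψ x = 0 := by
    intro x hx
    apply hψ.eq_zero
    simpa [hB, dist_eq_norm] using hx
  set g : W → ℝ := fun z => ψ z * ‖fderiv ℝ w z‖ ^ 2 with hg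
  have hgc : Continuous g := dg_pa_cont_mul hS isClosed_closedBall hBS hψ.cont h0
    ((hw.continuousOn_fderiv_of_isOpen hS le_rfl).norm.pow 2)
  have hg0 : ∀ z, 0 ≤ g z := fun z => mul_nonneg (hψ.nonneg z) (sq_nonneg _)
  have hgs : HasCompactSupport g := HasCompactSupport.intro (isCompact_closedBall x0 2)
    (fun z hz => by simp [g, h0 z hz])
  have hgi : Integrable g := hgc.integrable_of_hasCompactSupport hgs
  set G : W → ENNReal := fun z => ENNReal.ofReal (g z) with hG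
  have hGm : Measurable G := hgc.measurable.ennreal_ofReal
  have hGI : ∫⁻ z, G z = ENNReal.ofReal (∫ z, g z) :=
    (ofReal_integral_eq_lintegral_ofReal hgi (ae_of_all _ hg0)).symm
  set F : W → W → ℝ := fun x y => ψ x * ψ y * (w x - w y) ^ 2 with hF
  have hF0 : ∀ x y, 0 ≤ F x y := fun x y =>
    mul_nonneg (mul_nonneg (hψ.nonneg x) (hψ.nonneg y)) (sq_nonneg _)
  have hFc : Continuous (fun p : W × W => F p.1 p.2) := by
    have a1c : Continuous (fun x => ψ x * w x) :=
      dg_pa_cont_mul hS isClosed_closedBall hBS hψ.cont h0 hw.continuousOn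
    have a2c : Continuous (fun x => ψ x * w x ^ 2) :=
      dg_pa_cont_mul hS isClosed_closedBall hBS hψ.cont h0 (hw.continuousOn.pow 2)
    have hψc := hψ.cont
    have : (fun p : W × W => F p.1 p.2) = fun p : W × W =>
        (ψ p.1 * w p.1 ^ 2) * ψ p.2 - 2 * (ψ p.1 * w p.1) * (ψ p.2 * w p.2)
          + ψ p.1 * (ψ p.2 * w p.2 ^ 2) := by
      funext p; simp only [hF]; ring
    rw [this]
    exact (((a2c.comp continuous_fst).mul (hψc.comp continuous_snd)).sub
      ((continuous_const.mul (a1c.comp continuous_fst)).mul (a1c.comp continuous_snd))).add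
      ((hψc.comp continuous_fst).mul (a2c.comp continuous_snd))
  -- the lintegral estimate
  have hA : ∫⁻ x, ∫⁻ y, ENNReal.ofReal (F x y) ≤
      ENNReal.ofReal (16 * (2 ^ m * V) * ∫ z, g z) := by
    have e1 : ∫⁻ x, ∫⁻ y, ENNReal.ofReal (F x y) =
        ∫⁻ x in B, ∫⁻ y in B, ENNReal.ofReal (F x y) := by
      have i1 : ∀ x, ∫⁻ y, ENNReal.ofReal (F x y) = ∫⁻ y in B, ENNReal.ofReal (F x y) := by
        intro x
        rw [← lintegral_indicator hBm]
        congr 1
        funext y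
        by_cases hy : y ∈ B
        · rw [indicator_of_mem hy]
        · rw [indicator_of_notMem hy]; simp [hF, h0' y hy]
      rw [← lintegral_indicator hBm]
      congr 1
      funext x
      by_cases hx : x ∈ B
      · rw [indicator_of_mem hx, i1 x]
      · rw [indicator_of_notMem hx]; simp [hF, h0' x hx]
    have e2 : ∀ x ∈ B, ∀ y ∈ B, ENNReal.ofReal (F x y) ≤
        ENNReal.ofReal 16 * ∫⁻ θ in Ioc (0:ℝ) 1, G (x + θ • (y - x)) := by
      intro x hx y hy
      have h := dg_pa_pointwise hS hBS hw hψ hx hy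
      have hc : Continuous (fun θ : ℝ => g (x + θ • (y - x))) := hgc.comp (by fun_prop)
      rw [← ofReal_integral_eq_lintegral_ofReal (hc.integrableOn_Ioc)
        (ae_of_all _ (fun θ => hg0 _)), ← ENNReal.ofReal_mul (by norm_num),
        ← intervalIntegral.integral_of_le zero_le_one]
      exact ENNReal.ofReal_le_ofReal h
    have hH : Measurable (fun q : (W × ℝ) × W => G (q.1.1 + q.1.2 • (q.2 - q.1.1))) :=
      hGm.comp (by fun_prop)
    have e3 : ∫⁻ x in B, ∫⁻ y in B, ∫⁻ θ in Ioc (0:ℝ) 1, G (x + θ • (y - x)) =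
        ∫⁻ θ in Ioc (0:ℝ) 1, ∫⁻ x in B, ∫⁻ y in B, G (x + θ • (y - x)) := by
      have s1 : ∀ x, ∫⁻ y in B, ∫⁻ θ in Ioc (0:ℝ) 1, G (x + θ • (y - x)) =
          ∫⁻ θ in Ioc (0:ℝ) 1, ∫⁻ y in B, G (x + θ • (y - x)) := by
        intro x
        have hm1 : Measurable (fun q : W × ℝ => G (x + q.2 • (q.1 - x))) :=
          hGm.comp (by fun_prop)
        exact lintegral_lintegral_swap hm1.aemeasurable
      simp_rw [s1]
      have hm2 : Measurable (fun q : W × ℝ => ∫⁻ y in B, G (q.1 + q.2 • (y - q.1))) :=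
        hH.lintegral_prod_right'
      exact lintegral_lintegral_swap hm2.aemeasurable
    calc ∫⁻ x, ∫⁻ y, ENNReal.ofReal (F x y)
        = ∫⁻ x in B, ∫⁻ y in B, ENNReal.ofReal (F x y) := e1
      _ ≤ ∫⁻ x in B, ∫⁻ y in B,
            ENNReal.ofReal 16 * ∫⁻ θ in Ioc (0:ℝ) 1, G (x + θ • (y - x)) :=
          setLIntegral_mono' hBm (fun x hx => setLIntegral_mono' hBm (fun y hy => e2 x hx y hy))
      _ = ENNReal.ofReal 16 *
            ∫⁻ x in B, ∫⁻ y in B, ∫⁻ θ in Ioc (0:ℝ) 1, G (x + θ • (y - x)) := by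
          simp_rw [lintegral_const_mul' _ _ ENNReal.ofReal_ne_top]
      _ = ENNReal.ofReal 16 *
            ∫⁻ θ in Ioc (0:ℝ) 1, ∫⁻ x in B, ∫⁻ y in B, G (x + θ • (y - x)) := by rw [e3]
      _ ≤ ENNReal.ofReal 16 * ∫⁻ _θ in Ioc (0:ℝ) 1,
            ENNReal.ofReal (2 ^ m) * (∫⁻ z, G z) * volume B := by
          gcongr with θ
          exact dg_pa_J_le hGm B θ
      _ = ENNReal.ofReal (16 * (2 ^ m * V) * ∫ z, g z) := by
          rw [setLIntegral_const, Real.volume_Ioc, hGI, hBV, sub_zero, ENNReal.ofReal_one,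
            mul_one, ← ENNReal.ofReal_mul (by positivity), ← ENNReal.ofReal_mul
            (mul_nonneg (by positivity) (integral_nonneg hg0)),
            ← ENNReal.ofReal_mul (by norm_num)]
          congr 1
          ring
  -- conversion to Bochner integrals
  have hin : ∀ x, ∫ y, F x y = (∫⁻ y, ENNReal.ofReal (F x y)).toReal := by
    intro x
    have hc : Continuous (fun y => F x y) := hFc.comp (Continuous.prodMk_right x)
    exact integral_eq_lintegral_of_nonneg_ae (ae_of_all _ (hF0 x)) hc.aestronglyMeasurable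
  have hms : AEStronglyMeasurable (fun x => ∫ y, F x y) volume :=
    (hFc.stronglyMeasurable.integral_prod_right (ν := volume)).aestronglyMeasurable
  have hR0 : 0 ≤ 16 * (2 ^ m * V) * ∫ z, g z :=
    mul_nonneg (by positivity) (integral_nonneg hg0)
  calc ∫ x, ∫ y, F x y
      = (∫⁻ x, ENNReal.ofReal (∫ y, F x y)).toReal :=
        integral_eq_lintegral_of_nonneg_ae (ae_of_all _ (fun x => integral_nonneg (hF0 x))) hms
    _ ≤ (ENNReal.ofReal (16 * (2 ^ m * V) * ∫ z, g z)).toReal := by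
        apply ENNReal.toReal_mono ENNReal.ofReal_ne_top
        refine le_trans (lintegral_mono (fun x => ?_)) hA
        rw [hin x]
        exact ENNReal.ofReal_toReal_le
    _ = _ := ENNReal.toReal_ofReal hR0

end Claimed.Agent.Lib.Dgnm
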