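import Claimed.Agent.Lib.Dgnm.Defs

/-!
# Lib/Dgnm/Reg : calculus of the classes `dg_Reg`, `dg_RegT` (leaf DG-REG)

Pure infrastructure, no idea needed: restriction, sums, products, composition with `C^1` functions of one
real variable (powers, logarithm), with the formulas for the time derivative and the spatial differential.
`S` is open, so `ContDiffOn ℝ 1 (u t) S` gives `HasFDerivAt` at every point of `S`
(`ContDiffOn.contDiffAt (hS.mem_nhds hx)`, `.differentiableAt`), and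
`fderiv ℝ (fun y => Φ (u t y)) x = deriv Φ (u t x) • fderiv ℝ (u t) x` (`fderiv_comp`/`HasFDerivAt.comp`,
`HasDerivAt.comp_hasFDerivAt`).  Time: `HasDerivAt.comp_hasDerivWithinAt`.  Continuity of the new
`cont1`: rewrite with `ContinuousOn.congr` using the formula on `I ×ˢ S`.
You may add further lemmas of the same kind (tell helper10), do not change the statements below.
-/

set_option autoImplicit false
set_option linter.unusedSectionVars false

open Set Filter MeasureTheory Metric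
open scoped Topology ContDiff

namespace Claimed.Agent.Lib.Dgnm

variable {W : Type*} [NormedAddCommGroup W] [InnerProductSpace ℝ W] [FiniteDimensional ℝ W]
  [MeasurableSpace W] [BorelSpace W]

variable {I I' : Set ℝ} {S S' : Set W} {u ut v vt G Gt H Ht : ℝ → W → ℝ}

/-! ## the classes -/

theorem dg_Reg.mono (h : dg_Reg I S u ut) (hI : I' ⊆ I) (hS : S' ⊆ S) : dg_Reg I' S' u ut :=
  ⟨fun t ht => (h.c1 t (hI ht)).mono hS,
   fun t ht x hx => (h.dt t (hI ht) x (hS hx)).mono hI,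
   h.cont0.mono (prod_mono hI hS), h.cont1.mono (prod_mono hI hS), h.contt.mono (prod_mono hI hS)⟩

theorem dg_RegT.mono (h : dg_RegT I S G Gt) (hI : I' ⊆ I) (hS : S' ⊆ S) : dg_RegT I' S' G Gt :=
  ⟨fun t ht x hx => (h.dt t (hI ht) x (hS hx)).mono hI,
   h.cont0.mono (prod_mono hI hS), h.contt.mono (prod_mono hI hS)⟩

theorem dg_Reg.regT (h : dg_Reg I S u ut) : dg_RegT I S u ut := ⟨h.dt, h.cont0, h.contt⟩

theorem dg_Reg.hasFDerivAt (h : dg_Reg I S u ut) (hS : IsOpen S) {t : ℝ} {x : W} (ht : t ∈ I)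
    (hx : x ∈ S) : HasFDerivAt (u t) (fderiv ℝ (u t) x) x :=
  (((h.c1 t ht).contDiffAt (hS.mem_nhds hx)).differentiableAt one_ne_zero).hasFDerivAt

theorem dg_RegT.hasDerivAt (h : dg_RegT I S G Gt) {s t τ : ℝ} (hI : Icc s t ⊆ I) (hτ : τ ∈ Ioo s t)
    {x : W} (hx : x ∈ S) : HasDerivAt (fun σ => G σ x) (Gt τ x) τ :=
  (h.dt τ (hI (Ioo_subset_Icc_self hτ)) x hx).hasDerivAt
    (mem_of_superset (Icc_mem_nhds hτ.1 hτ.2) hI)

theorem dg_RegT.add (h : dg_RegT I S G Gt) (h' : dg_RegT I S H Ht) :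
    dg_RegT I S (fun t x => G t x + H t x) (fun t x => Gt t x + Ht t x) :=
  ⟨fun t ht x hx => (h.dt t ht x hx).add (h'.dt t ht x hx), h.cont0.add h'.cont0,
    h.contt.add h'.contt⟩

theorem dg_RegT.mul (h : dg_RegT I S G Gt) (h' : dg_RegT I S H Ht) :
    dg_RegT I S (fun t x => G t x * H t x) (fun t x => Gt t x * H t x + G t x * Ht t x) :=
  ⟨fun t ht x hx => (h.dt t ht x hx).mul (h'.dt t ht x hx), h.cont0.mul h'.cont0,
    (h.contt.mul h'.cont0).add (h.cont0.mul h'.contt)⟩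

/-- the time derivative may be replaced by a function that agrees with it on `I × S`. -/
theorem dg_Reg.congr_ut (h : dg_Reg I S u ut) {ut' : ℝ → W → ℝ}
    (he : ∀ t ∈ I, ∀ x ∈ S, ut' t x = ut t x) : dg_Reg I S u ut' :=
  ⟨h.c1, fun t ht x hx => by rw [he t ht x hx]; exact h.dt t ht x hx, h.cont0, h.cont1,
    h.contt.congr (fun q hq => he q.1 hq.1 q.2 hq.2)⟩

theorem dg_Reg.fderiv_comp (h : dg_Reg I S u ut) (hS : IsOpen S) {J : Set ℝ} (hJ : IsOpen J)
    {Φ : ℝ → ℝ} (hΦ : ContDiffOn ℝ 1 Φ J) (hr : ∀ t ∈ I, ∀ x ∈ S, u t x ∈ J) {t : ℝ} {x : W}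
    (ht : t ∈ I) (hx : x ∈ S) :
    fderiv ℝ (fun y => Φ (u t y)) x = deriv Φ (u t x) • fderiv ℝ (u t) x := by
  have hΦ' : HasDerivAt Φ (deriv Φ (u t x)) (u t x) :=
    ((hΦ.contDiffAt (hJ.mem_nhds (hr t ht x hx))).differentiableAt one_ne_zero).hasDerivAt
  exact (hΦ'.comp_hasFDerivAt x (h.hasFDerivAt hS ht hx)).fderiv

/-- composition with a `C^1` function of one real variable. -/
theorem dg_Reg.comp (h : dg_Reg I S u ut) (hS : IsOpen S) {J : Set ℝ} (hJ : IsOpen J) {Φ : ℝ → ℝ}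
    (hΦ : ContDiffOn ℝ 1 Φ J) (hr : ∀ t ∈ I, ∀ x ∈ S, u t x ∈ J) :
    dg_Reg I S (fun t x => Φ (u t x)) (fun t x => deriv Φ (u t x) * ut t x) := by
  have hmaps : MapsTo (fun q : ℝ × W => u q.1 q.2) (I ×ˢ S) J := fun q hq => hr q.1 hq.1 q.2 hq.2
  have hdc : ContinuousOn (fun q : ℝ × W => deriv Φ (u q.1 q.2)) (I ×ˢ S) :=
    (hΦ.continuousOn_deriv_of_isOpen hJ le_rfl).comp h.cont0 hmaps
  refine ⟨fun t ht => hΦ.comp (h.c1 t ht) (fun x hx => hr t ht x hx), ?_,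
    hΦ.continuousOn.comp h.cont0 hmaps, ?_, hdc.mul h.contt⟩
  · intro t ht x hx
    have hΦ' : HasDerivAt Φ (deriv Φ (u t x)) (u t x) :=
      ((hΦ.contDiffAt (hJ.mem_nhds (hr t ht x hx))).differentiableAt one_ne_zero).hasDerivAt
    exact hΦ'.comp_hasDerivWithinAt t (h.dt t ht x hx)
  · exact (hdc.smul h.cont1).congr (fun q hq => h.fderiv_comp hS hJ hΦ hr hq.1 hq.2)

theorem dg_reg_contDiffOn_rpow (γ : ℝ) : ContDiffOn ℝ 1 (fun y : ℝ => y ^ γ) (Ioi 0) :=
  fun _ hy => (Real.contDiffAt_rpow_const_of_ne (ne_of_gt hy)).contDiffWithinAt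

theorem dg_Reg.rpow (h : dg_Reg I S u ut) (hS : IsOpen S) (hpos : ∀ t ∈ I, ∀ x ∈ S, 0 < u t x)
    (γ : ℝ) :
    dg_Reg I S (fun t x => u t x ^ γ) (fun t x => γ * u t x ^ (γ - 1) * ut t x) := by
  refine (h.comp hS isOpen_Ioi (dg_reg_contDiffOn_rpow γ) hpos).congr_ut ?_
  intro t ht x hx
  rw [Real.deriv_rpow_const]

theorem dg_Reg.fderiv_rpow (h : dg_Reg I S u ut) (hS : IsOpen S)
    (hpos : ∀ t ∈ I, ∀ x ∈ S, 0 < u t x) (γ : ℝ) {t : ℝ} {x : W} (ht : t ∈ I) (hx : x ∈ S) :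
    fderiv ℝ (fun y => u t y ^ γ) x = (γ * u t x ^ (γ - 1)) • fderiv ℝ (u t) x := by
  rw [h.fderiv_comp hS isOpen_Ioi (dg_reg_contDiffOn_rpow γ) hpos ht hx,
    Real.deriv_rpow_const]

theorem dg_reg_contDiffOn_log : ContDiffOn ℝ 1 Real.log (Ioi 0) :=
  Real.contDiffOn_log.mono (fun _ hy => ne_of_gt hy)

theorem dg_Reg.log (h : dg_Reg I S u ut) (hS : IsOpen S) (hpos : ∀ t ∈ I, ∀ x ∈ S, 0 < u t x) :
    dg_Reg I S (fun t x => Real.log (u t x)) (fun t x => ut t x / u t x) := by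
  refine (h.comp hS isOpen_Ioi dg_reg_contDiffOn_log hpos).congr_ut ?_
  intro t ht x hx
  rw [Real.deriv_log, div_eq_inv_mul]

theorem dg_Reg.fderiv_log (h : dg_Reg I S u ut) (hS : IsOpen S)
    (hpos : ∀ t ∈ I, ∀ x ∈ S, 0 < u t x) {t : ℝ} {x : W} (ht : t ∈ I) (hx : x ∈ S) :
    fderiv ℝ (fun y => Real.log (u t y)) x = (u t x)⁻¹ • fderiv ℝ (u t) x := by
  rw [h.fderiv_comp hS isOpen_Ioi dg_reg_contDiffOn_log hpos ht hx, Real.deriv_log]

theorem dg_Reg.add (h : dg_Reg I S u ut) (h' : dg_Reg I S v vt) (hS : IsOpen S) :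
    dg_Reg I S (fun t x => u t x + v t x) (fun t x => ut t x + vt t x) :=
  ⟨fun t ht => (h.c1 t ht).add (h'.c1 t ht),
   fun t ht x hx => (h.dt t ht x hx).add (h'.dt t ht x hx), h.cont0.add h'.cont0,
   (h.cont1.add h'.cont1).congr (fun _ hq =>
     ((h.hasFDerivAt hS hq.1 hq.2).add (h'.hasFDerivAt hS hq.1 hq.2)).fderiv),
   h.contt.add h'.contt⟩

theorem dg_Reg.add_const (h : dg_Reg I S u ut) (k : ℝ) :
    dg_Reg I S (fun t x => u t x + k) ut :=
  ⟨fun t ht => (h.c1 t ht).add contDiffOn_const,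
   fun t ht x hx => (h.dt t ht x hx).add_const k, h.cont0.add continuousOn_const,
   h.cont1.congr (fun _ _ => fderiv_add_const k), h.contt⟩

theorem dg_Reg.const_mul (h : dg_Reg I S u ut) (hS : IsOpen S) (A : ℝ) :
    dg_Reg I S (fun t x => A * u t x) (fun t x => A * ut t x) :=
  ⟨fun t ht => contDiffOn_const.mul (h.c1 t ht),
   fun t ht x hx => (h.dt t ht x hx).const_mul A, continuousOn_const.mul h.cont0,
   (h.cont1.const_smul A).congr (fun _ hq => ((h.hasFDerivAt hS hq.1 hq.2).const_mul A).fderiv),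
   continuousOn_const.mul h.contt⟩

theorem dg_Reg.neg (h : dg_Reg I S u ut) : dg_Reg I S (fun t x => - u t x) (fun t x => - ut t x) :=
  ⟨fun t ht => (h.c1 t ht).neg,
   fun t ht x hx => (h.dt t ht x hx).neg, h.cont0.neg,
   h.cont1.neg.congr (fun _ _ => fderiv_fun_neg), h.contt.neg⟩

/-- a time independent `C^1` function. -/
theorem dg_Reg.of_space {w : W → ℝ} (hS : IsOpen S) (hw : ContDiffOn ℝ 1 w S) :
    dg_Reg I S (fun _ x => w x) (fun _ _ => 0) :=
  ⟨fun _ _ => hw, fun t _ x _ => hasDerivWithinAt_const t I (w x),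
   hw.continuousOn.comp continuousOn_snd (fun _ hq => hq.2),
   (hw.continuousOn_fderiv_of_isOpen hS le_rfl).comp continuousOn_snd (fun _ hq => hq.2),
   continuousOn_const⟩

end Claimed.Agent.Lib.Dgnm
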