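import Claimed.Agent.Lib.Dgnm.Basic
import Claimed.Agent.Lib.Dgnm.SlicePow

/-!
# Lib/Dgnm/SliceLog : the logarithm of a positive supersolution, at a fixed time (leaf DG-LOG1)

## `dg_slice_log` (leaf DG-LOG1)
`u > 0` supersolution of the homogeneous equation, `η` a test function.  TEST FUNCTION `ψ = η^2 / u ≥ 0`,
`dψ = 2 η u^{-1} dη - η^2 u^{-2} du`.  With `P = ‖du‖/u`, on `S`:
`dψ(a du) ≤ 2 Lam |η| ‖dη‖ P - lam η^2 P^2`,  `dψ(u f) ≤ 2 Lam |η| ‖dη‖ + Lam η^2 P`,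
`-(du(b) + c u) η^2/u ≤ Lam η^2 P + Lam η^2`, and
`2 Lam |η|‖dη‖ P ≤ (lam/4) η^2 P^2 + (4 Lam^2/lam) ‖dη‖^2`, `2 Lam η^2 P ≤ (lam/4) η^2 P^2 + (4 Lam^2/lam) η^2`,
`2 Lam |η| ‖dη‖ ≤ Lam (η^2 + ‖dη‖^2)`.  So
`dg_form ≤ mu u_t η^2/u - (lam/2) η^2 P^2 + C (η^2 + ‖dη‖^2)`, `C = 4 Lam^2/lam + 2 Lam`;
conclude with `dg_Super.le_integral`.
-/

set_option autoImplicit false
set_option linter.unusedSectionVars false

open Set Filter MeasureTheory Metric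
open scoped Topology ContDiff

namespace Claimed.Agent.Lib.Dgnm

variable {W : Type*} [NormedAddCommGroup W] [InnerProductSpace ℝ W] [FiniteDimensional ℝ W]
  [MeasurableSpace W] [BorelSpace W]

theorem dg_slice_log_aux1 {lam Lam X Y Z : ℝ} (hl : 0 < lam) (hL : lam ≤ Lam) :
    -(lam * X ^ 2) + 2 * Lam * X * Y + 2 * Lam * X * Z + 2 * Lam * Z * Y + Lam * Z ^ 2
      ≤ -(lam / 2 * X ^ 2) + (4 * Lam ^ 2 / lam + 2 * Lam) * (Z ^ 2 + Y ^ 2) := by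
  have hLam : 0 < Lam := lt_of_lt_of_le hl hL
  set q : ℝ := Lam ^ 2 / lam with hq
  have hq0 : 0 ≤ q := by positivity
  have h1 : 2 * Lam * X * Y ≤ lam / 4 * X ^ 2 + 4 * q * Y ^ 2 := by
    have := dg_young (lam / 4) (by positivity) X (2 * Lam * Y)
    have e : (2 * Lam * Y) ^ 2 / (4 * (lam / 4)) = 4 * q * Y ^ 2 := by
      rw [hq]; field_simp; ring
    rw [e] at this
    linarith
  have h2 : 2 * Lam * X * Z ≤ lam / 4 * X ^ 2 + 4 * q * Z ^ 2 := by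
    have := dg_young (lam / 4) (by positivity) X (2 * Lam * Z)
    have e : (2 * Lam * Z) ^ 2 / (4 * (lam / 4)) = 4 * q * Z ^ 2 := by
      rw [hq]; field_simp; ring
    rw [e] at this
    linarith
  have e4 : 4 * Lam ^ 2 / lam = 4 * q := by rw [hq]; ring
  rw [e4]
  have p5 : 0 ≤ Lam * (Y - Z) ^ 2 := by positivity
  have p9 : 0 ≤ Lam * Y ^ 2 := by positivity
  nlinarith [h1, h2, p5, p9]

theorem dg_slice_log_aux2 {lam Lam z d n i u A1 A2 B1 B2 B3 c : ℝ} (hl : 0 < lam)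
    (hL : lam ≤ Lam) (_hd : 0 ≤ d) (_hn : 0 ≤ n) (hi : 0 < i) (hui : u * i = 1)
    (hA1 : lam * n ^ 2 ≤ A1) (hA2 : |A2| ≤ d * (Lam * n)) (hB1 : |B1| ≤ n * Lam)
    (hB2 : |B2| ≤ d * Lam) (hB3 : |B3| ≤ n * Lam) (hc : |c| ≤ Lam) :
    z ^ 2 * (-1 * i ^ 2) * (A1 + u * B1) + i * (2 * z) * (A2 + u * B2) - (B3 + c * u) * (z ^ 2 * i)
      ≤ -(lam / 2 * (z ^ 2 * (n ^ 2 * i ^ 2))) + (4 * Lam ^ 2 / lam + 2 * Lam) * (z ^ 2 + d ^ 2) := by
  have hLam : 0 < Lam := lt_of_lt_of_le hl hL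
  have hz : 0 ≤ |z| := abs_nonneg z
  have hzz : |z| ^ 2 = z ^ 2 := sq_abs z
  have key := dg_slice_log_aux1 (X := |z| * (n * i)) (Y := d) (Z := |z|) hl hL
  have t1 : z ^ 2 * (-1 * i ^ 2) * A1 ≤ -(lam * (|z| * (n * i)) ^ 2) := by
    have : z ^ 2 * i ^ 2 * (lam * n ^ 2) ≤ z ^ 2 * i ^ 2 * A1 :=
      mul_le_mul_of_nonneg_left hA1 (by positivity)
    have e : lam * (|z| * (n * i)) ^ 2 = z ^ 2 * i ^ 2 * (lam * n ^ 2) := by
      rw [mul_pow, hzz]; ring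
    rw [e]; linarith
  have t2 : z ^ 2 * (-1 * i ^ 2) * (u * B1) ≤ Lam * (|z| * (n * i)) * |z| := by
    have h1 : -(n * Lam) ≤ B1 := (abs_le.1 hB1).1
    have : z ^ 2 * i * (-(n * Lam)) ≤ z ^ 2 * i * B1 := mul_le_mul_of_nonneg_left h1 (by positivity)
    have e : z ^ 2 * (-1 * i ^ 2) * (u * B1) = -((u * i) * (z ^ 2 * i * B1)) := by ring
    have e' : Lam * (|z| * (n * i)) * |z| = -(z ^ 2 * i * (-(n * Lam))) := by rw [← hzz]; ring
    rw [e, hui, e']; linarith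
  have t3 : i * (2 * z) * A2 ≤ 2 * Lam * (|z| * (n * i)) * d := by
    have h1 : |z * A2| ≤ |z| * (d * (Lam * n)) := by
      rw [abs_mul]; exact mul_le_mul_of_nonneg_left hA2 hz
    have h2 : z * A2 ≤ |z| * (d * (Lam * n)) := (abs_le.1 h1).2
    have : (2 * i) * (z * A2) ≤ (2 * i) * (|z| * (d * (Lam * n))) :=
      mul_le_mul_of_nonneg_left h2 (by positivity)
    linarith
  have t4 : i * (2 * z) * (u * B2) ≤ 2 * Lam * |z| * d := by
    have h1 : |z * B2| ≤ |z| * (d * Lam) := by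
      rw [abs_mul]; exact mul_le_mul_of_nonneg_left hB2 hz
    have h2 : z * B2 ≤ |z| * (d * Lam) := (abs_le.1 h1).2
    have e : i * (2 * z) * (u * B2) = (u * i) * (2 * (z * B2)) := by ring
    rw [e, hui]; linarith
  have t5 : -(B3 * (z ^ 2 * i)) ≤ Lam * (|z| * (n * i)) * |z| := by
    have h1 : -(n * Lam) ≤ B3 := (abs_le.1 hB3).1
    have : -(n * Lam) * (z ^ 2 * i) ≤ B3 * (z ^ 2 * i) :=
      mul_le_mul_of_nonneg_right h1 (by positivity)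
    have e' : Lam * (|z| * (n * i)) * |z| = -(-(n * Lam) * (z ^ 2 * i)) := by rw [← hzz]; ring
    rw [e']; linarith
  have t6 : -(c * u * (z ^ 2 * i)) ≤ Lam * |z| ^ 2 := by
    have h1 : -Lam ≤ c := (abs_le.1 hc).1
    have : -Lam * z ^ 2 ≤ c * z ^ 2 := mul_le_mul_of_nonneg_right h1 (by positivity)
    have e : c * u * (z ^ 2 * i) = (u * i) * (c * z ^ 2) := by ring
    rw [e, hui, hzz]; linarith
  have e1 : lam / 2 * (z ^ 2 * (n ^ 2 * i ^ 2)) = lam / 2 * (|z| * (n * i)) ^ 2 := by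
    rw [mul_pow, hzz]; ring
  have e2 : z ^ 2 + d ^ 2 = |z| ^ 2 + d ^ 2 := by rw [hzz]
  rw [e1, e2]
  linarith [key, t1, t2, t3, t4, t5, t6]

variable (W) in
theorem dg_slice_log (lam Lam : ℝ) (hl : 0 < lam) (hL : lam ≤ Lam) : ∃ C : ℝ, 0 < C ∧
    ∀ (I : Set ℝ) (S : Set W) (K : dg_Coef W) (u ut : ℝ → W → ℝ), dg_PosSuper I S lam Lam K u ut →
    ∀ t ∈ I, ∀ η : W → ℝ, dg_Test S η →
      (∫ x, η x ^ 2 * (K.mu t x * (-(ut t x / u t x))))
        + lam / 2 * ∫ x, η x ^ 2 * (‖fderiv ℝ (u t) x‖ ^ 2 / u t x ^ 2)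
      ≤ C * ∫ x, (η x ^ 2 + ‖fderiv ℝ η x‖ ^ 2) := by
  have hLam : 0 < Lam := lt_of_lt_of_le hl hL
  refine ⟨4 * Lam ^ 2 / lam + 2 * Lam, by positivity, ?_⟩
  intro I S K u ut h t ht η hη
  set C : ℝ := 4 * Lam ^ 2 / lam + 2 * Lam with hC
  have hS := h.isOpen
  have hu0 : ContinuousOn (u t) S := dg_continuousOn_slice h.reg.cont0 ht
  have hu1 : ContinuousOn (fun x => fderiv ℝ (u t) x) S :=
    dg_continuousOn_slice (h := fun t x => fderiv ℝ (u t) x) h.reg.cont1 ht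
  have hut : ContinuousOn (ut t) S := dg_continuousOn_slice h.reg.contt ht
  have hmu : ContinuousOn (K.mu t) S := dg_continuousOn_slice h.ok.mu_cont ht
  have hne : ∀ x ∈ S, u t x ≠ 0 := fun x hx => (h.pos t ht x hx).ne'
  have hw : ContDiffOn ℝ 1 (fun x => u t x ^ (-1 : ℝ)) S := (h.reg.rpow hS h.pos (-1)).c1 t ht
  have hφ : dg_Test S (fun x => η x ^ 2 * u t x ^ (-1 : ℝ)) := dg_Test.mul_on hS hη.sq hw
  have hφ0 : ∀ x, 0 ≤ η x ^ 2 * u t x ^ (-1 : ℝ) := by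
    intro x
    by_cases hx : x ∈ S
    · exact mul_nonneg (sq_nonneg _) (Real.rpow_nonneg (h.pos t ht x hx).le _)
    · rw [hη.eq_zero hx]; simp
  have i1 : Integrable (fun x => η x ^ 2 * (K.mu t x * (-(ut t x / u t x)))) :=
    dg_integrable_mul hS hη.sq.smooth.continuous hη.sq.cpt hη.sq.supp
      (hmu.mul (hut.div hu0 hne).neg)
  have i2 : Integrable (fun x => η x ^ 2 * (‖fderiv ℝ (u t) x‖ ^ 2 / u t x ^ 2)) :=
    dg_integrable_mul hS hη.sq.smooth.continuous hη.sq.cpt hη.sq.supp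
      ((hu1.norm.pow 2).div (hu0.pow 2) fun x hx => pow_ne_zero 2 (hne x hx))
  have i3 : Integrable (fun x => η x ^ 2 + ‖fderiv ℝ η x‖ ^ 2) :=
    hη.cut2.1.integrable_of_hasCompactSupport hη.cut2.2.1
  set J : W → ℝ := fun x => -(η x ^ 2 * (K.mu t x * (-(ut t x / u t x))))
      - lam / 2 * (η x ^ 2 * (‖fderiv ℝ (u t) x‖ ^ 2 / u t x ^ 2))
      + C * (η x ^ 2 + ‖fderiv ℝ η x‖ ^ 2) with hJ
  have i12 : Integrable (fun x => -(η x ^ 2 * (K.mu t x * (-(ut t x / u t x))))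
      - lam / 2 * (η x ^ 2 * (‖fderiv ℝ (u t) x‖ ^ 2 / u t x ^ 2))) :=
    i1.neg.sub (i2.const_mul _)
  have iJ : Integrable J := i12.add (i3.const_mul C)
  have hJ0 : ∀ x, x ∉ S → J x = 0 := by
    intro x hx
    simp only [hJ, hη.eq_zero hx, hη.fderiv_eq_zero hx]
    simp
  have hle : ∀ x ∈ S, dg_form K u ut (fun x => η x ^ 2 * u t x ^ (-1 : ℝ)) t x ≤ J x := by
    intro x hx
    have hux : 0 < u t x := h.pos t ht x hx
    have hF : K.F t x = 0 := norm_le_zero_iff.1 (h.ok.F_le t ht x hx)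
    have hg : K.g t x = 0 := abs_nonpos_iff.1 (h.ok.g_le t ht x hx)
    have hdφ : fderiv ℝ (fun y => η y ^ 2 * u t y ^ (-1 : ℝ)) x
        = η x ^ 2 • (((-1 : ℝ) * u t x ^ ((-1 : ℝ) - 1)) • fderiv ℝ (u t) x)
          + u t x ^ (-1 : ℝ) • ((2 * η x) • fderiv ℝ η x) := by
      rw [dg_Test.fderiv_mul_on hS hη.sq hw x, h.reg.fderiv_rpow hS h.pos (-1) ht hx,
        hη.fderiv_sq x]
    set i : ℝ := (u t x)⁻¹ with hi
    have hi0 : 0 < i := inv_pos.2 hux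
    have e1 : u t x ^ (-1 : ℝ) = i := Real.rpow_neg_one _
    have e2 : u t x ^ ((-1 : ℝ) - 1) = i ^ 2 := by
      have : ((-1 : ℝ) - 1) = -(2 : ℕ) := by norm_num
      rw [this, Real.rpow_neg hux.le, Real.rpow_natCast, hi, inv_pow]
    have eui : u t x * i = 1 := mul_inv_cancel₀ hux.ne'
    have key := dg_slice_log_aux2 (z := η x) (d := ‖fderiv ℝ η x‖) (n := ‖fderiv ℝ (u t) x‖)
      (i := i) (u := u t x)
      (A1 := fderiv ℝ (u t) x (K.a t x (fderiv ℝ (u t) x)))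
      (A2 := fderiv ℝ η x (K.a t x (fderiv ℝ (u t) x)))
      (B1 := fderiv ℝ (u t) x (K.f t x)) (B2 := fderiv ℝ η x (K.f t x))
      (B3 := fderiv ℝ (u t) x (K.b t x)) (c := K.c t x) hl hL (norm_nonneg _) (norm_nonneg _)
      hi0 eui (h.ok.a_lo t ht x hx _)
      (((fderiv ℝ η x).le_opNorm _).trans
        (mul_le_mul_of_nonneg_left (h.ok.a_hi t ht x hx _) (norm_nonneg _)))
      (((fderiv ℝ (u t) x).le_opNorm _).trans
        (mul_le_mul_of_nonneg_left (h.ok.f_le t ht x hx) (norm_nonneg _)))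
      (((fderiv ℝ η x).le_opNorm _).trans
        (mul_le_mul_of_nonneg_left (h.ok.f_le t ht x hx) (norm_nonneg _)))
      (((fderiv ℝ (u t) x).le_opNorm _).trans
        (mul_le_mul_of_nonneg_left (h.ok.b_le t ht x hx) (norm_nonneg _)))
      (h.ok.c_le t ht x hx)
    unfold dg_form
    rw [hdφ, hF, hg]
    simp only [hJ, add_apply, FunLike.coe_smul, Pi.smul_apply, smul_eq_mul,
      map_add, map_smul, add_zero, e2, e1]
    rw [← hC] at key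
    have e3 : ut t x / u t x = ut t x * i := div_eq_mul_inv _ _
    have e4 : ‖fderiv ℝ (u t) x‖ ^ 2 / u t x ^ 2 = ‖fderiv ℝ (u t) x‖ ^ 2 * i ^ 2 := by
      rw [hi, inv_pow, div_eq_mul_inv]
    rw [e3, e4]
    linarith
  have hfin := dg_Super.le_integral hS h.ok h.reg h.super ht hφ hφ0 iJ hJ0 hle
  have hint : ∫ x, J x = -(∫ x, η x ^ 2 * (K.mu t x * (-(ut t x / u t x))))
      - lam / 2 * (∫ x, η x ^ 2 * (‖fderiv ℝ (u t) x‖ ^ 2 / u t x ^ 2))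
      + C * ∫ x, (η x ^ 2 + ‖fderiv ℝ η x‖ ^ 2) := by
    simp only [hJ]
    have i1n : Integrable (fun x => -(η x ^ 2 * (K.mu t x * (-(ut t x / u t x))))) := i1.neg
    rw [integral_add i12 (i3.const_mul C), integral_sub i1n (i2.const_mul _), integral_neg,
      integral_const_mul, integral_const_mul]
  rw [hint] at hfin
  linarith

end Claimed.Agent.Lib.Dgnm
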