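import Claimed.Agent.Lib.Dgnm.Defs

/-!
# Lib/Dgnm/Sobolev : the Sobolev step from Mathlib's Gagliardo-Nirenberg-Sobolev (leaf DG-SOB)

`m = finrank ℝ W ≥ 2`, `κ = dg_kap W = m/(m-1) ∈ (1,2]`.

`dg_sobolev`: apply `MeasureTheory.eLpNorm_le_eLpNorm_fderiv_one` (exponent `p = κ`,
`NNReal.HolderConjugate m κ`) to `g = f^2` (`C^1`, compact support), `fderiv g = 2 f • fderiv f`:
`(∫ |f|^{2κ})^{1/κ} = ‖g‖_κ ≤ C ∫ 2 |f| ‖df‖ ≤ 2 C (∫ f^2)^{1/2} (∫ ‖df‖^2)^{1/2}` (Cauchy-Schwarz:
`integral_mul_le_Lp_mul_Lq_of_nonneg` with `p = q = 2`, or `2ab ≤ εa²+b²/ε` optimised, or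
`inner_mul_le_norm_mul_norm` in `L2`).  Raise to the power `κ`.
All functions are continuous with compact support, so every integral is finite; conversion between
`eLpNorm`/`lintegral` and Bochner integrals: `eLpNorm_eq_lintegral_rpow_enorm`,
`ofReal_integral_eq_lintegral_ofReal`, `integral_eq_lintegral_of_nonneg_ae`.

`dg_integral_rpow_le` (Jensen/Hölder in time): `integral_mul_le_Lp_mul_Lq_of_nonneg` on
`volume.restrict (Ioc a b)` with `f = X^p`, `g = 1`, exponents `1/p` and its conjugate (`p = 1` trivial).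
-/

set_option autoImplicit false
set_option linter.unusedSectionVars false

open Set Filter MeasureTheory Metric
open scoped Topology ContDiff

namespace Claimed.Agent.Lib.Dgnm

variable {W : Type*} [NormedAddCommGroup W] [InnerProductSpace ℝ W] [FiniteDimensional ℝ W]
  [MeasurableSpace W] [BorelSpace W]

theorem dg_m_ge (hm : 2 ≤ Module.finrank ℝ W) : 2 ≤ dg_m W := by
  unfold dg_m
  exact_mod_cast hm

theorem dg_kap_gt_one (hm : 2 ≤ Module.finrank ℝ W) : 1 < dg_kap W := by
  have h := dg_m_ge hm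
  unfold dg_kap
  rw [one_lt_div (by linarith)]
  linarith

theorem dg_kap_le_two (hm : 2 ≤ Module.finrank ℝ W) : dg_kap W ≤ 2 := by
  have h := dg_m_ge hm
  unfold dg_kap
  rw [div_le_iff₀ (by linarith)]
  linarith

/-- `κ/(κ-1) = m`. -/
theorem dg_kap_div (hm : 2 ≤ Module.finrank ℝ W) : dg_kap W / (dg_kap W - 1) = dg_m W := by
  have h := dg_m_ge hm
  unfold dg_kap
  have h1 : dg_m W - 1 ≠ 0 := by linarith
  have h2 : dg_m W / (dg_m W - 1) - 1 = 1 / (dg_m W - 1) := by field_simp; ring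
  rw [h2]
  field_simp

/-- `κ/(κ-1)^2 = m (m-1)`. -/
theorem dg_kap_div_sq (hm : 2 ≤ Module.finrank ℝ W) :
    dg_kap W / (dg_kap W - 1) ^ 2 = dg_m W * (dg_m W - 1) := by
  have h := dg_m_ge hm
  unfold dg_kap
  have h1 : dg_m W - 1 ≠ 0 := by linarith
  have h2 : dg_m W / (dg_m W - 1) - 1 = 1 / (dg_m W - 1) := by field_simp; ring
  rw [h2]
  field_simp

/-- Cauchy-Schwarz for Bochner integrals. -/
theorem dg_sob_cs {u v : W → ℝ} (hu : Integrable (fun x => u x ^ 2))
    (hv : Integrable (fun x => v x ^ 2)) (huv : Integrable (fun x => u x * v x)) :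
    (∫ x, u x * v x) ^ 2 ≤ (∫ x, u x ^ 2) * ∫ x, v x ^ 2 := by
  have h : ∀ t : ℝ, 0 ≤ (∫ x, u x ^ 2) * (t * t) + (-2 * ∫ x, u x * v x) * t + ∫ x, v x ^ 2 := by
    intro t
    have e : ∫ x, (u x * t - v x) ^ 2 =
        (∫ x, u x ^ 2) * (t * t) + (-2 * ∫ x, u x * v x) * t + ∫ x, v x ^ 2 := by
      have e1 : (fun x => (u x * t - v x) ^ 2) =
          fun x => u x ^ 2 * (t * t) + (-2 * (u x * v x)) * t + v x ^ 2 := by
        funext x; ring
      have hs : Integrable (fun x => u x ^ 2 * (t * t) + (-2 * (u x * v x)) * t) :=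
        (hu.mul_const _).add ((huv.const_mul _).mul_const _)
      rw [e1, integral_add hs hv, integral_add (hu.mul_const _) ((huv.const_mul _).mul_const _),
        integral_mul_const, integral_mul_const, integral_const_mul]
    rw [← e]
    exact integral_nonneg (fun x => sq_nonneg _)
  have := discrim_le_zero h
  rw [discrim] at this
  nlinarith

theorem dg_sob_hcs {E : Type*} [Zero E] {f : W → E} (hfs : HasCompactSupport f) {G : W → ℝ}
    (h : ∀ x, f x = 0 → G x = 0) : HasCompactSupport G :=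
  hfs.mono (fun x hx => fun hfx => hx (h x hfx))

variable (W) in
theorem dg_sobolev (hm : 2 ≤ Module.finrank ℝ W) : ∃ C : ℝ, 0 < C ∧ ∀ f : W → ℝ, ContDiff ℝ 1 f →
    HasCompactSupport f →
    ∫ x, |f x| ^ (2 * dg_kap W) ≤
      C * ((∫ x, f x ^ 2) * ∫ x, ‖fderiv ℝ f x‖ ^ 2) ^ (dg_kap W / 2) := by
  set κ := dg_kap W with hκ
  have hκ1 : 1 < κ := dg_kap_gt_one hm
  have hκ0 : 0 < κ := by linarith
  have hconj : Real.HolderConjugate (Module.finrank ℝ W : ℝ) κ := by
    have h1 : (1:ℝ) < (Module.finrank ℝ W : ℝ) := by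
      have := dg_m_ge hm
      unfold dg_m at this
      linarith
    exact Real.HolderConjugate.conjExponent h1
  set c : NNReal := lintegralPowLePowLIntegralFDerivConst (volume : Measure W) κ with hc
  refine ⟨((c : ℝ) + 1) * 2 ^ κ, by positivity, ?_⟩
  intro f hf hfs
  have hfc : Continuous f := hf.continuous
  have hdc : Continuous (fderiv ℝ f) := hf.continuous_fderiv one_ne_zero
  have hds : HasCompactSupport (fderiv ℝ f) := hfs.fderiv ℝ
  set g : W → ℝ := fun x => f x ^ 2 with hg
  have hgc : ContDiff ℝ 1 g := hf.pow 2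
  have hgs : HasCompactSupport g := dg_sob_hcs hfs (fun x hx => by simp [hg, hx])
  have hmain := lintegral_pow_le_pow_lintegral_fderiv (volume : Measure W) hgc hgs hconj
  -- the three integrable functions
  have i1 : Integrable (fun x => |f x| ^ 2) := by
    apply (hfc.abs.pow 2).integrable_of_hasCompactSupport
    exact dg_sob_hcs hfs (fun x hx => by simp [hx])
  have i2 : Integrable (fun x => ‖fderiv ℝ f x‖ ^ 2) := by
    apply (hdc.norm.pow 2).integrable_of_hasCompactSupport
    exact dg_sob_hcs hds (fun x hx => by simp [hx])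
  have i3 : Integrable (fun x => |f x| * ‖fderiv ℝ f x‖) := by
    apply (hfc.abs.mul hdc.norm).integrable_of_hasCompactSupport
    exact dg_sob_hcs hfs (fun x hx => by simp [hx])
  have i4 : Integrable (fun x => |f x| ^ (2 * κ)) := by
    apply (hfc.abs.rpow_const (fun _ => Or.inr (by positivity))).integrable_of_hasCompactSupport
    exact dg_sob_hcs hfs
      (fun x hx => by simp [hx, Real.zero_rpow (by positivity : 2 * κ ≠ 0)])
  have hcs := dg_sob_cs i1 i2 i3
  simp only [sq_abs] at hcs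
  set A := ∫ x, f x ^ 2 with hA
  set B := ∫ x, ‖fderiv ℝ f x‖ ^ 2 with hB
  set N := ∫ x, |f x| * ‖fderiv ℝ f x‖ with hN
  have hA0 : 0 ≤ A := integral_nonneg (fun x => sq_nonneg _)
  have hB0 : 0 ≤ B := integral_nonneg (fun x => sq_nonneg _)
  have hN0 : 0 ≤ N := integral_nonneg (fun x => mul_nonneg (abs_nonneg _) (norm_nonneg _))
  -- left side
  have eL : ∫⁻ x, ‖g x‖ₑ ^ κ = ENNReal.ofReal (∫ x, |f x| ^ (2 * κ)) := by
    rw [ofReal_integral_eq_lintegral_ofReal i4
      (ae_of_all _ (fun x => Real.rpow_nonneg (abs_nonneg _) _))]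
    congr 1
    funext x
    rw [Real.enorm_eq_ofReal_abs, ENNReal.ofReal_rpow_of_nonneg (abs_nonneg _) hκ0.le]
    congr 1
    rw [hg, abs_pow, ← Real.rpow_natCast, ← Real.rpow_mul (abs_nonneg _)]
    norm_num
  -- right side
  have eR : ∫⁻ x, ‖fderiv ℝ g x‖ₑ = ENNReal.ofReal (2 * N) := by
    rw [hN, ← integral_const_mul, ofReal_integral_eq_lintegral_ofReal (i3.const_mul _)
      (ae_of_all _ (fun x => by positivity))]
    congr 1
    funext x
    have hd : HasFDerivAt g ((2 * f x) • fderiv ℝ f x) x := by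
      have := ((hf.differentiable one_ne_zero) x).hasFDerivAt.pow 2
      simpa using this
    rw [hd.fderiv, ← ofReal_norm, norm_smul, Real.norm_eq_abs, abs_mul]
    congr 1
    simp [mul_assoc]
  rw [eL, eR, ENNReal.ofReal_rpow_of_nonneg (by positivity) hκ0.le, ← ENNReal.ofReal_coe_nnreal,
    ← ENNReal.ofReal_mul (NNReal.coe_nonneg c)] at hmain
  have hreal : ∫ x, |f x| ^ (2 * κ) ≤ (c : ℝ) * (2 * N) ^ κ :=
    (ENNReal.ofReal_le_ofReal_iff (by positivity)).1 hmain
  have hNle : N ≤ (A * B) ^ ((1:ℝ) / 2) := by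
    rw [← Real.sqrt_eq_rpow]
    exact Real.le_sqrt_of_sq_le hcs
  have hAB : 0 ≤ A * B := mul_nonneg hA0 hB0
  calc ∫ x, |f x| ^ (2 * κ) ≤ (c : ℝ) * (2 * N) ^ κ := hreal
    _ ≤ ((c : ℝ) + 1) * (2 * (A * B) ^ ((1:ℝ) / 2)) ^ κ := by
        gcongr
        linarith
    _ = ((c : ℝ) + 1) * 2 ^ κ * (A * B) ^ (κ / 2) := by
        rw [Real.mul_rpow (by norm_num) (by positivity), ← Real.rpow_mul hAB]
        have : (1:ℝ) / 2 * κ = κ / 2 := by ring
        rw [this]
        ring

theorem dg_integral_rpow_le {a b : ℝ} (hab : a ≤ b) {X : ℝ → ℝ} (hX : ContinuousOn X (Icc a b))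
    (h0 : ∀ t ∈ Icc a b, 0 ≤ X t) {p : ℝ} (hp0 : 0 < p) (hp1 : p ≤ 1) :
    ∫ t in a..b, X t ^ p ≤ (b - a) ^ (1 - p) * (∫ t in a..b, X t) ^ p := by
  have hu : uIcc a b = Icc a b := uIcc_of_le hab
  have hXi : IntervalIntegrable X volume a b := (hu ▸ hX).intervalIntegrable
  have hXp : ContinuousOn (fun t => X t ^ p) (Icc a b) :=
    hX.rpow_const (fun _ _ => Or.inr hp0.le)
  have hXpi : IntervalIntegrable (fun t => X t ^ p) volume a b := (hu ▸ hXp).intervalIntegrable
  set I := ∫ t in a..b, X t with hI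
  have hI0 : 0 ≤ I := intervalIntegral.integral_nonneg hab h0
  rcases hab.eq_or_lt with rfl | hlt
  · simp [hI, Real.zero_rpow hp0.ne']
  have hd : 0 < b - a := by linarith
  have key : ∀ y0 : ℝ, 0 < y0 → ∫ t in a..b, X t ^ p ≤
      y0 ^ p * ((b - a) + p * (I / y0 - (b - a))) := by
    intro y0 hy0
    have hpt : ∀ t ∈ Icc a b, X t ^ p ≤ y0 ^ p * (1 + p * (X t / y0 - 1)) := by
      intro t ht
      have hs : -1 ≤ X t / y0 - 1 := by
        have : 0 ≤ X t / y0 := div_nonneg (h0 t ht) hy0.le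
        linarith
      have hB := rpow_one_add_le_one_add_mul_self hs hp0.le hp1
      have e : X t ^ p = y0 ^ p * (1 + (X t / y0 - 1)) ^ p := by
        rw [← Real.mul_rpow hy0.le (by linarith)]
        congr 1
        field_simp
        ring
      rw [e]
      gcongr
    have hri : IntervalIntegrable (fun t => y0 ^ p * (1 + p * (X t / y0 - 1))) volume a b :=
      ((intervalIntegrable_const.add (((hXi.div_const y0).sub
        intervalIntegrable_const).const_mul p)).const_mul _)
    calc ∫ t in a..b, X t ^ p ≤ ∫ t in a..b, y0 ^ p * (1 + p * (X t / y0 - 1)) :=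
          intervalIntegral.integral_mono_on hab hXpi hri hpt
      _ = _ := by
          rw [intervalIntegral.integral_const_mul, intervalIntegral.integral_add
            intervalIntegrable_const (((hXi.div_const y0).sub
              intervalIntegrable_const).const_mul p), intervalIntegral.integral_const_mul,
            intervalIntegral.integral_sub (hXi.div_const y0) intervalIntegrable_const,
            intervalIntegral.integral_div, intervalIntegral.integral_const]
          simp [hI]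
  rcases hI0.eq_or_lt with hz | hpos
  · -- `I = 0`
    rw [← hz, Real.zero_rpow hp0.ne', mul_zero]
    have hlim : Tendsto (fun y0 : ℝ => y0 ^ p * ((b - a) + p * (0 / y0 - (b - a))))
        (𝓝[>] 0) (𝓝 (0 ^ p * ((b - a) + p * (0 - (b - a))))) := by
      have h1 : Tendsto (fun y0 : ℝ => y0 ^ p) (𝓝[>] 0) (𝓝 (0 ^ p)) :=
        ((Real.continuousAt_rpow_const 0 p (Or.inr hp0.le)).tendsto).mono_left nhdsWithin_le_nhds
      simp only [zero_div]
      exact h1.mul_const _
    rw [Real.zero_rpow hp0.ne', zero_mul] at hlim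
    apply ge_of_tendsto hlim
    filter_upwards [self_mem_nhdsWithin] with y0 hy0
    have := key y0 hy0
    rwa [← hz] at this
  · have h := key (I / (b - a)) (div_pos hpos hd)
    have e1 : I / (I / (b - a)) = b - a := by field_simp
    rw [e1, sub_self, mul_zero, add_zero, Real.div_rpow hpos.le hd.le] at h
    have e2 : (b - a) ^ (1 - p) = (b - a) / (b - a) ^ p := by
      rw [Real.rpow_sub hd, Real.rpow_one]
    rw [e2]
    calc ∫ t in a..b, X t ^ p ≤ I ^ p / (b - a) ^ p * (b - a) := h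
      _ = _ := by ring

end Claimed.Agent.Lib.Dgnm
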