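import Claimed.Agent.Lib.Dgnm.Energy
import Claimed.Agent.Lib.Dgnm.Sobolev
import Claimed.Agent.Lib.Dgnm.Cutoff

/-!
# Lib/Dgnm/Step : one step of the Moser iteration (leaf DG-T2)

`κ = dg_kap W`.  Take `ζ` from `dg_cutoff_exists` (between `ρ` and `R`, constant `Cc`), a test function
for `S` since `closedBall x0 R ⊆ S`.  `f_τ = ζ u(τ,·)^{γ/2}` is `C^1` with compact support
(`dg_Test.mul_on`, `dg_Reg.rpow`), `d f_τ = ζ (γ/2) u^{γ/2-1} du + u^{γ/2} dζ`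
(`dg_Test.fderiv_mul_on`, `dg_Reg.fderiv_rpow`), so
`‖d f_τ‖^2 ≤ 2 ζ^2 (γ/2)^2 u^{γ-2} ‖du‖^2 + 2 ‖dζ‖^2 u^γ`,  `f_τ^2 = ζ^2 u^γ`.
Let `NN = ∫_s^t ∫ (ζ^2 + ‖dζ‖^2) u^γ ≤ (1 + Cc^2/(R-ρ)^2) ∫_{Cyl s t x0 R} u^γ`
(the integrand vanishes outside `closedBall x0 R`; `dg_setIntegral_cyl`) and
`A = CE (γ^2 + 1/(s'-s)) NN` (`CE ≥ 1` from `dg_energy`; `NN ≤ A`).  By `dg_energy`:
`∫ f_τ^2 ≤ A` for `τ ∈ [s',t]`, and `∫_{s'}^t ∫ ‖d f_τ‖^2 ≤ 2 A + 2 NN ≤ 4 A`.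
`dg_sobolev`: `∫ |f_τ|^{2κ} ≤ CS (A X τ)^{κ/2}`, `X τ = ∫ ‖d f_τ‖^2` (continuous in `τ`).
`dg_integral_rpow_le` with `p = κ/2 ≤ 1`: `∫_{s'}^t X^{κ/2} ≤ (t-s')^{1-κ/2} (4A)^{κ/2} ≤ 4 (4A)^{κ/2}`
(`t - s' ≤ 4`, `0 ≤ 1-κ/2 ≤ 1`).  Hence `∫_{s'}^t ∫ |f_τ|^{2κ} ≤ 4 CS 2^κ A^κ ≤ (16 (CS+1) A)^κ`.
Finally `|f_τ|^{2κ} = u^{γκ}` on `closedBall x0 ρ` (`ζ = 1`) and `≥ 0` elsewhere.
-/

set_option autoImplicit false
set_option linter.unusedSectionVars false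

open Set Filter MeasureTheory Metric
open scoped Topology ContDiff

namespace Claimed.Agent.Lib.Dgnm

variable {W : Type*} [NormedAddCommGroup W] [InnerProductSpace ℝ W] [FiniteDimensional ℝ W]
  [MeasurableSpace W] [BorelSpace W]

/-- the cutoff `|ζ|^p`, `p > 0`. -/
theorem dg_Test.cut_abs_rpow {S : Set W} {ζ : W → ℝ} (h : dg_Test S ζ) {p : ℝ} (hp : 0 < p) :
    Continuous (fun x => |ζ x| ^ p) ∧ HasCompactSupport (fun x => |ζ x| ^ p) ∧
      tsupport (fun x => |ζ x| ^ p) ⊆ S := by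
  have h0 : (fun v : ℝ => |v| ^ p) 0 = 0 := by simp [Real.zero_rpow hp.ne']
  refine ⟨h.smooth.continuous.abs.rpow_const (fun x => Or.inr hp.le), ?_, ?_⟩
  · exact h.cpt.comp_left (g := fun v : ℝ => |v| ^ p) h0
  · exact (tsupport_comp_subset (g := fun v : ℝ => |v| ^ p) h0 ζ).trans h.supp

variable (W) in
/-- Sobolev inequality for `ζ u^{γ/2}` on a time slice. -/
theorem dg_slice_sobolev (hm : 2 ≤ Module.finrank ℝ W) (lam Lam : ℝ) : ∃ C : ℝ, 0 < C ∧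
    ∀ (I : Set ℝ) (S : Set W) (K : dg_Coef W) (u ut : ℝ → W → ℝ), dg_PosSub I S lam Lam K u ut →
    ∀ γ : ℝ, 2 ≤ γ → ∀ τ ∈ I, ∀ ζ : W → ℝ, dg_Test S ζ →
      ∫ x, |ζ x| ^ (2 * dg_kap W) * u τ x ^ (γ * dg_kap W)
      ≤ C * ((∫ x, ζ x ^ 2 * u τ x ^ γ) *
        (2 * (∫ x, ζ x ^ 2 * ((γ / 2) ^ 2 * u τ x ^ (γ - 2) * ‖fderiv ℝ (u τ) x‖ ^ 2))
          + 2 * ∫ x, (ζ x ^ 2 + ‖fderiv ℝ ζ x‖ ^ 2) * u τ x ^ γ)) ^ (dg_kap W / 2) := by
  obtain ⟨CS, hCS, hsob⟩ := dg_sobolev W hm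
  have hκ1 := dg_kap_gt_one (W := W) hm
  set κ := dg_kap W with hκ
  have hκ0 : 0 < κ := by linarith
  have h2κ : 0 < 2 * κ := by linarith
  refine ⟨CS, hCS, ?_⟩
  intro I S K u ut h γ hγ τ hτI ζ hζ
  have hS := h.isOpen
  have hz2 := hζ.sq
  have hγ0 : 0 < γ := by linarith
  have cpow : ∀ β : ℝ, ContinuousOn (fun q : ℝ × W => u q.1 q.2 ^ β) (I ×ˢ S) := fun β =>
    h.reg.cont0.rpow_const (fun q hq => Or.inl (h.pos _ hq.1 _ hq.2).ne')
  have spow : ∀ β : ℝ, ContinuousOn (fun x => u τ x ^ β) S := fun β =>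
    dg_continuousOn_slice (h := fun r x => u r x ^ β) (cpow β) hτI
  have upos : ∀ x ∈ S, ∀ β : ℝ, 0 < u τ x ^ β := fun x hx β =>
    Real.rpow_pos_of_pos (h.pos τ hτI x hx) β
  have iN : Integrable (fun x => (ζ x ^ 2 + ‖fderiv ℝ ζ x‖ ^ 2) * u τ x ^ γ) :=
    dg_integrable_mul hS hζ.cut2.1 hζ.cut2.2.1 hζ.cut2.2.2 (spow γ)
  have iD : Integrable
      (fun x => ζ x ^ 2 * ((γ / 2) ^ 2 * u τ x ^ (γ - 2) * ‖fderiv ℝ (u τ) x‖ ^ 2)) :=
    dg_integrable_mul hS hz2.smooth.continuous hz2.cpt hz2.supp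
      ((continuousOn_const.mul (spow _)).mul
        ((dg_continuousOn_slice (h := fun t x => fderiv ℝ (u t) x) h.reg.cont1 hτI).norm.pow 2))
  have hw : ContDiffOn ℝ 1 (fun x => u τ x ^ (γ / 2)) S := (h.reg.rpow hS h.pos (γ / 2)).c1 τ hτI
  have hfT : dg_Test S (fun x => ζ x * u τ x ^ (γ / 2)) := dg_Test.mul_on hS hζ hw
  have hs := hsob _ hfT.smooth hfT.cpt
  have e1 : (∫ x, |ζ x * u τ x ^ (γ / 2)| ^ (2 * κ)) = ∫ x, |ζ x| ^ (2 * κ) * u τ x ^ (γ * κ) := by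
    refine integral_congr_ae (ae_of_all _ fun x => ?_)
    by_cases hx : x ∈ S
    · have hu := h.pos τ hτI x hx
      simp only
      rw [abs_mul, abs_of_pos (upos x hx _), Real.mul_rpow (abs_nonneg _)
        (upos x hx _).le, ← Real.rpow_mul hu.le]
      congr 2; ring
    · simp [hζ.eq_zero hx, Real.zero_rpow h2κ.ne']
  have e2 : (∫ x, (ζ x * u τ x ^ (γ / 2)) ^ 2) = ∫ x, ζ x ^ 2 * u τ x ^ γ := by
    refine integral_congr_ae (ae_of_all _ fun x => ?_)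
    by_cases hx : x ∈ S
    · have hu := h.pos τ hτI x hx
      simp only
      rw [mul_pow, ← Real.rpow_natCast (u τ x ^ (γ / 2)) 2, ← Real.rpow_mul hu.le]
      congr 2; push_cast; ring
    · simp [hζ.eq_zero hx]
  have e3 : (∫ x, ‖fderiv ℝ (fun x => ζ x * u τ x ^ (γ / 2)) x‖ ^ 2)
      ≤ 2 * (∫ x, ζ x ^ 2 * ((γ / 2) ^ 2 * u τ x ^ (γ - 2) * ‖fderiv ℝ (u τ) x‖ ^ 2))
          + 2 * ∫ x, (ζ x ^ 2 + ‖fderiv ℝ ζ x‖ ^ 2) * u τ x ^ γ := by
    rw [← integral_const_mul, ← integral_const_mul, ← integral_add (iD.const_mul 2) (iN.const_mul 2)]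
    refine integral_mono_of_nonneg (ae_of_all _ fun x => by positivity)
      ((iD.const_mul 2).add (iN.const_mul 2)) (ae_of_all _ fun x => ?_)
    simp only
    rw [dg_Test.fderiv_mul_on hS hζ hw x]
    by_cases hx : x ∈ S
    · have hu := h.pos τ hτI x hx
      rw [h.reg.fderiv_rpow hS h.pos (γ / 2) hτI hx]
      set p : ℝ := u τ x ^ (γ / 2 - 1) with hp
      set V : ℝ := u τ x ^ (γ / 2) with hV
      have hp0 : 0 < p := Real.rpow_pos_of_pos hu _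
      have hV0 : 0 < V := Real.rpow_pos_of_pos hu _
      have e2 : u τ x ^ (γ - 2) = p ^ 2 := by
        rw [hp, sq, ← Real.rpow_add hu]; congr 1; ring
      have e0 : u τ x ^ γ = V ^ 2 := by
        rw [hV, sq, ← Real.rpow_add hu]; congr 1; ring
      rw [e2, e0]
      have hn : ‖ζ x • (γ / 2 * p) • fderiv ℝ (u τ) x + V • fderiv ℝ ζ x‖
          ≤ |ζ x| * (γ / 2 * p * ‖fderiv ℝ (u τ) x‖) + V * ‖fderiv ℝ ζ x‖ := by
        refine (norm_add_le _ _).trans ?_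
        rw [norm_smul, norm_smul, norm_smul, Real.norm_eq_abs, Real.norm_eq_abs, Real.norm_eq_abs,
          abs_of_pos hV0, abs_of_pos (by positivity : 0 < γ / 2 * p)]
      have hsq := pow_le_pow_left₀ (norm_nonneg _) hn 2
      refine hsq.trans ?_
      have hzz : |ζ x| ^ 2 = ζ x ^ 2 := sq_abs _
      generalize ‖fderiv ℝ (u τ) x‖ = n
      generalize ‖fderiv ℝ ζ x‖ = d
      have ea : ζ x ^ 2 * ((γ / 2) ^ 2 * p ^ 2 * n ^ 2) = (|ζ x| * (γ / 2 * p * n)) ^ 2 := by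
        rw [mul_pow, hzz]; ring
      have eb : (ζ x ^ 2 + d ^ 2) * V ^ 2 = ζ x ^ 2 * V ^ 2 + (V * d) ^ 2 := by ring
      rw [ea, eb]
      generalize |ζ x| * (γ / 2 * p * n) = a
      generalize V * d = b
      nlinarith [sq_nonneg (a - b), mul_nonneg (sq_nonneg (ζ x)) (sq_nonneg V)]
    · simp [hζ.eq_zero hx, hζ.fderiv_eq_zero hx]
  rw [e1, e2] at hs
  refine hs.trans (mul_le_mul_of_nonneg_left ?_ hCS.le)
  have M0 : 0 ≤ ∫ x, ζ x ^ 2 * u τ x ^ γ := by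
    refine integral_nonneg fun x => ?_
    by_cases hx : x ∈ S
    · have := (upos x hx γ).le
      positivity
    · simp [hζ.eq_zero hx]
  refine Real.rpow_le_rpow (mul_nonneg M0 (integral_nonneg fun x => by positivity)) ?_
    (by positivity)
  exact mul_le_mul_of_nonneg_left e3 M0

variable (W) in
theorem dg_moser_step (hm : 2 ≤ Module.finrank ℝ W) (lam Lam : ℝ) (hl : 0 < lam) (hL : lam ≤ Lam) :
    ∃ C : ℝ, 1 ≤ C ∧
    ∀ (I : Set ℝ) (S : Set W) (K : dg_Coef W) (u ut : ℝ → W → ℝ), dg_PosSub I S lam Lam K u ut →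
    ∀ γ : ℝ, 2 ≤ γ → ∀ (x0 : W) (ρ R s s' t : ℝ), 0 < ρ → ρ < R → s < s' → s' ≤ t → t - s ≤ 4 →
      Icc s t ⊆ I → closedBall x0 R ⊆ S →
      ∫ q in dg_Cyl s' t x0 ρ, u q.1 q.2 ^ (γ * dg_kap W)
      ≤ (C * (γ ^ 2 + 1 / (s' - s)) * (1 + 1 / (R - ρ) ^ 2) *
          ∫ q in dg_Cyl s t x0 R, u q.1 q.2 ^ γ) ^ dg_kap W := by
  obtain ⟨CE, hCE, henergy⟩ := dg_energy W lam Lam hl hL
  obtain ⟨CS, hCS, hsob⟩ := dg_slice_sobolev W hm lam Lam
  obtain ⟨Cc, hCc, hcut⟩ := dg_cutoff_exists W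
  have hκ1 := dg_kap_gt_one (W := W) hm
  have hκ2 := dg_kap_le_two (W := W) hm
  set κ := dg_kap W with hκ
  have hκ0 : 0 < κ := by linarith
  refine ⟨16 * (CS + 1) * CE * (1 + Cc ^ 2), ?_, ?_⟩
  · have h1 : 1 ≤ 16 * (CS + 1) := by linarith
    have h2 : 1 ≤ 1 + Cc ^ 2 := by nlinarith [sq_nonneg Cc]
    calc (1 : ℝ) = 1 * 1 * 1 := by ring
      _ ≤ 16 * (CS + 1) * CE * (1 + Cc ^ 2) := by gcongr
  intro I S K u ut h γ hγ x0 ρ R s s' t hρ hρR hss' hs't hts hI hR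
  obtain ⟨ζ, hζc⟩ := hcut x0 ρ R hρ hρR
  have hζ : dg_Test S ζ := hζc.test hR
  have hS := h.isOpen
  have hz2 := hζ.sq
  have hst : s ≤ t := hss'.le.trans hs't
  have hγ0 : 0 < γ := by linarith
  have cpow : ∀ β : ℝ, ContinuousOn (fun q : ℝ × W => u q.1 q.2 ^ β) (I ×ˢ S) := fun β =>
    h.reg.cont0.rpow_const (fun q hq => Or.inl (h.pos _ hq.1 _ hq.2).ne')
  have spow : ∀ r ∈ I, ∀ β : ℝ, ContinuousOn (fun x => u r x ^ β) S := fun r hr β =>
    dg_continuousOn_slice (h := fun r x => u r x ^ β) (cpow β) hr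
  have upos : ∀ r ∈ I, ∀ x ∈ S, ∀ β : ℝ, 0 < u r x ^ β := fun r hr x hx β =>
    Real.rpow_pos_of_pos (h.pos r hr x hx) β
  set D : ℝ → ℝ := fun r =>
    ∫ x, ζ x ^ 2 * ((γ / 2) ^ 2 * u r x ^ (γ - 2) * ‖fderiv ℝ (u r) x‖ ^ 2) with hD
  set N : ℝ → ℝ := fun r => ∫ x, (ζ x ^ 2 + ‖fderiv ℝ ζ x‖ ^ 2) * u r x ^ γ with hN
  set M : ℝ → ℝ := fun r => ∫ x, ζ x ^ 2 * u r x ^ γ with hM
  set Y : ℝ → ℝ := fun r => ∫ x, |ζ x| ^ (2 * κ) * u r x ^ (γ * κ) with hY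
  have h2κ : 0 < 2 * κ := by linarith
  have hzk := hζ.cut_abs_rpow h2κ
  have cD : ContinuousOn D I := dg_integral_continuousOn hS hz2.smooth.continuous hz2.cpt hz2.supp
    (H := fun r x => (γ / 2) ^ 2 * u r x ^ (γ - 2) * ‖fderiv ℝ (u r) x‖ ^ 2)
    ((continuousOn_const.mul (cpow _)).mul (h.reg.cont1.norm.pow 2))
  have cN : ContinuousOn N I := dg_integral_continuousOn hS hζ.cut2.1 hζ.cut2.2.1 hζ.cut2.2.2
    (H := fun r x => u r x ^ γ) (cpow γ)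
  have cY : ContinuousOn Y I := dg_integral_continuousOn hS hzk.1 hzk.2.1 hzk.2.2
    (H := fun r x => u r x ^ (γ * κ)) (cpow _)
  have iN : ∀ r ∈ I, Integrable (fun x => (ζ x ^ 2 + ‖fderiv ℝ ζ x‖ ^ 2) * u r x ^ γ) := fun r hr =>
    dg_integrable_mul hS hζ.cut2.1 hζ.cut2.2.1 hζ.cut2.2.2 (spow r hr γ)
  have iD : ∀ r ∈ I, Integrable
      (fun x => ζ x ^ 2 * ((γ / 2) ^ 2 * u r x ^ (γ - 2) * ‖fderiv ℝ (u r) x‖ ^ 2)) := fun r hr =>
    dg_integrable_mul hS hz2.smooth.continuous hz2.cpt hz2.supp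
      ((continuousOn_const.mul (spow r hr _)).mul
        ((dg_continuousOn_slice (h := fun t x => fderiv ℝ (u t) x) h.reg.cont1 hr).norm.pow 2))
  have iY : ∀ r ∈ I, Integrable (fun x => |ζ x| ^ (2 * κ) * u r x ^ (γ * κ)) := fun r hr =>
    dg_integrable_mul hS hzk.1 hzk.2.1 hzk.2.2 (spow r hr _)
  have N0 : ∀ r ∈ I, 0 ≤ N r := by
    intro r hr
    refine integral_nonneg fun x => ?_
    by_cases hx : x ∈ S
    · have := (upos r hr x hx γ).le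
      positivity
    · simp [hζ.eq_zero hx, hζ.fderiv_eq_zero hx]
  have D0 : ∀ r ∈ I, 0 ≤ D r := by
    intro r hr
    refine integral_nonneg fun x => ?_
    by_cases hx : x ∈ S
    · have := (upos r hr x hx (γ - 2)).le
      positivity
    · simp [hζ.eq_zero hx]
  have M0 : ∀ r ∈ I, 0 ≤ M r := by
    intro r hr
    refine integral_nonneg fun x => ?_
    by_cases hx : x ∈ S
    · have := (upos r hr x hx γ).le
      positivity
    · simp [hζ.eq_zero hx]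
  have sub1 : ∀ {a b : ℝ}, s ≤ a → b ≤ t → Icc a b ⊆ I := fun ha hb =>
    (Icc_subset_Icc ha hb).trans hI
  have ii : ∀ {f : ℝ → ℝ}, ContinuousOn f I → ∀ {a b : ℝ}, s ≤ a → a ≤ b → b ≤ t →
      IntervalIntegrable f volume a b := fun hf _ _ ha hab hb =>
    (hf.mono (sub1 ha hb)).intervalIntegrable_of_Icc hab
  set NN : ℝ := ∫ σ in s..t, N σ with hNN
  have NN0 : 0 ≤ NN := intervalIntegral.integral_nonneg hst fun r hr => N0 r (hI hr)
  set Icyl : ℝ := ∫ q in dg_Cyl s t x0 R, u q.1 q.2 ^ γ with hIcyl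
  have hd : 0 < R - ρ := by linarith
  -- (c) NN ≤ c1 * Icyl
  set c1 : ℝ := 1 + (Cc / (R - ρ)) ^ 2 with hc1
  have ccyl : ContinuousOn (fun q : ℝ × W => u q.1 q.2 ^ γ) (dg_Cyl s t x0 R) :=
    (cpow γ).mono (dg_cyl_subset hI hR)
  have hNNle : NN ≤ c1 * Icyl := by
    rw [hIcyl, dg_setIntegral_cyl hst (H := fun σ x => u σ x ^ γ) ccyl,
      ← intervalIntegral.integral_const_mul]
    refine intervalIntegral.integral_mono_on hst (ii cN le_rfl hst le_rfl)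
      (((dg_setIntegral_ball_continuousOn (H := fun σ x => u σ x ^ γ) ccyl).intervalIntegrable_of_Icc
        hst).const_mul _) ?_
    intro r hr
    have hrI := hI hr
    have e : N r = ∫ x in closedBall x0 R, (ζ x ^ 2 + ‖fderiv ℝ ζ x‖ ^ 2) * u r x ^ γ := by
      rw [setIntegral_eq_integral_of_forall_compl_eq_zero]
      intro x hx
      have hx' : x ∉ tsupport ζ := fun h' => hx (hζc.tsupport_subset h')
      have h1 : ζ x = 0 := image_eq_zero_of_notMem_tsupport hx'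
      have h2 : fderiv ℝ ζ x = 0 :=
        image_eq_zero_of_notMem_tsupport (fun h3 => hx' (tsupport_fderiv_subset ℝ h3))
      simp [h1, h2]
    rw [e, ← integral_const_mul]
    refine setIntegral_mono_on (iN r hrI).integrableOn
      ((((spow r hrI γ).mono hR).integrableOn_compact (isCompact_closedBall x0 R)).const_mul _)
      measurableSet_closedBall ?_
    intro x hx
    have h1 := (upos r hrI x (hR hx) γ).le
    refine mul_le_mul_of_nonneg_right ?_ h1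
    have h2 : ζ x ^ 2 ≤ 1 := by
      have := hζc.nonneg x; have := hζc.le_one x; nlinarith
    have h3 : ‖fderiv ℝ ζ x‖ ^ 2 ≤ (Cc / (R - ρ)) ^ 2 :=
      pow_le_pow_left₀ (norm_nonneg _) (hζc.grad x) 2
    rw [hc1]; linarith
  have Icyl0 : 0 ≤ Icyl := by
    refine setIntegral_nonneg (dg_measurableSet_cyl s t x0 R) fun q hq => ?_
    exact (upos q.1 (hI hq.1) q.2 (hR hq.2) γ).le
  have hc1le : c1 ≤ (1 + Cc ^ 2) * (1 + 1 / (R - ρ) ^ 2) := by
    rw [hc1, div_pow]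
    have : 0 ≤ 1 / (R - ρ) ^ 2 := by positivity
    have e : Cc ^ 2 / (R - ρ) ^ 2 = Cc ^ 2 * (1 / (R - ρ) ^ 2) := by ring
    rw [e]
    nlinarith [sq_nonneg Cc]
  -- (d) energy
  have hds : 0 < s' - s := by linarith
  set g2 : ℝ := γ ^ 2 + 1 / (s' - s) with hg2
  have hg2_1 : 1 ≤ g2 := by
    have : 0 < 1 / (s' - s) := by positivity
    rw [hg2]; nlinarith
  set A : ℝ := CE * g2 * NN with hA
  have hA0 : 0 ≤ A := by positivity
  have hNNA : NN ≤ A := by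
    have : 1 * NN ≤ CE * g2 * NN := by
      refine mul_le_mul_of_nonneg_right ?_ NN0
      nlinarith
    linarith
  have hen : ∀ τ ∈ Icc s' t, M τ + ∫ σ in s'..τ, D σ ≤ A := fun τ hτ =>
    henergy I S K u ut h γ hγ ζ hζ s s' t hss' hs't hI τ hτ
  have hMA : ∀ τ ∈ Icc s' t, M τ ≤ A := by
    intro τ hτ
    have h1 := hen τ hτ
    have h2 : 0 ≤ ∫ σ in s'..τ, D σ :=
      intervalIntegral.integral_nonneg hτ.1 fun r hr => D0 r (sub1 hss'.le hτ.2 hr)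
    linarith
  have hDA : (∫ σ in s'..t, D σ) ≤ A := by
    have h1 := hen t ⟨hs't, le_rfl⟩
    have h2 := M0 t (hI ⟨hst, le_rfl⟩)
    linarith
  -- (e),(f) Sobolev on slices
  set X' : ℝ → ℝ := fun r => 2 * D r + 2 * N r with hX'
  have cX' : ContinuousOn X' I := (continuousOn_const.mul cD).add (continuousOn_const.mul cN)
  have X'0 : ∀ r ∈ I, 0 ≤ X' r := fun r hr => by
    have := D0 r hr; have := N0 r hr; simp only [hX']; linarith
  have hYle : ∀ τ ∈ Icc s' t, Y τ ≤ CS * (A ^ (κ / 2) * X' τ ^ (κ / 2)) := by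
    intro τ hτ
    have hτI : τ ∈ I := sub1 hss'.le le_rfl hτ
    have hs := hsob I S K u ut h γ hγ τ hτI ζ hζ
    refine hs.trans (mul_le_mul_of_nonneg_left ?_ hCS.le)
    rw [← Real.mul_rpow hA0 (X'0 τ hτI)]
    refine Real.rpow_le_rpow (mul_nonneg (M0 τ hτI) (X'0 τ hτI)) ?_ (by positivity)
    exact mul_le_mul_of_nonneg_right (hMA τ hτ) (X'0 τ hτI)
  -- (g) integrate in time
  have hp0 : 0 < κ / 2 := by positivity
  have hp1 : κ / 2 ≤ 1 := by linarith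
  have cXp : ContinuousOn (fun r => X' r ^ (κ / 2)) I := cX'.rpow_const fun r _ => Or.inr hp0.le
  have hXint : (∫ r in s'..t, X' r) ≤ 4 * A := by
    simp only [hX']
    rw [intervalIntegral.integral_add ((ii cD hss'.le hs't le_rfl).const_mul _)
      ((ii cN hss'.le hs't le_rfl).const_mul _), intervalIntegral.integral_const_mul,
      intervalIntegral.integral_const_mul]
    have h3 : (∫ σ in s'..t, N σ) ≤ NN :=
      intervalIntegral.integral_mono_interval hss'.le hs't le_rfl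
        ((ae_restrict_iff' measurableSet_Ioc).2 (ae_of_all _ fun r hr =>
          N0 r (hI (Ioc_subset_Icc_self hr)))) (ii cN le_rfl hst le_rfl)
    linarith
  have hXint0 : 0 ≤ ∫ r in s'..t, X' r :=
    intervalIntegral.integral_nonneg hs't fun r hr => X'0 r (sub1 hss'.le le_rfl hr)
  have hJ : (∫ r in s'..t, X' r ^ (κ / 2)) ≤ 4 * (4 * A ^ (κ / 2)) := by
    have h1 := dg_integral_rpow_le hs't (cX'.mono (sub1 hss'.le le_rfl))
      (fun r hr => X'0 r (sub1 hss'.le le_rfl hr)) hp0 hp1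
    refine h1.trans ?_
    have h2 : (t - s') ^ (1 - κ / 2) ≤ 4 := by
      calc (t - s') ^ (1 - κ / 2) ≤ (4 : ℝ) ^ (1 - κ / 2) :=
            Real.rpow_le_rpow (by linarith) (by linarith) (by linarith)
        _ ≤ (4 : ℝ) ^ (1 : ℝ) := Real.rpow_le_rpow_of_exponent_le (by norm_num) (by linarith)
        _ = 4 := Real.rpow_one 4
    have h3 : (∫ r in s'..t, X' r) ^ (κ / 2) ≤ 4 * A ^ (κ / 2) := by
      calc (∫ r in s'..t, X' r) ^ (κ / 2) ≤ (4 * A) ^ (κ / 2) :=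
            Real.rpow_le_rpow hXint0 hXint hp0.le
        _ = (4 : ℝ) ^ (κ / 2) * A ^ (κ / 2) := Real.mul_rpow (by norm_num) hA0
        _ ≤ (4 : ℝ) ^ (1 : ℝ) * A ^ (κ / 2) := by
            refine mul_le_mul_of_nonneg_right ?_ (Real.rpow_nonneg hA0 _)
            exact Real.rpow_le_rpow_of_exponent_le (by norm_num) hp1
        _ = 4 * A ^ (κ / 2) := by rw [Real.rpow_one]
    exact mul_le_mul h2 h3 (Real.rpow_nonneg hXint0 _) (by norm_num)
  have hYint : (∫ r in s'..t, Y r) ≤ 16 * CS * A ^ κ := by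
    have h1 : (∫ r in s'..t, Y r) ≤ ∫ r in s'..t, CS * (A ^ (κ / 2) * X' r ^ (κ / 2)) :=
      intervalIntegral.integral_mono_on hs't (ii cY hss'.le hs't le_rfl)
        (((ii cXp hss'.le hs't le_rfl).const_mul _).const_mul _) hYle
    rw [intervalIntegral.integral_const_mul, intervalIntegral.integral_const_mul] at h1
    have hAA : A ^ (κ / 2) * A ^ (κ / 2) = A ^ κ := by
      rw [← Real.rpow_add_of_nonneg hA0 hp0.le hp0.le]; congr 1; ring
    have h2 : CS * (A ^ (κ / 2) * ∫ r in s'..t, X' r ^ (κ / 2))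
        ≤ CS * (A ^ (κ / 2) * (4 * (4 * A ^ (κ / 2)))) :=
      mul_le_mul_of_nonneg_left (mul_le_mul_of_nonneg_left hJ (Real.rpow_nonneg hA0 _)) hCS.le
    calc (∫ r in s'..t, Y r) ≤ _ := h1
      _ ≤ _ := h2
      _ = 16 * CS * (A ^ (κ / 2) * A ^ (κ / 2)) := by ring
      _ = _ := by rw [hAA]
  -- the left side
  have hρS : closedBall x0 ρ ⊆ S := (closedBall_subset_closedBall hρR.le).trans hR
  have ccyl' : ContinuousOn (fun q : ℝ × W => u q.1 q.2 ^ (γ * κ)) (dg_Cyl s' t x0 ρ) :=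
    (cpow _).mono (dg_cyl_subset (sub1 hss'.le le_rfl) hρS)
  have hLHS : (∫ q in dg_Cyl s' t x0 ρ, u q.1 q.2 ^ (γ * κ)) ≤ ∫ r in s'..t, Y r := by
    rw [dg_setIntegral_cyl hs't (H := fun σ x => u σ x ^ (γ * κ)) ccyl']
    refine intervalIntegral.integral_mono_on hs't
      ((dg_setIntegral_ball_continuousOn (H := fun σ x => u σ x ^ (γ * κ)) ccyl').intervalIntegrable_of_Icc
        hs't) (ii cY hss'.le hs't le_rfl) ?_
    intro r hr
    have hrI : r ∈ I := sub1 hss'.le le_rfl hr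
    have e : (∫ x in closedBall x0 ρ, u r x ^ (γ * κ))
        = ∫ x in closedBall x0 ρ, |ζ x| ^ (2 * κ) * u r x ^ (γ * κ) := by
      refine setIntegral_congr_fun measurableSet_closedBall fun x hx => ?_
      simp [hζc.eq_one x hx]
    rw [e]
    refine setIntegral_le_integral (iY r hrI) (ae_of_all _ fun x => ?_)
    by_cases hx : x ∈ S
    · have := (upos r hrI x hx (γ * κ)).le
      simp only
      positivity
    · simp [hζ.eq_zero hx, Real.zero_rpow h2κ.ne']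
  -- (h) numerics
  have hb : 1 ≤ 16 * (CS + 1) := by linarith
  have hfin1 : 16 * CS * A ^ κ ≤ (16 * (CS + 1) * A) ^ κ := by
    rw [Real.mul_rpow (by linarith) hA0]
    refine mul_le_mul_of_nonneg_right ?_ (Real.rpow_nonneg hA0 _)
    exact (by linarith : 16 * CS ≤ 16 * (CS + 1)).trans (Real.self_le_rpow_of_one_le hb hκ1.le)
  have hfin2 : 16 * (CS + 1) * A ≤ 16 * (CS + 1) * CE * (1 + Cc ^ 2) * g2 * (1 + 1 / (R - ρ) ^ 2) * Icyl := by
    have h1 : NN ≤ (1 + Cc ^ 2) * (1 + 1 / (R - ρ) ^ 2) * Icyl :=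
      hNNle.trans (mul_le_mul_of_nonneg_right hc1le Icyl0)
    have h2 : 16 * (CS + 1) * (CE * g2) * NN
        ≤ 16 * (CS + 1) * (CE * g2) * ((1 + Cc ^ 2) * (1 + 1 / (R - ρ) ^ 2) * Icyl) :=
      mul_le_mul_of_nonneg_left h1 (by positivity)
    calc 16 * (CS + 1) * A = 16 * (CS + 1) * (CE * g2) * NN := by rw [hA]; ring
      _ ≤ _ := h2
      _ = _ := by ring
  calc (∫ q in dg_Cyl s' t x0 ρ, u q.1 q.2 ^ (γ * κ)) ≤ _ := hLHS
    _ ≤ _ := hYint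
    _ ≤ _ := hfin1
    _ ≤ _ := Real.rpow_le_rpow (by positivity) hfin2 hκ0.le

end Claimed.Agent.Lib.Dgnm
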