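import Claimed.Agent.Lib.Dgnm.Step
import Claimed.Agent.Lib.Dgnm.IterSeq
import Claimed.Agent.Lib.Dgnm.LqSup

/-!
# Lib/Dgnm/Sup2 : Moser iteration, `L^2 → sup` (leaf DG-SUP2)

`κ = dg_kap W`, `m = dg_m W`.  Fix the data and put, for `j : ℕ`,
`R_j = ρ + (R-ρ) 2^{-j}`, `s_j = s' - (s'-s) 2^{-j}`, `γ_j = 2 κ^j`, `J_j = ∫_{Cyl s_j t x0 R_j} u^{γ_j}`.
`R_j - R_{j+1} = (R-ρ) 2^{-j-1}`, `s_{j+1} - s_j = (s'-s) 2^{-j-1}`, `γ_j κ = γ_{j+1}`.
`dg_moser_step` (constant `C1 ≥ 1`) gives `J_{j+1} ≤ (C1 (γ_j^2 + 2^{j+1}/(s'-s)) (1 + 4^{j+1}/(R-ρ)^2) J_j)^κ`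
and `γ_j^2 + 2^{j+1}/(s'-s) ≤ 4 κ^{2j} 2^{j+1} (1 + 1/(s'-s))`, `1 + 4^{j+1}/(R-ρ)^2 ≤ 4^{j+1} (1 + 1/(R-ρ)^2)`,
so `J_{j+1} ≤ (A B^j J_j)^κ` with `A = 32 C1 NN`, `NN = (1 + 1/(s'-s)) (1 + 1/(R-ρ)^2) ≥ 1`, `B = 8 κ^2 ≤ 32`.
`dg_iter_seq` + `dg_kap_div`, `dg_kap_div_sq`: `J_j^(1/κ^j) ≤ A^m B^{m(m-1)} J_0`.
Since `Cyl s' t x0 ρ ⊆ Cyl s_j t x0 R_j` and `u > 0`:
`(∫_{Cyl s' t x0 ρ} (u^2)^{κ^j})^(1/κ^j) ≤ J_j^(1/κ^j)`; `dg_le_of_Lq_bound` with `g = u^2`, `e j = κ^j → ∞`: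
`u^2 ≤ A^m B^{m(m-1)} J_0` on `Cyl s' t x0 ρ`.  Take square roots: `C = (32 C1)^{m/2} 32^{m(m-1)/2}`.
-/

set_option autoImplicit false
set_option linter.unusedSectionVars false

open Set Filter MeasureTheory Metric
open scoped Topology ContDiff

namespace Claimed.Agent.Lib.Dgnm

variable {W : Type*} [NormedAddCommGroup W] [InnerProductSpace ℝ W] [FiniteDimensional ℝ W]
  [MeasurableSpace W] [BorelSpace W]

theorem dg_sup2_num {κ a b C1 : ℝ} (hκ : 1 ≤ κ) (ha : 0 < a) (hb : 0 < b) (hC1 : 1 ≤ C1) (j : ℕ) :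
    C1 * ((2 * κ ^ j) ^ 2 + 1 / (a / 2 ^ (j + 1))) * (1 + 1 / (b / 2 ^ (j + 1)) ^ 2)
      ≤ 32 * C1 * ((1 + 1 / a) * (1 + 1 / b ^ 2)) * (8 * κ ^ 2) ^ j := by
  set T : ℝ := 2 ^ j with hT
  have hT1 : 1 ≤ T := one_le_pow₀ (by norm_num)
  set k : ℝ := κ ^ j with hk
  have hk1 : 1 ≤ k := one_le_pow₀ hκ
  have e8 : (8 * κ ^ 2) ^ j = T ^ 3 * k ^ 2 := by
    have e1 : (8 : ℝ) ^ j = (2 ^ j) ^ 3 := by
      rw [← pow_mul, mul_comm, pow_mul]; norm_num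
    have e2 : (κ ^ 2) ^ j = (κ ^ j) ^ 2 := by
      rw [← pow_mul, mul_comm, pow_mul]
    rw [mul_pow, hT, hk, e1, e2]
  have eP : (2 : ℝ) ^ (j + 1) = 2 * T := by rw [pow_succ, hT]; ring
  rw [e8, eP]
  set x : ℝ := 1 / a with hx
  set y : ℝ := 1 / b ^ 2 with hy
  have hx0 : 0 < x := by positivity
  have hy0 : 0 < y := by positivity
  have e1 : 1 / (a / (2 * T)) = 2 * T * x := by rw [hx]; field_simp
  have e2 : 1 / (b / (2 * T)) ^ 2 = (2 * T) ^ 2 * y := by rw [hy]; field_simp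
  rw [e1, e2]
  have hk2 : 1 ≤ k ^ 2 := one_le_pow₀ hk1
  have h1 : (2 * k) ^ 2 + 2 * T * x ≤ 4 * k ^ 2 * (2 * T) * (1 + x) := by
    have a1 : 0 ≤ (k ^ 2) * (T - 1) := mul_nonneg (by positivity) (by linarith)
    have a2 : 0 ≤ (k ^ 2 - 1) * (T * x) := mul_nonneg (by linarith) (by positivity)
    have a3 : 0 ≤ k ^ 2 * (T * x) := by positivity
    nlinarith
  have h2 : 1 + (2 * T) ^ 2 * y ≤ (2 * T) ^ 2 * (1 + y) := by nlinarith
  have h3 := mul_le_mul h1 h2 (by positivity) (by positivity)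
  have h4 := mul_le_mul_of_nonneg_left h3 (by linarith : (0 : ℝ) ≤ C1)
  calc C1 * ((2 * k) ^ 2 + 2 * T * x) * (1 + (2 * T) ^ 2 * y)
      = C1 * (((2 * k) ^ 2 + 2 * T * x) * (1 + (2 * T) ^ 2 * y)) := by ring
    _ ≤ _ := h4
    _ = _ := by ring

variable (W) in
theorem dg_sup_L2 (hm : 2 ≤ Module.finrank ℝ W) (lam Lam : ℝ) (hl : 0 < lam) (hL : lam ≤ Lam) :
    ∃ C : ℝ, 0 < C ∧
    ∀ (I : Set ℝ) (S : Set W) (K : dg_Coef W) (u ut : ℝ → W → ℝ), dg_PosSub I S lam Lam K u ut →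
    ∀ (x0 : W) (ρ R s s' t : ℝ), 0 < ρ → ρ < R → s < s' → s' < t → t - s ≤ 4 →
      Icc s t ⊆ I → closedBall x0 R ⊆ S →
      ∀ q ∈ dg_Cyl s' t x0 ρ, u q.1 q.2 ≤
        C * ((1 + 1 / (s' - s)) * (1 + 1 / (R - ρ) ^ 2)) ^ (dg_m W / 2) *
          (∫ q in dg_Cyl s t x0 R, u q.1 q.2 ^ (2 : ℝ)) ^ (1 / 2 : ℝ) := by
  obtain ⟨C1, hC1, hstep⟩ := dg_moser_step W hm lam Lam hl hL
  have hκ1 := dg_kap_gt_one (W := W) hm
  have hm2 := dg_m_ge (W := W) hm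
  have hdiv := dg_kap_div (W := W) hm
  have hdiv2 := dg_kap_div_sq (W := W) hm
  set κ := dg_kap W with hκ
  set m := dg_m W with hmdef
  have hκ0 : 0 < κ := by linarith
  set B : ℝ := 8 * κ ^ 2 with hB
  have hB1 : 1 ≤ B := by rw [hB]; nlinarith
  have hC10 : 0 < C1 := by linarith
  refine ⟨(32 * C1) ^ (m / 2) * B ^ (m * (m - 1) / 2), by positivity, ?_⟩
  intro I S K u ut h x0 ρ R s s' t hρ hρR hss' hs't hts hI hR
  have ha : 0 < s' - s := by linarith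
  have hb : 0 < R - ρ := by linarith
  set NN : ℝ := (1 + 1 / (s' - s)) * (1 + 1 / (R - ρ) ^ 2) with hNN
  have hNN1 : 1 ≤ NN := by
    have h1 : 0 < 1 / (s' - s) := by positivity
    have h2 : 0 < 1 / (R - ρ) ^ 2 := by positivity
    rw [hNN]; nlinarith [mul_pos h1 h2]
  set A : ℝ := 32 * C1 * NN with hA
  have hA1 : 1 ≤ A := by rw [hA]; nlinarith
  set Rj : ℕ → ℝ := fun j => ρ + (R - ρ) / 2 ^ j with hRj
  set sj : ℕ → ℝ := fun j => s' - (s' - s) / 2 ^ j with hsj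
  set γj : ℕ → ℝ := fun j => 2 * κ ^ j with hγj
  set J : ℕ → ℝ := fun j => ∫ q in dg_Cyl (sj j) t x0 (Rj j), u q.1 q.2 ^ (γj j) with hJ
  have h2j : ∀ j : ℕ, (1 : ℝ) ≤ 2 ^ j := fun j => one_le_pow₀ (by norm_num)
  have hRj_lt : ∀ j, ρ < Rj j := fun j => by
    have : 0 < (R - ρ) / 2 ^ j := by positivity
    simp only [hRj]; linarith
  have hRj_le : ∀ j, Rj j ≤ R := fun j => by
    have : (R - ρ) / 2 ^ j ≤ R - ρ := div_le_self hb.le (h2j j)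
    simp only [hRj]; linarith
  have hsj_lt : ∀ j, sj j < s' := fun j => by
    have : 0 < (s' - s) / 2 ^ j := by positivity
    simp only [hsj]; linarith
  have hsj_ge : ∀ j, s ≤ sj j := fun j => by
    have : (s' - s) / 2 ^ j ≤ s' - s := div_le_self ha.le (h2j j)
    simp only [hsj]; linarith
  have hsubI : ∀ j, Icc (sj j) t ⊆ I := fun j => (Icc_subset_Icc (hsj_ge j) le_rfl).trans hI
  have hsubS : ∀ j, closedBall x0 (Rj j) ⊆ S := fun j =>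
    (closedBall_subset_closedBall (hRj_le j)).trans hR
  have upos : ∀ r ∈ I, ∀ x ∈ S, ∀ β : ℝ, 0 < u r x ^ β := fun r hr x hx β =>
    Real.rpow_pos_of_pos (h.pos r hr x hx) β
  have cpow : ∀ β : ℝ, ContinuousOn (fun q : ℝ × W => u q.1 q.2 ^ β) (I ×ˢ S) := fun β =>
    h.reg.cont0.rpow_const (fun q hq => Or.inl (h.pos _ hq.1 _ hq.2).ne')
  have hJ0 : ∀ j, 0 ≤ J j := fun j =>
    setIntegral_nonneg (dg_measurableSet_cyl _ _ _ _) fun q hq =>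
      (upos q.1 (hsubI j hq.1) q.2 (hsubS j hq.2) _).le
  have hγ2 : ∀ j, 2 ≤ γj j := fun j => by
    have : 1 ≤ κ ^ j := one_le_pow₀ hκ1.le
    simp only [hγj]; linarith
  have hJstep : ∀ j, J (j + 1) ≤ (A * B ^ j * J j) ^ κ := by
    intro j
    have e1 : sj (j + 1) - sj j = (s' - s) / 2 ^ (j + 1) := by
      simp only [hsj, pow_succ]; field_simp; ring
    have e2 : Rj j - Rj (j + 1) = (R - ρ) / 2 ^ (j + 1) := by
      simp only [hRj, pow_succ]; field_simp; ring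
    have p1 : 0 < (s' - s) / 2 ^ (j + 1) := by positivity
    have p2 : 0 < (R - ρ) / 2 ^ (j + 1) := by positivity
    have h1 := hstep I S K u ut h (γj j) (hγ2 j) x0 (Rj (j + 1)) (Rj j) (sj j) (sj (j + 1)) t
      (hρ.trans (hRj_lt _)) (by linarith) (by linarith) ((hsj_lt _).le.trans hs't.le)
      (by have := hsj_ge j; linarith) (hsubI j) (hsubS j)
    have e3 : γj j * κ = γj (j + 1) := by simp only [hγj, pow_succ]; ring
    rw [e3, e1, e2] at h1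
    refine h1.trans (Real.rpow_le_rpow ?_ ?_ hκ0.le)
    · have := hJ0 j
      have : 0 ≤ γj j ^ 2 + 1 / ((s' - s) / 2 ^ (j + 1)) := by positivity
      positivity
    · refine mul_le_mul_of_nonneg_right ?_ (hJ0 j)
      exact dg_sup2_num hκ1.le ha hb hC1 j
  have hiter := dg_iter_seq hκ1 hA1 hB1 hJ0 hJstep
  rw [hdiv, hdiv2] at hiter
  have eJ0 : J 0 = ∫ q in dg_Cyl s t x0 R, u q.1 q.2 ^ (2 : ℝ) := by
    simp [hJ, hsj, hRj, hγj]
  set M : ℝ := A ^ m * B ^ (m * (m - 1)) * J 0 with hM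
  have hsubI' : Icc s' t ⊆ I := (Icc_subset_Icc hss'.le le_rfl).trans hI
  have hsubS' : closedBall x0 ρ ⊆ S := (closedBall_subset_closedBall hρR.le).trans hR
  have hsup := dg_le_of_Lq_bound hs't hρ (x0 := x0) (g := fun r x => u r x ^ (2 : ℝ))
    ((cpow 2).mono (dg_cyl_subset hsubI' hsubS'))
    (fun q hq => (upos q.1 (hsubI' hq.1) q.2 (hsubS' hq.2) _).le) (M := M) (e := fun j => κ ^ j)
    (tendsto_pow_atTop_atTop_of_one_lt hκ1) (by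
      intro j
      refine le_trans ?_ (hiter j)
      refine Real.rpow_le_rpow (setIntegral_nonneg (dg_measurableSet_cyl _ _ _ _) fun q hq =>
        Real.rpow_nonneg (upos q.1 (hsubI' hq.1) q.2 (hsubS' hq.2) _).le _) ?_ (by positivity)
      have e : (∫ q in dg_Cyl s' t x0 ρ, (u q.1 q.2 ^ (2 : ℝ)) ^ κ ^ j)
          = ∫ q in dg_Cyl s' t x0 ρ, u q.1 q.2 ^ (γj j) := by
        refine setIntegral_congr_fun (dg_measurableSet_cyl _ _ _ _) fun q hq => ?_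
        rw [← Real.rpow_mul (h.pos q.1 (hsubI' hq.1) q.2 (hsubS' hq.2)).le]
      rw [e]
      refine setIntegral_mono_set
        (dg_integrableOn_cyl (H := fun r x => u r x ^ (γj j))
          ((cpow _).mono (dg_cyl_subset (hsubI j) (hsubS j)))) ?_ ?_
      · exact (ae_restrict_iff' (dg_measurableSet_cyl _ _ _ _)).2 (ae_of_all _ fun q hq =>
          (upos q.1 (hsubI j hq.1) q.2 (hsubS j hq.2) _).le)
      · exact (Set.prod_mono (Icc_subset_Icc (hsj_lt j).le le_rfl)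
          (closedBall_subset_closedBall (hRj_lt j).le)).eventuallyLE)
  intro q hq
  have h1 := hsup q hq
  have hu := h.pos q.1 (hsubI' hq.1) q.2 (hsubS' hq.2)
  have hA0 : 0 < A := by linarith
  have hB0 : 0 < B := by linarith
  have hJ00 := hJ0 0
  have h2 : u q.1 q.2 = (u q.1 q.2 ^ (2 : ℝ)) ^ (1 / 2 : ℝ) := by
    rw [← Real.rpow_mul hu.le]; norm_num
  rw [h2]
  refine (Real.rpow_le_rpow (Real.rpow_nonneg hu.le _) h1 (by norm_num)).trans (le_of_eq ?_)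
  rw [hM, Real.mul_rpow (by positivity) hJ00, Real.mul_rpow (by positivity) (by positivity),
    ← Real.rpow_mul hA0.le, ← Real.rpow_mul hB0.le, hA, Real.mul_rpow (by positivity) (by positivity),
    eJ0]
  have e1 : m * (1 / 2) = m / 2 := by ring
  have e2 : m * (m - 1) * (1 / 2) = m * (m - 1) / 2 := by ring
  rw [e1, e2]
  ring

end Claimed.Agent.Lib.Dgnm
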